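/-
Row 293 (S0541), black box "Reverse Minkowski", package GRAM (lattice / extremal core).
Owner of this file: helper140 (RM sub-captain).

Everything is done in GRAM FORM: the lattice is always `ℤ^ι ⊆ (ι → ℝ)`, what varies is a positive
definite matrix `G` (the Gram matrix of a basis).  Notation of the blueprint:
  `Q_G x = xᵀ G x`, `B_G x y = xᵀ G y`,
  gauge of the Voronoi cell  `g_G x = sup_{z ∈ ℤ^ι, z ≠ 0} 2 B_G x z / Q_G z`,
  Gaussian measure `γ_G` = density `sqrt(det G) exp(-π Q_G x)` w.r.t. Lebesgue measure,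
  `Θ_q G = ∫ g_G^q dγ_G`, theta series `ρ_t G = ∑_z exp(-π t² Q_G z)`.
All Voronoi cells `{g_G ≤ 1}` are fundamental domains of the SAME lattice `ℤ^ι`.

This file: definitions only (no sorry).  Leaf statements: `GramStmts.lean`.
-/
import Mathlib

set_option autoImplicit false

namespace Claimed.Agent.R293

open MeasureTheory Matrix
open scoped ENNReal

section Defs
variable {ι κ : Type*}

/-- integer vector as a real vector. -/
def rmgC (z : ι → ℤ) : ι → ℝ := fun i => (z i : ℝ)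

/-- integer matrix as a real matrix. -/
def rmgCM (Z : Matrix ι κ ℤ) : Matrix ι κ ℝ := Z.map (Int.cast : ℤ → ℝ)

/-- the lattice `ℤ^ι` as an additive subgroup of `ι → ℝ`. -/
def rmgZ (ι : Type*) : AddSubgroup (ι → ℝ) where
  carrier := Set.range (rmgC : (ι → ℤ) → ι → ℝ)
  add_mem' := by
    rintro _ _ ⟨a, rfl⟩ ⟨b, rfl⟩
    exact ⟨a + b, by funext i; simp [rmgC]⟩
  zero_mem' := ⟨0, by funext i; simp [rmgC]⟩
  neg_mem' := by
    rintro _ ⟨a, rfl⟩
    exact ⟨-a, by funext i; simp [rmgC]⟩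

variable [Fintype ι]

/-- bilinear form `xᵀ G y`. -/
def rmgB (G : Matrix ι ι ℝ) (x y : ι → ℝ) : ℝ := x ⬝ᵥ (G *ᵥ y)

/-- quadratic form `xᵀ G x`. -/
def rmgQ (G : Matrix ι ι ℝ) (x : ι → ℝ) : ℝ := rmgB G x x

/-- gauge of the Voronoi cell of `ℤ^ι` for the form `G`. -/
noncomputable def rmgGauge (G : Matrix ι ι ℝ) (x : ι → ℝ) : ℝ :=
  ⨆ z : {z : ι → ℤ // z ≠ 0}, 2 * rmgB G x (rmgC z.1) / rmgQ G (rmgC z.1)

/-- theta series `∑_z exp(-π t² Q_G z)`. -/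
noncomputable def rmgRho (t : ℝ) (G : Matrix ι ι ℝ) : ℝ :=
  ∑' z : ι → ℤ, Real.exp (-(Real.pi * t ^ 2 * rmgQ G (rmgC z)))

/-- `K` is a fundamental domain of `ℤ^ι` (Lebesgue measure). -/
def RmgFD (K : Set (ι → ℝ)) : Prop := IsAddFundamentalDomain (rmgZ ι) K volume

/-- the columns of the integer matrix `Z` are linearly independent. -/
def RmgIndep (Z : Matrix ι κ ℤ) : Prop := LinearIndependent ℝ (fun j : κ => rmgC (fun i => Z i j))

variable [DecidableEq ι]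

/-- Gaussian measure of the form `G`. -/
noncomputable def rmgMeas (G : Matrix ι ι ℝ) : Measure (ι → ℝ) :=
  volume.withDensity fun x => ENNReal.ofReal (Real.sqrt G.det * Real.exp (-(Real.pi * rmgQ G x)))

/-- `q`-th moment of `h` under `γ_G`. -/
noncomputable def rmgMom (q : ℕ) (G : Matrix ι ι ℝ) (h : (ι → ℝ) → ℝ) : ℝ≥0∞ :=
  ∫⁻ x, ENNReal.ofReal (h x ^ q) ∂(rmgMeas G)

/-- `Θ_q G`. -/
noncomputable def rmgTheta (q : ℕ) (G : Matrix ι ι ℝ) : ℝ≥0∞ := rmgMom q G (rmgGauge G)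

/-- `ψ_h(A) = ∫ h(A z)^q dγ_1(z)`. -/
noncomputable def rmgPsi (q : ℕ) (h : (ι → ℝ) → ℝ) (A : Matrix ι ι ℝ) : ℝ≥0∞ :=
  rmgMom q (1 : Matrix ι ι ℝ) (fun z => h (A *ᵥ z))

/-- Gram matrix of the sublattice spanned by the columns of `Z`. -/
def rmgSub (G : Matrix ι ι ℝ) (Z : Matrix ι κ ℤ) : Matrix κ κ ℝ := (rmgCM Z)ᵀ * G * rmgCM Z

/-- all sublattices have determinant at least one. -/
def RmgDet1 (G : Matrix ι ι ℝ) : Prop :=
  ∀ (r : ℕ) (Z : Matrix ι (Fin r) ℤ), RmgIndep Z → 1 ≤ (rmgSub G Z).det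

/-- stable form. -/
def RmgStable (G : Matrix ι ι ℝ) : Prop := G.PosDef ∧ G.det = 1 ∧ RmgDet1 G

/-- all sublattices of rank `0 < r < card ι` have determinant at least `1 + δ`. -/
def RmgMargin (δ : ℝ) (G : Matrix ι ι ℝ) : Prop :=
  ∀ (r : ℕ) (Z : Matrix ι (Fin r) ℤ), 0 < r → r < Fintype.card ι → RmgIndep Z →
    1 + δ ≤ (rmgSub G Z).det

/-- `G` maximises `Θ_q` among stable forms. -/
def RmgMaximal (q : ℕ) (G : Matrix ι ι ℝ) : Prop :=
  ∀ G' : Matrix ι ι ℝ, RmgStable G' → rmgTheta q G' ≤ rmgTheta q G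

/-- Schur complement of the block matrix `[[A, B], [Bᵀ, D]]`. -/
noncomputable def rmgSchur {ι₁ ι₂ : Type*} [Fintype ι₁] [DecidableEq ι₁]
    (A : Matrix ι₁ ι₁ ℝ) (B : Matrix ι₁ ι₂ ℝ) (D : Matrix ι₂ ι₂ ℝ) : Matrix ι₂ ι₂ ℝ :=
  D - Bᵀ * A⁻¹ * B

end Defs

end Claimed.Agent.R293
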