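/-
Row 293 (S0541), black box "Reverse Minkowski", package LPos (convex-geometry core).
Owner of this file: helper225.

Goal of the package (`RmlpMainStmt`): every norm `N` on `ℝ^n` whose unit ball has volume at least
one has a position `B`, `det B = 1`, in which all Gaussian moments of `N ∘ B` are polylogarithmic:
`∫ N (B x) ^ q dγ ≤ (rmlpConst n * √q) ^ q`.

Route: Lewis position + trace duality + Rademacher K-convexity on the finite cube (no Hermite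
expansion) + transfer to Gaussians by the contraction principle + Sudakov-type volume bound
(dual Sudakov by shifting the Gaussian measure, Tomczak-Jaegermann's duality trick) + Fernique.

This file contains only definitions: the objects, and every leaf statement as a `def ... : Prop`.
Each leaf is proved in its own file as `theorem rmlp_xxx : RmlpXxxStmt`.
-/
import Mathlib

set_option autoImplicit false

namespace Claimed.Agent.R293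

open MeasureTheory ProbabilityTheory
open scoped RealInnerProductSpace ENNReal

/-- Euclidean space of dimension `n`. -/
abbrev RmE (n : ℕ) := EuclideanSpace ℝ (Fin n)

/-- The standard Gaussian measure on `ℝ^n` (identity covariance). -/
noncomputable abbrev rmGauss (n : ℕ) : Measure (RmE n) := stdGaussian (RmE n)

/-- A seminorm which is a norm. -/
def RmlpIsNorm {n : ℕ} (N : Seminorm ℝ (RmE n)) : Prop := ∀ x, N x = 0 → x = 0

/-- The `ℓ`-functional: `L²(γ)`-norm of `N`. -/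
noncomputable def rmlpEll {n : ℕ} (N : Seminorm ℝ (RmE n)) : ℝ :=
  Real.sqrt (∫ x, N x ^ 2 ∂(rmGauss n))

/-- Sign of a bit. -/
def rmlpSgn (b : Bool) : ℝ := if b then 1 else -1

/-- Level-one Walsh coefficient of a vector valued function on the cube. -/
noncomputable def rmlpW1 {k d : ℕ} (F : (Fin k → Bool) → RmE d) (i : Fin k) : RmE d :=
  ((2 : ℝ) ^ k)⁻¹ • ∑ τ : Fin k → Bool, rmlpSgn (τ i) • F τ

/-- Rademacher projection of a vector valued function on the cube. -/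
noncomputable def rmlpRad {k d : ℕ} (F : (Fin k → Bool) → RmE d) (σ : Fin k → Bool) : RmE d :=
  ∑ i, rmlpSgn (σ i) • rmlpW1 F i

/-- The noise operator `T_ε` on the cube = convolution with the Riesz product. -/
noncomputable def rmlpNoise {k d : ℕ} (ε : ℝ) (F : (Fin k → Bool) → RmE d) (σ : Fin k → Bool) :
    RmE d :=
  ((2 : ℝ) ^ k)⁻¹ • ∑ τ : Fin k → Bool, (∏ i, (1 + ε * rmlpSgn (σ i) * rmlpSgn (τ i))) • F τ

/-- Walsh function. -/
noncomputable def rmlpWalsh {k : ℕ} (S : Finset (Fin k)) (σ : Fin k → Bool) : ℝ :=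
  ∏ i ∈ S, rmlpSgn (σ i)

/-- Walsh coefficient. -/
noncomputable def rmlpCoeff {k d : ℕ} (F : (Fin k → Bool) → RmE d) (S : Finset (Fin k)) : RmE d :=
  ((2 : ℝ) ^ k)⁻¹ • ∑ τ : Fin k → Bool, rmlpWalsh S τ • F τ

/-- Projection on the `j`-th Walsh level. -/
noncomputable def rmlpLevel {k d : ℕ} (j : ℕ) (F : (Fin k → Bool) → RmE d) (σ : Fin k → Bool) :
    RmE d :=
  ∑ S ∈ Finset.univ.filter (fun S : Finset (Fin k) => S.card = j), rmlpWalsh S σ • rmlpCoeff F S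

/-- Sup norm of the coordinates. -/
noncomputable def rmlpMaxAbs {n : ℕ} (x : RmE n) : ℝ := ‖(x.ofLp : Fin n → ℝ)‖

/-- The operator `x ↦ E ⟪g, x⟫ F(g)` attached to `F`. -/
noncomputable def rmlpTF {n : ℕ} (F : RmE n → RmE n) (x : RmE n) : RmE n :=
  ∫ g, ⟪g, x⟫ • F g ∂(rmGauss n)

/-- Support function of the unit ball of `N` (= dual norm). -/
noncomputable def rmlpSupp {n : ℕ} (N : Seminorm ℝ (RmE n)) (y : RmE n) : ℝ :=
  sSup ((fun x => ⟪x, y⟫) '' {x | N x ≤ 1})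

/-- `N` is in Lewis position. -/
def RmlpLewisPos {n : ℕ} (N : Seminorm ℝ (RmE n)) : Prop :=
  ∀ T : RmE n →ₗ[ℝ] RmE n,
    LinearMap.trace ℝ (RmE n) T * rmlpEll N ≤ n * rmlpEll (N.comp T)

/-- Number of Walsh levels kept: `n ≤ 2 ^ rmlpM n`, `1 ≤ rmlpM n`. -/
def rmlpM (n : ℕ) : ℕ := Nat.clog 2 n + 1

/-- The K-convexity bound (Gaussian form). -/
noncomputable def rmlpK (n : ℕ) : ℝ :=
  3 * (rmlpM n : ℝ) * ((rmlpM n : ℝ) + 1) * (4 * Real.log (2 * n))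

/-- The final constant. -/
noncomputable def rmlpConst (n : ℕ) : ℝ := 30 * (300 * rmlpK n)

/-! ### Leaf statements -/

/-- (G0) Density of the standard Gaussian measure. -/
def RmlpDensityStmt : Prop := ∀ n : ℕ,
  rmGauss n = (volume : Measure (RmE n)).withDensity
    (fun x => ENNReal.ofReal ((Real.sqrt (2 * Real.pi))⁻¹ ^ n * Real.exp (-‖x‖ ^ 2 / 2)))

/-- (A1) Nodes and weights: a formula for `P'(0)` on polynomials of degree `≤ m` with small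
weights. -/
def RmlpNodesStmt : Prop := ∀ m : ℕ, 1 ≤ m → ∃ (M : ℕ) (x c : Fin M → ℝ),
  (∀ j, |x j| ≤ 1) ∧ ∑ j, |c j| ≤ (m : ℝ) * (m + 1) ∧
    ∀ k : ℕ, k ≤ m → ∑ j, c j * x j ^ k = if k = 1 then 1 else 0

/-- (A2a) The noise operator is a contraction of `L²(cube; N)` for every seminorm. -/
def RmlpNoiseContrStmt : Prop := ∀ (k d : ℕ) (N : Seminorm ℝ (RmE d)) (ε : ℝ), |ε| ≤ 1 →
  ∀ F : (Fin k → Bool) → RmE d,
    ∑ σ, N (rmlpNoise ε F σ) ^ 2 ≤ ∑ σ, N (F σ) ^ 2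

/-- (A2b) Expansion of the noise operator in Walsh levels. -/
def RmlpNoiseExpStmt : Prop := ∀ (k d : ℕ) (ε : ℝ) (F : (Fin k → Bool) → RmE d)
  (σ : Fin k → Bool),
    rmlpNoise ε F σ = ∑ j ∈ Finset.range (k + 1), ε ^ j • rmlpLevel j F σ

/-- (A2c) Parseval for Walsh levels (Euclidean norm). -/
def RmlpParsevalStmt : Prop := ∀ (k d : ℕ) (lam : ℕ → ℝ) (F : (Fin k → Bool) → RmE d),
  ∑ σ, ‖∑ j ∈ Finset.range (k + 1), lam j • rmlpLevel j F σ‖ ^ 2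
    = ∑ j ∈ Finset.range (k + 1), lam j ^ 2 * ∑ σ, ‖rmlpLevel j F σ‖ ^ 2

/-- (A2d) Level one is the Rademacher projection; the levels sum up to `F`. -/
def RmlpLevelStmt : Prop := ∀ (k d : ℕ) (F : (Fin k → Bool) → RmE d) (σ : Fin k → Bool),
  rmlpLevel 1 F σ = rmlpRad F σ ∧ ∑ j ∈ Finset.range (k + 1), rmlpLevel j F σ = F σ

/-- (A) Rademacher K-convexity with a `log² d` bound. -/
def RmlpKradStmt : Prop := ∀ (k d m : ℕ), 1 ≤ m → ∀ N : Seminorm ℝ (RmE d),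
  (∀ x, ‖x‖ ≤ N x) → (∀ x, N x ≤ 2 ^ m * ‖x‖) → ∀ F : (Fin k → Bool) → RmE d,
    ∑ σ, N (rmlpRad F σ) ^ 2 ≤ (3 * (m : ℝ) * (m + 1)) ^ 2 * ∑ σ, N (F σ) ^ 2

/-- (B2) Contraction principle. -/
def RmlpContractionStmt : Prop := ∀ (k d : ℕ) (N : Seminorm ℝ (RmE d)) (c : Fin k → ℝ) (b : ℝ)
  (v : Fin k → RmE d), (∀ i, |c i| ≤ b) →
    ∑ σ : Fin k → Bool, N (∑ i, (rmlpSgn (σ i) * c i) • v i) ^ 2
      ≤ b ^ 2 * ∑ σ : Fin k → Bool, N (∑ i, rmlpSgn (σ i) • v i) ^ 2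

/-- (B3) Second moment of the maximum of `n` standard Gaussians. -/
def RmlpMaxSqStmt : Prop := ∀ n : ℕ, 1 ≤ n →
  Integrable (fun x : RmE n => rmlpMaxAbs x ^ 2) (rmGauss n) ∧
    ∫ x, rmlpMaxAbs x ^ 2 ∂(rmGauss n) ≤ 4 * Real.log (2 * n)

/-- (B) Gaussian K-convexity for bounded `F`. -/
def RmlpKgaussStmt : Prop := ∀ n m : ℕ, 1 ≤ n → 1 ≤ m → ∀ N : Seminorm ℝ (RmE n),
  (∀ x, ‖x‖ ≤ N x) → (∀ x, N x ≤ 2 ^ m * ‖x‖) → ∀ (F : RmE n → RmE n) (b : ℝ), Measurable F →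
    (∀ g, N (F g) ≤ b) →
    ∫ x, N (rmlpTF F x) ^ 2 ∂(rmGauss n)
      ≤ (3 * (m : ℝ) * (m + 1) * (4 * Real.log (2 * n)) * b) ^ 2

/-- (D) Lewis' lemma. -/
def RmlpLewisStmt : Prop := ∀ n : ℕ, 1 ≤ n → ∀ N : Seminorm ℝ (RmE n), RmlpIsNorm N →
  ∃ B : RmE n →ₗ[ℝ] RmE n, LinearMap.det B = 1 ∧ RmlpLewisPos (N.comp B)

/-- (C) In Lewis position the norm is `n`-equivalent to the Euclidean norm. -/
def RmlpDistStmt : Prop := ∀ n : ℕ, 1 ≤ n → ∀ N : Seminorm ℝ (RmE n), RmlpIsNorm N →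
  RmlpLewisPos N → 0 < rmlpEll N ∧ ∀ x, rmlpEll N * ‖x‖ ≤ n * N x ∧ N x ≤ rmlpEll N * ‖x‖

/-- (E1) Measurable almost norming selection. -/
def RmlpSelectStmt : Prop := ∀ (n : ℕ) (N : Seminorm ℝ (RmE n)), RmlpIsNorm N → ∀ η : ℝ, 0 < η →
  ∃ F : RmE n → RmE n, Measurable F ∧ (∀ g, N (F g) ≤ 1) ∧ ∀ g, rmlpSupp N g - η ≤ ⟪g, F g⟫

/-- (E2) Trace formula: `rmlpTF F` is linear with trace `E ⟪g, F g⟫`. -/
def RmlpTraceStmt : Prop := ∀ (n : ℕ) (F : RmE n → RmE n) (b : ℝ), Measurable F →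
  (∀ g, ‖F g‖ ≤ b) → ∃ T : RmE n →ₗ[ℝ] RmE n, (∀ x, T x = rmlpTF F x) ∧
    LinearMap.trace ℝ (RmE n) T = ∫ g, ⟪g, F g⟫ ∂(rmGauss n)

/-- (F1) Shifting a symmetric set costs at most `exp (-‖y‖²/2)` of its Gaussian measure. -/
def RmlpShiftStmt : Prop := ∀ (n : ℕ) (T : Set (RmE n)), MeasurableSet T → (∀ x ∈ T, -x ∈ T) →
  ∀ y : RmE n, ENNReal.ofReal (Real.exp (-‖y‖ ^ 2 / 2)) * rmGauss n T ≤ rmGauss n {x | x - y ∈ T}

/-- (F2) Dual Sudakov inequality, packing form. -/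
def RmlpPackStmt : Prop := ∀ (n : ℕ) (h : Seminorm ℝ (RmE n)) (η : ℝ), 0 < η →
  0 < ∫ g, h g ∂(rmGauss n) → ∀ S : Finset (RmE n), (∀ u ∈ S, ‖u‖ ≤ 1) →
    (∀ u ∈ S, ∀ v ∈ S, u ≠ v → η ≤ h (u - v)) →
    (S.card : ℝ) ≤ 2 * Real.exp (8 * (∫ g, h g ∂(rmGauss n)) ^ 2 / η ^ 2)

/-- (F3) The support function is a norm, dual to `N`. -/
def RmlpSuppStmt : Prop := ∀ (n : ℕ) (N : Seminorm ℝ (RmE n)), RmlpIsNorm N →
  ∃ h : Seminorm ℝ (RmE n), (∀ y, h y = rmlpSupp N y) ∧ (∀ x y, ⟪x, y⟫ ≤ N x * h y)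

/-- (F4) Sudakov minoration, packing form (Tomczak-Jaegermann's iteration of (F2)): an
`ε`-separated subset of the unit ball of `N`, when `2 ^ k * ε` exceeds the diameter. -/
def RmlpSepStmt : Prop := ∀ (n : ℕ) (N h : Seminorm ℝ (RmE n)), (∀ x y, ⟪x, y⟫ ≤ N x * h y) →
  0 < ∫ g, h g ∂(rmGauss n) → ∀ (k : ℕ) (ε : ℝ), 0 < ε →
    (∀ x y, N x ≤ 1 → N y ≤ 1 → ‖x - y‖ < 2 ^ k * ε) →
    ∀ S : Finset (RmE n), (∀ u ∈ S, N u ≤ 1) → (∀ u ∈ S, ∀ v ∈ S, u ≠ v → ε ≤ ‖u - v‖) →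
    (S.card : ℝ) ≤ 2 ^ k * Real.exp (512 / 3 * (∫ g, h g ∂(rmGauss n)) ^ 2 / ε ^ 2)

/-- (F5) Volume of a Euclidean ball, without the Gamma function. -/
def RmlpBallVolStmt : Prop := ∀ (n : ℕ) (r : ℝ), 0 ≤ r →
  volume (Metric.closedBall (0 : RmE n) r)
    ≤ ENNReal.ofReal (Real.sqrt (2 * Real.pi) ^ n * Real.exp (r ^ 2 / 2))

/-- (F7) First absolute moment of a linear form. -/
def RmlpAbsMomentStmt : Prop := ∀ (n : ℕ) (x : RmE n),
  ‖x‖ / 2 ≤ ∫ g, |⟪g, x⟫| ∂(rmGauss n)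

/-- (F) Sudakov-type bound: mean width of a body of volume at least one. -/
def RmlpSudakovStmt : Prop := ∀ n : ℕ, 1 ≤ n → ∀ N : Seminorm ℝ (RmE n), RmlpIsNorm N →
  1 ≤ volume {x | N x ≤ 1} →
    Integrable (rmlpSupp N) (rmGauss n) ∧ (n : ℝ) / 300 ≤ ∫ g, rmlpSupp N g ∂(rmGauss n)

/-- (G) Fernique / Gaussian Kahane inequality. -/
def RmlpFerniqueStmt : Prop := ∀ (n : ℕ) (N : Seminorm ℝ (RmE n)) (q : ℕ), 1 ≤ q →
  ∫ x, N x ^ q ∂(rmGauss n) ≤ (30 * Real.sqrt q * rmlpEll N) ^ q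

/-- **Main statement of the package.** -/
def RmlpMainStmt : Prop := ∀ n : ℕ, 1 ≤ n → ∀ N : Seminorm ℝ (RmE n), RmlpIsNorm N →
  1 ≤ volume {x | N x ≤ 1} →
    ∃ B : RmE n →ₗ[ℝ] RmE n, LinearMap.det B = 1 ∧
      ∀ q : ℕ, 1 ≤ q → ∫ x, N (B x) ^ q ∂(rmGauss n) ≤ (rmlpConst n * Real.sqrt q) ^ q

end Claimed.Agent.R293
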