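/-
Row 293 (S0541), black box "Reverse Minkowski", package GRAM: LEAF STATEMENTS.
Owner of this file: helper140 (RM sub-captain).  Only `def St... : Prop`, no sorry.
Each leaf is proved in its own file as `theorem rmg_xxx (needed leaves as hypotheses) : StRmgXxx`.
If a statement is false or inconvenient: msg helper140 at once, do not edit this file.

Blueprint (all re-derived by hand by helper140, helper78, helper225 independently):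
 1. `ρ_t(G) γ_G{g_G ≤ t} ≤ 1`                                   (StRmgMass; cosh trick)
 2. `Θ_q G ≤ ∫ h^q dγ_G` for every gauge `h` of a fundamental domain  (StRmgCompare)
 3. `Θ_q [[A,B],[Bᵀ,D]] ≤ Θ_q A + Θ_q (Schur)`                   (StRmgSplit)
 4. stable forms: a maximiser of `Θ_q` exists                    (StRmgMax; Hermite reduction)
 5. a maximiser with margin satisfies `Θ_q G ≤ ψ(M)` for all `det M = 1`  (StRmgInterior; convexity)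
 6. `ψ(M) ≤ (C_n √q)^q` for a suitable `M`                       (StRmgLPos; package LPos)
 7. induction on the rank + Markov                               (GramMain.lean)
-/
import Claimed.Agent.R293.RM.GramDefs
import Claimed.Agent.R293.RM.LPosDefs

set_option autoImplicit false

namespace Claimed.Agent.R293

open MeasureTheory Matrix
open scoped ENNReal

/-! ### Package GA: the quadratic form and the gauge -/

/-- (GA1) coercivity. -/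
def StRmgCoercive : Prop := ∀ (ι : Type) [Fintype ι] [DecidableEq ι] (G : Matrix ι ι ℝ), G.PosDef →
  ∃ c : ℝ, 0 < c ∧ ∀ x : ι → ℝ, c * (x ⬝ᵥ x) ≤ rmgQ G x

/-- (GA2) characterisation of the sublevel sets of the gauge (in particular the family in the
supremum is bounded above). -/
def StRmgGaugeLe : Prop := ∀ (ι : Type) [Fintype ι] [DecidableEq ι] (G : Matrix ι ι ℝ), G.PosDef →
  ∀ (x : ι → ℝ) (s : ℝ), 0 ≤ s →
    (rmgGauge G x ≤ s ↔ ∀ z : ι → ℤ, 2 * rmgB G x (rmgC z) ≤ s * rmgQ G (rmgC z))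

/-- (GA3) the gauge is a norm. -/
def StRmgGaugeSemi : Prop := ∀ (ι : Type) [Fintype ι] [DecidableEq ι] (G : Matrix ι ι ℝ), G.PosDef →
  ∃ p : Seminorm ℝ (ι → ℝ), (∀ x, p x = rmgGauge G x) ∧ (∀ x, p x = 0 → x = 0)

/-- (GA4) the unit ball of the gauge is the Voronoi cell. -/
def StRmgVor : Prop := ∀ (ι : Type) [Fintype ι] [DecidableEq ι] (G : Matrix ι ι ℝ), G.PosDef →
  ∀ x : ι → ℝ, (rmgGauge G x ≤ 1 ↔ ∀ z : ι → ℤ, rmgQ G x ≤ rmgQ G (x - rmgC z))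

/-- (GA5) one-sided perturbation bound: if `θ Q_G ≤ Q_{G'}` on the lattice then
`g_{G'}(x) ≤ θ⁻¹ g_G(G⁻¹ G' x)`.  (`(G⁻¹G'x)ᵀ G z = xᵀ G' z`; terms with negative numerator are
`≤ 0 ≤` the right-hand side.) -/
def StRmgGaugePert : Prop := ∀ (ι : Type) [Fintype ι] [DecidableEq ι] (G G' : Matrix ι ι ℝ),
  G.PosDef → G'.PosDef → ∀ θ : ℝ, 0 < θ →
    (∀ z : ι → ℤ, θ * rmgQ G (rmgC z) ≤ rmgQ G' (rmgC z)) →
    ∀ x : ι → ℝ, rmgGauge G' x ≤ θ⁻¹ * rmgGauge G ((G⁻¹ * G') *ᵥ x)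

/-- (GA6) the gauge does not change when `G` is multiplied by a scalar. -/
def StRmgGaugeScale : Prop := ∀ (ι : Type) [Fintype ι] [DecidableEq ι] (G : Matrix ι ι ℝ) (c : ℝ),
  c ≠ 0 → rmgGauge (c • G) = rmgGauge G

/-- (GA7) unimodular change of basis. -/
def StRmgGaugeUni : Prop := ∀ (ι : Type) [Fintype ι] [DecidableEq ι] (G : Matrix ι ι ℝ)
  (U : Matrix ι ι ℤ), IsUnit U.det → ∀ x : ι → ℝ,
    rmgGauge (rmgSub G U) x = rmgGauge G (rmgCM U *ᵥ x)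

/-- (GA8) relabelling of the coordinates. -/
def StRmgGaugeReindex : Prop := ∀ (ι κ : Type) [Fintype ι] [DecidableEq ι] [Fintype κ]
  [DecidableEq κ] (e : κ ≃ ι) (G : Matrix ι ι ℝ) (x : κ → ℝ),
    rmgGauge (G.submatrix e e) x = rmgGauge G (x ∘ e.symm)

/-! ### Package FD: fundamental domains of `ℤ^ι` -/

/-- (FD1) every fundamental domain has volume one (compare with the unit cube,
`ZSpan.isAddFundamentalDomain`, `IsAddFundamentalDomain.measure_eq`). -/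
def StRmgFDVol : Prop := ∀ (ι : Type) [Fintype ι] [DecidableEq ι] (K : Set (ι → ℝ)),
  RmgFD K → volume K = 1

/-- (FD2) the Voronoi cell is a fundamental domain: closed; covers (a closest lattice point exists
by coercivity); two translates meet inside an affine hyperplane (`Measure.addHaar_affineSubspace`). -/
def StRmgVorFD : Prop := ∀ (ι : Type) [Fintype ι] [DecidableEq ι] (G : Matrix ι ι ℝ), G.PosDef →
  RmgFD {x : ι → ℝ | rmgGauge G x ≤ 1}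

/-- (FD3) the sheared product of two Voronoi cells is a fundamental domain of `ℤ^{ι₁ ⊕ ι₂}`. -/
def StRmgSplitFD : Prop := ∀ (ι₁ ι₂ : Type) [Fintype ι₁] [DecidableEq ι₁] [Fintype ι₂]
  [DecidableEq ι₂] (A : Matrix ι₁ ι₁ ℝ) (S : Matrix ι₂ ι₂ ℝ) (T : Matrix ι₁ ι₂ ℝ),
  A.PosDef → S.PosDef →
    RmgFD {x : ι₁ ⊕ ι₂ → ℝ | max (rmgGauge A ((fun i => x (Sum.inl i)) + T *ᵥ fun j => x (Sum.inr j)))
      (rmgGauge S fun j => x (Sum.inr j)) ≤ 1}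

/-! ### Package ME: the Gaussian measures `γ_G` -/

/-- (ME1) total mass one. -/
def StRmgMeasProb : Prop := ∀ (ι : Type) [Fintype ι] [DecidableEq ι] (G : Matrix ι ι ℝ), G.PosDef →
  IsProbabilityMeasure (rmgMeas G)

/-- (ME2) linear change of variables: if `X ∼ γ_{AᵀGA}` then `A X ∼ γ_G`
(`Real.map_matrix_volume_pi_eq_smul_volume_pi`). -/
def StRmgMeasMap : Prop := ∀ (ι : Type) [Fintype ι] [DecidableEq ι] (G A : Matrix ι ι ℝ), G.PosDef →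
  A.det ≠ 0 → (rmgMeas (Aᵀ * G * A)).map (fun x => A *ᵥ x) = rmgMeas G

/-- (ME3) relabelling of the coordinates. -/
def StRmgMeasReindex : Prop := ∀ (ι κ : Type) [Fintype ι] [DecidableEq ι] [Fintype κ]
  [DecidableEq κ] (e : κ ≃ ι) (G : Matrix ι ι ℝ),
    (rmgMeas (G.submatrix e e)).map (fun x : κ → ℝ => x ∘ e.symm) = rmgMeas G

/-- (ME4) block factorisation: `Q_G(x) = Q_A(x₁ + A⁻¹B x₂) + Q_S(x₂)`, `det G = det A det S`,
shear + Tonelli. -/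
def StRmgMeasBlock : Prop := ∀ (ι₁ ι₂ : Type) [Fintype ι₁] [DecidableEq ι₁] [Fintype ι₂]
  [DecidableEq ι₂] (A : Matrix ι₁ ι₁ ℝ) (B : Matrix ι₁ ι₂ ℝ) (D : Matrix ι₂ ι₂ ℝ),
  (fromBlocks A B Bᵀ D).PosDef →
    (rmgMeas (fromBlocks A B Bᵀ D)).map
      (fun x : ι₁ ⊕ ι₂ → ℝ => ((fun i => x (Sum.inl i)) + (A⁻¹ * B) *ᵥ (fun j => x (Sum.inr j)),
        fun j => x (Sum.inr j)))
      = (rmgMeas A).prod (rmgMeas (rmgSchur A B D))

/-- (ME5) positive definiteness of the blocks. -/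
def StRmgBlockPD : Prop := ∀ (ι₁ ι₂ : Type) [Fintype ι₁] [DecidableEq ι₁] [Fintype ι₂]
  [DecidableEq ι₂] (A : Matrix ι₁ ι₁ ℝ) (B : Matrix ι₁ ι₂ ℝ) (D : Matrix ι₂ ι₂ ℝ),
  (fromBlocks A B Bᵀ D).PosDef → A.PosDef ∧ (rmgSchur A B D).PosDef ∧
    (fromBlocks A B Bᵀ D).det = A.det * (rmgSchur A B D).det

/-- (ME6) all moments of a seminorm are finite. -/
def StRmgMomFinite : Prop := ∀ (ι : Type) [Fintype ι] [DecidableEq ι] (G : Matrix ι ι ℝ), G.PosDef →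
  ∀ (p : Seminorm ℝ (ι → ℝ)) (q : ℕ), rmgMom q G p < ⊤

/-! ### Package CO: mass bound and comparison -/

/-- (CO1) summability of the theta series. -/
def StRmgSummable : Prop := ∀ (ι : Type) [Fintype ι] [DecidableEq ι] (G : Matrix ι ι ℝ), G.PosDef →
  ∀ t : ℝ, 0 < t → Summable fun z : ι → ℤ => Real.exp (-(Real.pi * t ^ 2 * rmgQ G (rmgC z)))

/-- (CO2) `ρ_1(G) γ_G(K) ≤ 1` for every fundamental domain `K`:
`1 = ∑_z ∫_K dens(x+z) = ∫_K dens(x) ∑_z e^{-πQ(z)} cosh(2π B(x,z)) ≥ γ_G(K) ρ_1(G)`. -/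
def StRmgMassFD : Prop := ∀ (ι : Type) [Fintype ι] [DecidableEq ι] (G : Matrix ι ι ℝ), G.PosDef →
  ∀ K : Set (ι → ℝ), RmgFD K → ENNReal.ofReal (rmgRho 1 G) * rmgMeas G K ≤ 1

/-- (CO3) scaled form for the Voronoi cell (apply CO2 to `t² G`; `γ_{t²G}(V) = γ_G(tV)`). -/
def StRmgMass : Prop := ∀ (ι : Type) [Fintype ι] [DecidableEq ι] (G : Matrix ι ι ℝ), G.PosDef →
  ∀ t : ℝ, 0 < t → ENNReal.ofReal (rmgRho t G) * rmgMeas G {x | rmgGauge G x ≤ t} ≤ 1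

/-- (CO4) the Voronoi cell has the largest Gaussian measure among fundamental domains:
`∫_K e^{-πQ(x)} ≤ ∫_K e^{-π min_z Q(x-z)} = ∫_V e^{-π min_z Q(x-z)} = ∫_V e^{-πQ(x)}`
(`IsAddFundamentalDomain.setLIntegral_eq`). -/
def StRmgVorMax : Prop := ∀ (ι : Type) [Fintype ι] [DecidableEq ι] (G : Matrix ι ι ℝ), G.PosDef →
  ∀ K : Set (ι → ℝ), RmgFD K → rmgMeas G K ≤ rmgMeas G {x | rmgGauge G x ≤ 1}

/-- (CO5) comparison of moments: apply CO4 to `s² G` for all `s > 0`, then the layer cake formula. -/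
def StRmgCompare : Prop := ∀ (ι : Type) [Fintype ι] [DecidableEq ι] (G : Matrix ι ι ℝ), G.PosDef →
  ∀ h : (ι → ℝ) → ℝ, Measurable h → (∀ x, 0 ≤ h x) → (∀ (s : ℝ) (x : ι → ℝ), 0 < s → h (s • x) = s * h x) →
    RmgFD {x | h x ≤ 1} → ∀ q : ℕ, rmgTheta q G ≤ rmgMom q G h

/-- (CO6) splitting along a primitive sublattice. -/
def StRmgSplit : Prop := ∀ (ι₁ ι₂ : Type) [Fintype ι₁] [DecidableEq ι₁] [Fintype ι₂]
  [DecidableEq ι₂] (A : Matrix ι₁ ι₁ ℝ) (B : Matrix ι₁ ι₂ ℝ) (D : Matrix ι₂ ι₂ ℝ),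
  (fromBlocks A B Bᵀ D).PosDef → ∀ q : ℕ, 1 ≤ q →
    rmgTheta q (fromBlocks A B Bᵀ D) ≤ rmgTheta q A + rmgTheta q (rmgSchur A B D)

/-! ### Package TH: invariances of `Θ_q` -/

/-- (TH1) unimodular invariance. -/
def StRmgThetaUni : Prop := ∀ (ι : Type) [Fintype ι] [DecidableEq ι] (G : Matrix ι ι ℝ), G.PosDef →
  ∀ U : Matrix ι ι ℤ, IsUnit U.det → ∀ q : ℕ, rmgTheta q (rmgSub G U) = rmgTheta q G

/-- (TH2) relabelling. -/
def StRmgThetaReindex : Prop := ∀ (ι κ : Type) [Fintype ι] [DecidableEq ι] [Fintype κ]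
  [DecidableEq κ] (e : κ ≃ ι) (G : Matrix ι ι ℝ) (q : ℕ),
    rmgTheta q (G.submatrix e e) = rmgTheta q G

/-- (TH3) scaling. -/
def StRmgThetaScale : Prop := ∀ (ι : Type) [Fintype ι] [DecidableEq ι] (G : Matrix ι ι ℝ), G.PosDef →
  ∀ (s : ℝ) (q : ℕ), 0 < s → rmgTheta q G = ENNReal.ofReal (s ^ q) * rmgTheta q (s ^ 2 • G)

/-- (TH4) `∫ h dγ_{BᵀB} = ∫ h(B⁻¹ z) dγ_1(z)`. -/
def StRmgMomFactor : Prop := ∀ (ι : Type) [Fintype ι] [DecidableEq ι] (B : Matrix ι ι ℝ), B.det ≠ 0 →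
  ∀ (h : (ι → ℝ) → ℝ) (q : ℕ), rmgMom q (Bᵀ * B) h = rmgPsi q h B⁻¹

/-! ### Package DE: algebra of the determinant condition -/

/-- (DE1) arbitrary finite index types for the columns. -/
def StRmgDet1Gen : Prop := ∀ (ι κ : Type) [Fintype ι] [DecidableEq ι] [Fintype κ] [DecidableEq κ]
  (G : Matrix ι ι ℝ), RmgDet1 G → ∀ Z : Matrix ι κ ℤ, RmgIndep Z → 1 ≤ (rmgSub G Z).det

/-- (DE2) unimodular invariance. -/
def StRmgDet1Uni : Prop := ∀ (ι : Type) [Fintype ι] [DecidableEq ι] (G : Matrix ι ι ℝ)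
  (U : Matrix ι ι ℤ), IsUnit U.det → RmgDet1 G → RmgDet1 (rmgSub G U)

/-- (DE3) relabelling. -/
def StRmgDet1Reindex : Prop := ∀ (ι κ : Type) [Fintype ι] [DecidableEq ι] [Fintype κ]
  [DecidableEq κ] (e : κ ≃ ι) (G : Matrix ι ι ℝ), RmgDet1 G → RmgDet1 (G.submatrix e e)

/-- (DE4) scaling up. -/
def StRmgDet1Scale : Prop := ∀ (ι : Type) [Fintype ι] [DecidableEq ι] (G : Matrix ι ι ℝ) (c : ℝ),
  1 ≤ c → RmgDet1 G → RmgDet1 (c • G)

/-- (DE5) sublattice. -/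
def StRmgDet1Block1 : Prop := ∀ (ι₁ ι₂ : Type) [Fintype ι₁] [DecidableEq ι₁] [Fintype ι₂]
  [DecidableEq ι₂] (A : Matrix ι₁ ι₁ ℝ) (B : Matrix ι₁ ι₂ ℝ) (D : Matrix ι₂ ι₂ ℝ),
  RmgDet1 (fromBlocks A B Bᵀ D) → RmgDet1 A

/-- (DE6) quotient lattice: `det([[1,0],[0,Z]]ᵀ G [[1,0],[0,Z]]) = det A · det(Zᵀ S Z)`. -/
def StRmgDet1Block2 : Prop := ∀ (ι₁ ι₂ : Type) [Fintype ι₁] [DecidableEq ι₁] [Fintype ι₂]
  [DecidableEq ι₂] (A : Matrix ι₁ ι₁ ℝ) (B : Matrix ι₁ ι₂ ℝ) (D : Matrix ι₂ ι₂ ℝ),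
  (fromBlocks A B Bᵀ D).PosDef → RmgDet1 (fromBlocks A B Bᵀ D) →
    ∀ s : ℝ, 1 ≤ s → A.det ≤ s ^ 2 → RmgDet1 (s ^ 2 • rmgSchur A B D)

/-- (DE7) unimodular completion of the saturation (Smith normal form,
`Submodule.smithNormalForm`). -/
def StRmgSNF : Prop := ∀ (n r : ℕ) (Z : Matrix (Fin n) (Fin r) ℤ), RmgIndep Z →
  ∃ (U : Matrix (Fin n) (Fin n) ℤ) (W : Matrix (Fin r) (Fin r) ℤ) (e : Fin r ⊕ Fin (n - r) ≃ Fin n),
    IsUnit U.det ∧ W.det ≠ 0 ∧ Z = (U.submatrix id (e ∘ Sum.inl)) * W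

/-- (DE8) normalisation: scale `G` down until the determinant condition is tight.
(`s` = supremum of the `s ≥ 1` with `RmgDet1 (s⁻² G)`; the set is closed and bounded since
`det G / s^{2n} ≥ 1`.) -/
def StRmgNormalize : Prop := ∀ (n : ℕ) (G : Matrix (Fin n) (Fin n) ℝ), 0 < n → G.PosDef → RmgDet1 G →
  ∃ s : ℝ, 1 ≤ s ∧ RmgDet1 ((s ^ 2)⁻¹ • G) ∧
    ∀ δ : ℝ, 0 < δ → ∃ (r : ℕ) (Z : Matrix (Fin n) (Fin r) ℤ), 0 < r ∧ RmgIndep Z ∧
      (rmgSub ((s ^ 2)⁻¹ • G) Z).det ≤ 1 + δ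

/-- (DE9) independent columns: at most `n` of them; for `r = n` the determinant of the sublattice is
`(det Z)² det G ≥ det G`. -/
def StRmgFullRank : Prop := ∀ (n r : ℕ) (G : Matrix (Fin n) (Fin n) ℝ) (Z : Matrix (Fin n) (Fin r) ℤ),
  G.PosDef → RmgIndep Z → r ≤ n ∧ (r = n → G.det ≤ (rmgSub G Z).det)

/-- (DE10) monotonicity of the determinant: `θ Q_G ≤ Q_{G'}` implies
`θ^r det(Zᵀ G Z) ≤ det(Zᵀ G' Z)`. -/
def StRmgDetMono : Prop := ∀ (ι : Type) [Fintype ι] [DecidableEq ι] (G G' : Matrix ι ι ℝ),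
  G.PosDef → G'.PosDef → ∀ θ : ℝ, 0 < θ → (∀ x : ι → ℝ, θ * rmgQ G x ≤ rmgQ G' x) →
    ∀ (r : ℕ) (Z : Matrix ι (Fin r) ℤ), RmgIndep Z →
      θ ^ r * (rmgSub G Z).det ≤ (rmgSub G' Z).det

/-! ### Package HE: Hermite reduction -/

/-- (HE) a form with `Q ≥ 1` on nonzero integer vectors and `det ≤ 1` is unimodularly equivalent to
a form with bounded entries.  Induction on `n` for the statement with parameters
(`Q ≥ lam`, `det ≤ D`): shortest vector `z₁` (primitive, complete it by DE7), `μ = Q(z₁)`,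
Schur complement `S`: `Q_S ≥ (3/4) μ`, `det S = det G / μ`, Hermite's inequality
`det G ≥ c_n μ^n` bounds `μ`; lift the reduced basis of `S` and size-reduce. -/
def StRmgHermite : Prop := ∀ n : ℕ, ∃ R : ℝ, ∀ G : Matrix (Fin n) (Fin n) ℝ, G.PosDef →
  (∀ z : Fin n → ℤ, z ≠ 0 → 1 ≤ rmgQ G (rmgC z)) → G.det ≤ 1 →
    ∃ U : Matrix (Fin n) (Fin n) ℤ, IsUnit U.det ∧ ∀ i j, |rmgSub G U i j| ≤ R

/-! ### Package MX: existence of a maximiser -/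

/-- (MX1) upper semicontinuity of `B ↦ Θ_q(BᵀB)` at invertible `B₀`:
`Θ(BᵀB) = ψ_{g_G}(B⁻¹) ≤ θ^{-q} ψ_{g_{G₀}}(G₀⁻¹ Bᵀ)` by GA5, `G₀⁻¹Bᵀ → B₀⁻¹`, `θ → 1`, and
`ψ(A') ≤ (1-s) ψ(A) + s ψ(A + (A'-A)/s)` (convexity IN3) with a locally uniform bound of `ψ`. -/
def StRmgUSC : Prop := ∀ (n q : ℕ) (B₀ : Matrix (Fin n) (Fin n) ℝ), B₀.det ≠ 0 →
  ∀ y : ℝ≥0∞, rmgTheta q (B₀ᵀ * B₀) < y → ∀ᶠ B in nhds B₀, rmgTheta q (Bᵀ * B) < y

/-- (MX2) compactness. -/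
def StRmgCompact : Prop := ∀ (n : ℕ) (R : ℝ),
  IsCompact {B : Matrix (Fin n) (Fin n) ℝ | (∀ i j, |B i j| ≤ R) ∧ RmgStable (Bᵀ * B)}

/-- (MX) a maximiser exists. -/
def StRmgMax : Prop := ∀ n q : ℕ, (∃ G : Matrix (Fin n) (Fin n) ℝ, RmgStable G) →
  ∃ G : Matrix (Fin n) (Fin n) ℝ, RmgStable G ∧ RmgMaximal q G

/-! ### Package IN: the interior case -/

/-- (IN1) polar decomposition. -/
def StRmgPolar : Prop := ∀ (ι : Type) [Fintype ι] [DecidableEq ι] (N : Matrix ι ι ℝ), N.det ≠ 0 →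
  ∃ P O : Matrix ι ι ℝ, P.PosDef ∧ Oᵀ * O = 1 ∧ N = P * O

/-- (IN2) `det((1-u) 1 + u P) ≥ 1` for positive definite `P` of determinant one (eigenvalues,
weighted AM-GM). -/
def StRmgDetSeg : Prop := ∀ (ι : Type) [Fintype ι] [DecidableEq ι] (P : Matrix ι ι ℝ), P.PosDef →
  P.det = 1 → ∀ u : ℝ, 0 ≤ u → u ≤ 1 → 1 ≤ ((1 - u) • (1 : Matrix ι ι ℝ) + u • P).det

/-- (IN3) convexity of `ψ`. -/
def StRmgPsiConvex : Prop := ∀ (ι : Type) [Fintype ι] [DecidableEq ι] (p : Seminorm ℝ (ι → ℝ))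
  (q : ℕ) (A₀ A₁ : Matrix ι ι ℝ) (s : ℝ), 0 ≤ s → s ≤ 1 →
    rmgPsi q p ((1 - s) • A₀ + s • A₁)
      ≤ ENNReal.ofReal (1 - s) * rmgPsi q p A₀ + ENNReal.ofReal s * rmgPsi q p A₁

/-- (IN4) rotation invariance of `ψ`. -/
def StRmgPsiRot : Prop := ∀ (ι : Type) [Fintype ι] [DecidableEq ι] (h : (ι → ℝ) → ℝ) (q : ℕ)
  (A O : Matrix ι ι ℝ), Oᵀ * O = 1 → rmgPsi q h (A * O) = rmgPsi q h A

/-- (IN5) a form close to a stable form with margin is stable. -/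
def StRmgStableNear : Prop := ∀ (n : ℕ) (G G' : Matrix (Fin n) (Fin n) ℝ) (δ θ : ℝ), RmgStable G →
  RmgMargin δ G → G'.PosDef → G'.det = 1 → 0 < θ → θ ≤ 1 → 1 ≤ θ ^ n * (1 + δ) →
    (∀ x : Fin n → ℝ, θ * rmgQ G x ≤ rmgQ G' x) → RmgStable G'

/-- (IN) the interior case.  Write `G = BᵀB`, `B M = P O` (polar), `B_u = (1-u) 1 + u P`,
`c_u = det(B_u)^{1/n} ≥ 1`, `B'_u = c_u⁻¹ B_u B`, `G_u = B'_uᵀ B'_u` (stable for small `u` by IN5),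
`p_u = g_{G_u}`, `f(s) = ψ_{p_u}(B'_u⁻¹ B_s)`.  Then `f(0) = Θ(G_u) ≤ Θ(G)` (maximality),
`f(u) = c_u^q ψ_{p_u}(B⁻¹) ≥ ∫ p_u^q dγ_G ≥ Θ(G)` (CO5 with `h = p_u`), convexity gives
`Θ(G) ≤ f(1) = ψ_{p_u}(B'_u⁻¹ P) ≤ θ_u^{-q} ψ_{g_G}(c_u⁻¹ B⁻¹ B_u P)` (GA5), and `u → 0`
(convexity again: `B_u P = (1-u) P + u P²`). -/
def StRmgInterior : Prop := ∀ (n q : ℕ), 1 ≤ q → ∀ G : Matrix (Fin n) (Fin n) ℝ, RmgStable G →
  RmgMaximal q G → ∀ δ : ℝ, 0 < δ → RmgMargin δ G → ∀ M : Matrix (Fin n) (Fin n) ℝ, M.det = 1 →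
    rmgTheta q G ≤ rmgPsi q (rmgGauge G) M

/-! ### Bridge to the package LPos -/

/-- (LP) the main statement of LPos, transported to `Fin n → ℝ` and the density `exp(-π|z|²)`
(`γ_1` is the law of `g/√(2π)`, so the moments only get smaller). -/
def StRmgLPos : Prop := ∀ n : ℕ, 1 ≤ n → ∀ p : Seminorm ℝ (Fin n → ℝ), (∀ x, p x = 0 → x = 0) →
  1 ≤ volume {x | p x ≤ 1} → ∃ M : Matrix (Fin n) (Fin n) ℝ, M.det = 1 ∧
    ∀ q : ℕ, 1 ≤ q → rmgPsi q p M ≤ ENNReal.ofReal ((rmlpConst n * Real.sqrt q) ^ q)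

/-- (LP') monotonicity of the constant. -/
def StRmlpConstMono : Prop := ∀ k n : ℕ, 1 ≤ k → k ≤ n → rmlpConst k ≤ rmlpConst n

/-! ### Final statements -/

/-- the exponent used in rank `n`. -/
noncomputable def rmgExp (n : ℕ) : ℕ := ⌈Real.log (n + 1)⌉₊ + 2

/-- the scale of the Reverse Minkowski theorem in rank `n`. -/
noncomputable def rmgTau (n : ℕ) : ℝ := Real.exp 1 * (rmlpConst n * Real.sqrt (rmgExp n))

/-- moment bound. -/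
def StRmgMoment : Prop := ∀ (N q : ℕ), 1 ≤ q → ∀ n : ℕ, n ≤ N → ∀ G : Matrix (Fin n) (Fin n) ℝ,
  G.PosDef → RmgDet1 G → rmgTheta q G ≤ n * ENNReal.ofReal ((rmlpConst N * Real.sqrt q) ^ q)

/-- **Reverse Minkowski, Gram form.** -/
def StRmGram : Prop := ∀ (n : ℕ) (G : Matrix (Fin n) (Fin n) ℝ), G.PosDef → RmgDet1 G →
  rmgRho (rmgTau n) G ≤ 3 / 2

/-- the scale is polylogarithmic. -/
def StRmgTauBound : Prop := ∃ C : ℝ, 0 < C ∧ ∀ n : ℕ, 1 ≤ n → 1 ≤ rmgTau n ∧ rmgTau n ≤ C * Real.log (n + 2) ^ 4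

end Claimed.Agent.R293
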