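/-
Row 293 (S0541), Reverse Minkowski, package GRAM, leaf RMG-CO-b (#748).  Owner: helper148.

* `rmg_vorMax  : StRmgVorMax`  the Voronoi cell has the largest Gaussian measure among all
  fundamental domains of the integer lattice;
* `rmg_compare : StRmgCompare` comparison of the moments (scaling + layer cake formula).
-/
import Claimed.Agent.R293.RM.GramStmts

set_option autoImplicit false

namespace Claimed.Agent.R293

open MeasureTheory Matrix
open scoped ENNReal

section VorMax
variable {ι : Type} [Fintype ι] [DecidableEq ι]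

/-- the density of `γ_G`. -/
noncomputable def rmgcDens (G : Matrix ι ι ℝ) (x : ι → ℝ) : ℝ≥0∞ :=
  ENNReal.ofReal (Real.sqrt G.det * Real.exp (-(Real.pi * rmgQ G x)))

lemma rmgc_meas_apply (G : Matrix ι ι ℝ) (S : Set (ι → ℝ)) :
    rmgMeas G S = ∫⁻ x in S, rmgcDens G x := by
  unfold rmgMeas rmgcDens
  exact withDensity_apply' _ S

lemma rmgc_dens_mono (G : Matrix ι ι ℝ) {x y : ι → ℝ} (h : rmgQ G x ≤ rmgQ G y) :
    rmgcDens G y ≤ rmgcDens G x := by
  unfold rmgcDens
  apply ENNReal.ofReal_le_ofReal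
  apply mul_le_mul_of_nonneg_left _ (Real.sqrt_nonneg _)
  apply Real.exp_le_exp.mpr
  have := Real.pi_pos
  nlinarith

/-- the periodisation (by a supremum) of the density. -/
noncomputable def rmgcPer (G : Matrix ι ι ℝ) (x : ι → ℝ) : ℝ≥0∞ :=
  ⨆ z : ι → ℤ, rmgcDens G (x - rmgC z)

lemma rmgc_dens_le_per (G : Matrix ι ι ℝ) (x : ι → ℝ) : rmgcDens G x ≤ rmgcPer G x := by
  unfold rmgcPer
  refine le_trans (le_of_eq ?_) (le_iSup (fun z : ι → ℤ => rmgcDens G (x - rmgC z)) 0)
  congr 1
  funext i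
  simp [rmgC]

lemma rmgc_per_vadd (G : Matrix ι ι ℝ) (g : rmgZ ι) (x : ι → ℝ) :
    rmgcPer G (g +ᵥ x) = rmgcPer G x := by
  obtain ⟨_, w, rfl⟩ := g
  unfold rmgcPer
  refine (Equiv.addRight w).iSup_congr ?_ |>.symm
  intro z
  congr 1
  funext i
  simp [rmgC, AddSubgroup.vadd_def]
  ring

instance rmgc_countable : Countable (rmgZ ι) := by
  have : (Set.range (rmgC : (ι → ℤ) → ι → ℝ)).Countable := Set.countable_range _
  exact this.to_subtype

lemma rmgc_gauge_measurable (G : Matrix ι ι ℝ) : Measurable (rmgGauge G) := by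
  unfold rmgGauge
  apply Measurable.iSup
  intro z
  unfold rmgB
  apply Continuous.measurable
  fun_prop

/-- **(CO4)** the Voronoi cell has the largest Gaussian measure among fundamental domains. -/
theorem rmg_vorMax (hFD : StRmgVorFD) (hV : StRmgVor) : StRmgVorMax := by
  intro ι _ _ G hG K hK
  have hVF := hFD ι G hG
  rw [rmgc_meas_apply, rmgc_meas_apply]
  calc ∫⁻ x in K, rmgcDens G x ≤ ∫⁻ x in K, rmgcPer G x :=
        lintegral_mono (fun x => rmgc_dens_le_per G x)
    _ = ∫⁻ x in {x | rmgGauge G x ≤ 1}, rmgcPer G x :=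
        IsAddFundamentalDomain.setLIntegral_eq hK hVF _ (rmgc_per_vadd G)
    _ ≤ ∫⁻ x in {x | rmgGauge G x ≤ 1}, rmgcDens G x := by
        have hms : MeasurableSet {x : ι → ℝ | rmgGauge G x ≤ 1} :=
          measurableSet_le (rmgc_gauge_measurable G) measurable_const
        apply setLIntegral_mono' hms
        intro x hx
        have hx' := (hV ι G hG x).mp hx
        exact iSup_le fun z => rmgc_dens_mono G (hx' z)

end VorMax

section Compare
variable {ι : Type} [Fintype ι] [DecidableEq ι]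

/-- tail comparison implies moment comparison (layer cake formula). -/
lemma rmgc_layer (μ : Measure (ι → ℝ)) [IsProbabilityMeasure μ] (g h : (ι → ℝ) → ℝ)
    (hgm : Measurable g) (hhm : Measurable h) (hg0 : ∀ x, 0 ≤ g x) (hh0 : ∀ x, 0 ≤ h x)
    (key : ∀ t : ℝ, 0 < t → μ {x | h x ≤ t} ≤ μ {x | g x ≤ t}) (q : ℕ) (hq : 0 < q) :
    ∫⁻ x, ENNReal.ofReal (g x ^ q) ∂μ ≤ ∫⁻ x, ENNReal.ofReal (h x ^ q) ∂μ := by
  rw [lintegral_eq_lintegral_meas_lt μ (Filter.Eventually.of_forall fun x => pow_nonneg (hg0 x) q)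
      (hgm.pow_const q).aemeasurable,
    lintegral_eq_lintegral_meas_lt μ (Filter.Eventually.of_forall fun x => pow_nonneg (hh0 x) q)
      (hhm.pow_const q).aemeasurable]
  apply setLIntegral_mono' measurableSet_Ioi
  intro t ht
  have ht0 : (0 : ℝ) < t := ht
  set s : ℝ := t ^ ((q : ℝ)⁻¹) with hs
  have hs0 : 0 < s := Real.rpow_pos_of_pos ht0 _
  have hsq : s ^ q = t := by
    rw [hs]
    exact Real.rpow_inv_natCast_pow ht0.le hq.ne'
  have hset : ∀ f : (ι → ℝ) → ℝ, (∀ x, 0 ≤ f x) → {a | t < f a ^ q} = {a | f a ≤ s}ᶜ := by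
    intro f hf
    ext a
    simp only [Set.mem_setOf_eq, Set.mem_compl_iff, not_le]
    rw [← hsq]
    exact pow_lt_pow_iff_left₀ hs0.le (hf a) hq.ne'
  rw [hset g hg0, hset h hh0,
    prob_compl_eq_one_sub (measurableSet_le hgm measurable_const),
    prob_compl_eq_one_sub (measurableSet_le hhm measurable_const)]
  exact tsub_le_tsub_left (key s hs0) 1

/-- **(CO5)** comparison of moments. -/
theorem rmg_compare (hMax : StRmgVorMax) (hMap : StRmgMeasMap) (hProb : StRmgMeasProb)
    (hScale : StRmgGaugeScale) (hSemi : StRmgGaugeSemi) : StRmgCompare := by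
  intro ι _ _ G hG h hm h0 hhom hK q
  rcases Nat.eq_zero_or_pos q with rfl | hq
  · simp [rmgTheta, rmgMom]
  haveI := hProb ι G hG
  obtain ⟨p, hp, -⟩ := hSemi ι G hG
  have hg0 : ∀ x, 0 ≤ rmgGauge G x := fun x => by rw [← hp]; exact apply_nonneg p x
  have hghom : ∀ (t : ℝ) (x : ι → ℝ), 0 < t → rmgGauge G (t • x) = t * rmgGauge G x := by
    intro t x ht
    rw [← hp, ← hp, map_smul_eq_mul, Real.norm_of_nonneg ht.le]
  have key : ∀ t : ℝ, 0 < t → rmgMeas G {x | h x ≤ t} ≤ rmgMeas G {x | rmgGauge G x ≤ t} := by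
    intro t ht
    have hA : ((t • (1 : Matrix ι ι ℝ))ᵀ * G * (t • (1 : Matrix ι ι ℝ))) = t ^ 2 • G := by
      simp [pow_two, smul_smul]
    have hdet : (t • (1 : Matrix ι ι ℝ)).det ≠ 0 := by
      simp [det_smul, ht.ne']
    have hmap := hMap ι G (t • 1) hG hdet
    rw [hA] at hmap
    have hG' : (t ^ 2 • G).PosDef := hG.smul (by positivity)
    have hmv : ∀ x : ι → ℝ, (t • (1 : Matrix ι ι ℝ)) *ᵥ x = t • x := by
      intro x
      simp [smul_mulVec]
    have hmeas : Measurable (fun x : ι → ℝ => (t • (1 : Matrix ι ι ℝ)) *ᵥ x) := by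
      simp only [hmv]
      exact measurable_const_smul t
    rw [← hmap, Measure.map_apply hmeas (measurableSet_le hm measurable_const),
      Measure.map_apply hmeas (measurableSet_le (rmgc_gauge_measurable G) measurable_const)]
    have e1 : (fun x : ι → ℝ => (t • (1 : Matrix ι ι ℝ)) *ᵥ x) ⁻¹' {x | h x ≤ t} = {x | h x ≤ 1} := by
      ext x
      simp only [Set.mem_preimage, Set.mem_setOf_eq, hmv, hhom t x ht]
      constructor
      · intro hx
        nlinarith
      · intro hx
        nlinarith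
    have e2 : (fun x : ι → ℝ => (t • (1 : Matrix ι ι ℝ)) *ᵥ x) ⁻¹' {x | rmgGauge G x ≤ t}
        = {x | rmgGauge (t ^ 2 • G) x ≤ 1} := by
      ext x
      rw [hScale ι G (t ^ 2) (by positivity)]
      simp only [Set.mem_preimage, Set.mem_setOf_eq, hmv, hghom t x ht]
      constructor
      · intro hx
        nlinarith
      · intro hx
        nlinarith
    rw [e1, e2]
    exact hMax ι (t ^ 2 • G) hG' _ hK
  exact rmgc_layer (rmgMeas G) (rmgGauge G) h (rmgc_gauge_measurable G) hm hg0 h0 key q hq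

end Compare

end Claimed.Agent.R293
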