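/-
Row 293 (S0541), Reverse Minkowski, package GRAM, leaf RMG-GA-a (owner helper108).
Gauge basics: coercivity, sublevel sets of the gauge, the gauge is a norm, Voronoi cell.
-/
import Claimed.Agent.R293.RM.GramStmts

set_option autoImplicit false
set_option linter.unusedSectionVars false

namespace Claimed.Agent.R293

open MeasureTheory Matrix
open scoped ENNReal

section Basic
variable {ι : Type*} [Fintype ι]

theorem rmga_B_add_left (G : Matrix ι ι ℝ) (x y z : ι → ℝ) :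
    rmgB G (x + y) z = rmgB G x z + rmgB G y z := by
  simp [rmgB, add_dotProduct]

theorem rmga_B_add_right (G : Matrix ι ι ℝ) (x y z : ι → ℝ) :
    rmgB G x (y + z) = rmgB G x y + rmgB G x z := by
  simp [rmgB, mulVec_add, dotProduct_add]

theorem rmga_B_smul_left (G : Matrix ι ι ℝ) (a : ℝ) (x z : ι → ℝ) :
    rmgB G (a • x) z = a * rmgB G x z := by
  simp [rmgB, smul_dotProduct]

theorem rmga_B_smul_right (G : Matrix ι ι ℝ) (a : ℝ) (x z : ι → ℝ) :
    rmgB G x (a • z) = a * rmgB G x z := by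
  simp [rmgB, mulVec_smul, dotProduct_smul]

theorem rmga_B_neg_right (G : Matrix ι ι ℝ) (x z : ι → ℝ) :
    rmgB G x (-z) = - rmgB G x z := by
  simp [rmgB, mulVec_neg, dotProduct_neg]

theorem rmga_B_neg_left (G : Matrix ι ι ℝ) (x z : ι → ℝ) :
    rmgB G (-x) z = - rmgB G x z := by
  simp [rmgB, neg_dotProduct]

theorem rmga_B_zero_right (G : Matrix ι ι ℝ) (x : ι → ℝ) : rmgB G x 0 = 0 := by
  simp [rmgB]

theorem rmga_B_zero_left (G : Matrix ι ι ℝ) (x : ι → ℝ) : rmgB G 0 x = 0 := by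
  simp [rmgB]

theorem rmga_Q_zero (G : Matrix ι ι ℝ) : rmgQ G 0 = 0 := by
  simp [rmgQ, rmgB]

theorem rmga_Q_neg (G : Matrix ι ι ℝ) (x : ι → ℝ) : rmgQ G (-x) = rmgQ G x := by
  simp [rmgQ, rmga_B_neg_left, rmga_B_neg_right]

theorem rmga_Q_smul (G : Matrix ι ι ℝ) (a : ℝ) (x : ι → ℝ) :
    rmgQ G (a • x) = a ^ 2 * rmgQ G x := by
  simp only [rmgQ, rmga_B_smul_left, rmga_B_smul_right]; ring

theorem rmga_B_symm {G : Matrix ι ι ℝ} (hG : Gᵀ = G) (x y : ι → ℝ) :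
    rmgB G x y = rmgB G y x := by
  unfold rmgB
  rw [dotProduct_mulVec, ← mulVec_transpose, hG, dotProduct_comm]

theorem rmga_transpose_eq {G : Matrix ι ι ℝ} (hG : G.PosDef) : Gᵀ = G := by
  have h := hG.isHermitian
  rw [IsHermitian, conjTranspose_eq_transpose_of_trivial] at h
  exact h

theorem rmga_Q_sub {G : Matrix ι ι ℝ} (hG : Gᵀ = G) (x y : ι → ℝ) :
    rmgQ G (x - y) = rmgQ G x - 2 * rmgB G x y + rmgQ G y := by
  have h : x - y = x + (-y) := sub_eq_add_neg x y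
  simp only [rmgQ, h, rmga_B_add_left, rmga_B_add_right, rmga_B_neg_left, rmga_B_neg_right]
  rw [rmga_B_symm hG y x]; ring

theorem rmga_Q_pos {G : Matrix ι ι ℝ} (hG : G.PosDef) {x : ι → ℝ} (hx : x ≠ 0) :
    0 < rmgQ G x := by
  have := hG.dotProduct_mulVec_pos hx
  simpa [rmgQ, rmgB] using this

theorem rmga_Q_nonneg {G : Matrix ι ι ℝ} (hG : G.PosDef) (x : ι → ℝ) : 0 ≤ rmgQ G x := by
  by_cases hx : x = 0
  · subst hx; rw [rmga_Q_zero]
  · exact (rmga_Q_pos hG hx).le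

theorem rmga_C_neg (z : ι → ℤ) : rmgC (-z) = - rmgC z := by
  funext i; simp [rmgC]

theorem rmga_C_zero : rmgC (0 : ι → ℤ) = 0 := by
  funext i; simp [rmgC]

theorem rmga_C_ne_zero {z : ι → ℤ} (hz : z ≠ 0) : rmgC z ≠ 0 := by
  intro h
  apply hz
  funext i
  have := congrFun h i
  simpa [rmgC] using this

theorem rmga_one_le_dot {z : ι → ℤ} (hz : z ≠ 0) : 1 ≤ rmgC z ⬝ᵥ rmgC z := by
  obtain ⟨i, hi⟩ : ∃ i, z i ≠ 0 := by
    by_contra h
    simp only [not_exists, not_not] at h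
    exact hz (funext h)
  have h1 : (1 : ℝ) ≤ (z i : ℝ) * (z i : ℝ) := by
    have : (1 : ℤ) ≤ z i * z i := by
      have := Int.one_le_abs hi
      nlinarith [abs_mul_abs_self (z i), abs_nonneg (z i)]
    exact_mod_cast this
  calc (1 : ℝ) ≤ (z i : ℝ) * (z i : ℝ) := h1
    _ ≤ ∑ j, rmgC z j * rmgC z j :=
        Finset.single_le_sum (f := fun j => rmgC z j * rmgC z j)
          (fun j _ => mul_self_nonneg _) (Finset.mem_univ i)

theorem rmga_continuous_Q (G : Matrix ι ι ℝ) : Continuous (rmgQ G) := by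
  unfold rmgQ rmgB
  simp only [dotProduct, mulVec]
  fun_prop

end Basic

/-- (GA1) -/
theorem rmg_coercive : StRmgCoercive := by
  intro ι _ _ G hG
  classical
  by_cases hne : Nonempty ι
  swap
  · refine ⟨1, one_pos, fun x => ?_⟩
    have : IsEmpty ι := not_nonempty_iff.mp hne
    simp [rmgQ, rmgB, dotProduct]
  -- the Euclidean unit sphere
  set S : Set (ι → ℝ) := {x | x ⬝ᵥ x = 1} with hS
  have hcont : Continuous fun x : ι → ℝ => x ⬝ᵥ x := by
    simp only [dotProduct]; fun_prop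
  have hclosed : IsClosed S := isClosed_eq hcont continuous_const
  have hbdd : Bornology.IsBounded S := by
    rw [isBounded_iff_forall_norm_le]
    refine ⟨1, fun x hx => ?_⟩
    rw [pi_norm_le_iff_of_nonneg zero_le_one]
    intro i
    have h1 : x i * x i ≤ 1 := by
      have hx' : x ⬝ᵥ x = 1 := hx
      rw [← hx']
      exact Finset.single_le_sum (f := fun j => x j * x j)
          (fun j _ => mul_self_nonneg _) (Finset.mem_univ i)
    rw [Real.norm_eq_abs]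
    exact abs_le_one_iff_mul_self_le_one.mpr h1
  have hcomp : IsCompact S := Metric.isCompact_of_isClosed_isBounded hclosed hbdd
  obtain ⟨i₀⟩ := hne
  have hSne : S.Nonempty := ⟨Pi.single i₀ 1, by simp [hS]⟩
  obtain ⟨x₀, hx₀, hmin⟩ := hcomp.exists_isMinOn hSne (rmga_continuous_Q G).continuousOn
  have hx₀ne : x₀ ≠ 0 := by
    rintro rfl
    have : (0 : ι → ℝ) ⬝ᵥ 0 = 1 := hx₀
    simp at this
  refine ⟨rmgQ G x₀, rmga_Q_pos hG hx₀ne, fun x => ?_⟩
  by_cases hx : x = 0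
  · subst hx; simp [rmga_Q_zero]
  have hpos : 0 < x ⬝ᵥ x := by
    have := (dotProduct_star_self_pos_iff (v := x)).mpr hx
    simpa using this
  set r := Real.sqrt (x ⬝ᵥ x) with hr
  have hrpos : 0 < r := Real.sqrt_pos.mpr hpos
  have hr2 : r ^ 2 = x ⬝ᵥ x := Real.sq_sqrt hpos.le
  have hmem : r⁻¹ • x ∈ S := by
    show (r⁻¹ • x) ⬝ᵥ (r⁻¹ • x) = 1
    rw [smul_dotProduct, dotProduct_smul, ← hr2]
    simp only [smul_eq_mul]
    field_simp
  have h1 : rmgQ G x₀ ≤ rmgQ G (r⁻¹ • x) := hmin hmem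
  rw [rmga_Q_smul] at h1
  rw [← hr2]
  have h2 : rmgQ G x₀ * r ^ 2 ≤ (r⁻¹ ^ 2 * rmgQ G x) * r ^ 2 :=
    mul_le_mul_of_nonneg_right h1 (by positivity)
  have h3 : (r⁻¹ ^ 2 * rmgQ G x) * r ^ 2 = rmgQ G x := by
    field_simp
  linarith

section Gauge
variable {ι : Type} [Fintype ι] [DecidableEq ι]

/-- the family in the supremum defining the gauge is bounded above. -/
theorem rmga_bddAbove {G : Matrix ι ι ℝ} (hG : G.PosDef) (x : ι → ℝ) :
    BddAbove (Set.range fun z : {z : ι → ℤ // z ≠ 0} =>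
      2 * rmgB G x (rmgC z.1) / rmgQ G (rmgC z.1)) := by
  obtain ⟨c, hc, hcoer⟩ := rmg_coercive ι G hG
  refine ⟨rmgQ G x / c + 1, ?_⟩
  rintro _ ⟨⟨z, hz⟩, rfl⟩
  have hQz : 0 < rmgQ G (rmgC z) := rmga_Q_pos hG (rmga_C_ne_zero hz)
  have hcz : c ≤ rmgQ G (rmgC z) := by
    have h1 := hcoer (rmgC z)
    have h2 := rmga_one_le_dot hz
    nlinarith
  have h0 := rmga_Q_nonneg hG (x - rmgC z)
  rw [rmga_Q_sub (rmga_transpose_eq hG)] at h0
  have hQx := rmga_Q_nonneg hG x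
  show 2 * rmgB G x (rmgC z) / rmgQ G (rmgC z) ≤ rmgQ G x / c + 1
  rw [div_le_iff₀ hQz]
  have h3 : rmgQ G x ≤ rmgQ G x / c * rmgQ G (rmgC z) := by
    rw [div_mul_eq_mul_div, le_div_iff₀ hc]
    exact mul_le_mul_of_nonneg_left hcz hQx
  linarith

theorem rmga_gauge_le_iff {G : Matrix ι ι ℝ} (hG : G.PosDef) (x : ι → ℝ) {s : ℝ} (hs : 0 ≤ s) :
    rmgGauge G x ≤ s ↔ ∀ z : ι → ℤ, 2 * rmgB G x (rmgC z) ≤ s * rmgQ G (rmgC z) := by
  constructor
  · intro h z
    by_cases hz : z = 0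
    · subst hz; simp [rmga_C_zero, rmga_B_zero_right, rmga_Q_zero]
    have hQz : 0 < rmgQ G (rmgC z) := rmga_Q_pos hG (rmga_C_ne_zero hz)
    have h1 : 2 * rmgB G x (rmgC z) / rmgQ G (rmgC z) ≤ rmgGauge G x :=
      le_ciSup (rmga_bddAbove hG x) (⟨z, hz⟩ : {z : ι → ℤ // z ≠ 0})
    rw [← div_le_iff₀ hQz]
    exact h1.trans h
  · intro h
    refine Real.iSup_le (fun z => ?_) hs
    have hQz : 0 < rmgQ G (rmgC z.1) := rmga_Q_pos hG (rmga_C_ne_zero z.2)
    rw [div_le_iff₀ hQz]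
    exact h z.1

theorem rmga_gauge_nonneg {G : Matrix ι ι ℝ} (hG : G.PosDef) (x : ι → ℝ) : 0 ≤ rmgGauge G x := by
  by_cases hne : Nonempty {z : ι → ℤ // z ≠ 0}
  swap
  · have : IsEmpty {z : ι → ℤ // z ≠ 0} := not_nonempty_iff.mp hne
    simp [rmgGauge, Real.iSup_of_isEmpty]
  obtain ⟨⟨z, hz⟩⟩ := hne
  have hz' : -z ≠ 0 := neg_ne_zero.mpr hz
  have h1 : 2 * rmgB G x (rmgC z) / rmgQ G (rmgC z) ≤ rmgGauge G x :=
    le_ciSup (rmga_bddAbove hG x) (⟨z, hz⟩ : {z : ι → ℤ // z ≠ 0})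
  have h2 : 2 * rmgB G x (rmgC (-z)) / rmgQ G (rmgC (-z)) ≤ rmgGauge G x :=
    le_ciSup (rmga_bddAbove hG x) (⟨-z, hz'⟩ : {z : ι → ℤ // z ≠ 0})
  rw [rmga_C_neg, rmga_B_neg_right, rmga_Q_neg] at h2
  have h3 : 2 * -rmgB G x (rmgC z) / rmgQ G (rmgC z)
      = - (2 * rmgB G x (rmgC z) / rmgQ G (rmgC z)) := by ring
  rw [h3] at h2
  linarith

/-- the defining inequality of the gauge. -/
theorem rmga_le_gauge_mul {G : Matrix ι ι ℝ} (hG : G.PosDef) (x : ι → ℝ) (z : ι → ℤ) :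
    2 * rmgB G x (rmgC z) ≤ rmgGauge G x * rmgQ G (rmgC z) :=
  (rmga_gauge_le_iff hG x (rmga_gauge_nonneg hG x)).mp le_rfl z

theorem rmga_gauge_add_le {G : Matrix ι ι ℝ} (hG : G.PosDef) (x y : ι → ℝ) :
    rmgGauge G (x + y) ≤ rmgGauge G x + rmgGauge G y := by
  rw [rmga_gauge_le_iff hG _ (add_nonneg (rmga_gauge_nonneg hG x) (rmga_gauge_nonneg hG y))]
  intro z
  rw [rmga_B_add_left]
  have h1 := rmga_le_gauge_mul hG x z
  have h2 := rmga_le_gauge_mul hG y z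
  linarith

theorem rmga_gauge_smul_le {G : Matrix ι ι ℝ} (hG : G.PosDef) (a : ℝ) (x : ι → ℝ) :
    rmgGauge G (a • x) ≤ |a| * rmgGauge G x := by
  rw [rmga_gauge_le_iff hG _ (mul_nonneg (abs_nonneg a) (rmga_gauge_nonneg hG x))]
  intro z
  rw [rmga_B_smul_left]
  rcases le_total 0 a with ha | ha
  · rw [abs_of_nonneg ha]
    have h1 := rmga_le_gauge_mul hG x z
    nlinarith
  · rw [abs_of_nonpos ha]
    have h1 := rmga_le_gauge_mul hG x (-z)
    rw [rmga_C_neg, rmga_B_neg_right, rmga_Q_neg] at h1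
    nlinarith

theorem rmga_gauge_smul {G : Matrix ι ι ℝ} (hG : G.PosDef) (a : ℝ) (x : ι → ℝ) :
    rmgGauge G (a • x) = |a| * rmgGauge G x := by
  apply le_antisymm (rmga_gauge_smul_le hG a x)
  by_cases ha : a = 0
  · subst ha
    simpa using rmga_gauge_nonneg hG ((0 : ℝ) • x)
  have h1 := rmga_gauge_smul_le hG a⁻¹ (a • x)
  rw [smul_smul, inv_mul_cancel₀ ha, one_smul, abs_inv] at h1
  have hpos : 0 < |a| := abs_pos.mpr ha
  calc |a| * rmgGauge G x ≤ |a| * (|a|⁻¹ * rmgGauge G (a • x)) :=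
        mul_le_mul_of_nonneg_left h1 hpos.le
    _ = rmgGauge G (a • x) := by field_simp

theorem rmga_gauge_eq_zero {G : Matrix ι ι ℝ} (hG : G.PosDef) {x : ι → ℝ}
    (hx : rmgGauge G x = 0) : x = 0 := by
  have hsymm := rmga_transpose_eq hG
  have hB : ∀ z : ι → ℤ, rmgB G x (rmgC z) = 0 := by
    intro z
    have h1 := rmga_le_gauge_mul hG x z
    have h2 := rmga_le_gauge_mul hG x (-z)
    rw [rmga_C_neg, rmga_B_neg_right, rmga_Q_neg] at h2
    rw [hx] at h1 h2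
    linarith
  have hGx : G *ᵥ x = 0 := by
    funext i
    have h1 := hB (Pi.single i 1)
    rw [rmga_B_symm hsymm] at h1
    have h2 : rmgC (Pi.single i (1 : ℤ)) = Pi.single i (1 : ℝ) := by
      funext j
      by_cases hj : j = i
      · subst hj; simp [rmgC]
      · simp [rmgC, Pi.single_eq_of_ne hj]
    rw [h2] at h1
    simpa [rmgB] using h1
  by_contra hne
  have h3 := rmga_Q_pos hG hne
  simp [rmgQ, rmgB, hGx] at h3

end Gauge

/-- (GA2) -/
theorem rmg_gaugeLe : StRmgGaugeLe := by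
  intro ι _ _ G hG x s hs
  exact rmga_gauge_le_iff hG x hs

/-- (GA3) -/
theorem rmg_gaugeSemi : StRmgGaugeSemi := by
  intro ι _ _ G hG
  refine ⟨Seminorm.of (rmgGauge G) (rmga_gauge_add_le hG) (fun a x => ?_), fun x => rfl,
    fun x hx => rmga_gauge_eq_zero hG hx⟩
  rw [Real.norm_eq_abs]
  exact rmga_gauge_smul hG a x

/-- (GA4) -/
theorem rmg_vor : StRmgVor := by
  intro ι _ _ G hG x
  rw [rmga_gauge_le_iff hG x zero_le_one]
  refine forall_congr' fun z => ?_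
  rw [rmga_Q_sub (rmga_transpose_eq hG)]
  constructor <;> intro h <;> linarith

end Claimed.Agent.R293
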