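/-
Row 293 (S0541), Reverse Minkowski, package GRAM, leaf RMG-GA-b (owner helper108).
Gauge transformations: perturbation, scaling, unimodular change of basis, relabelling.
-/
import Claimed.Agent.R293.RM.GramGaugeA

set_option autoImplicit false
set_option linter.unusedSectionVars false

namespace Claimed.Agent.R293

open MeasureTheory Matrix
open scoped ENNReal

/-- (GA5) -/
theorem rmg_gaugePert : StRmgGaugePert := by
  intro ι _ _ G G' hG hG' θ hθ hle x
  set y : ι → ℝ := (G⁻¹ * G') *ᵥ x with hy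
  have hgy := rmga_gauge_nonneg hG y
  rw [rmga_gauge_le_iff hG' x (mul_nonneg (inv_nonneg.mpr hθ.le) hgy)]
  intro z
  have hGt := rmga_transpose_eq hG
  have hGt' := rmga_transpose_eq hG'
  have hdet : IsUnit G.det := isUnit_iff_ne_zero.mpr hG.det_pos.ne'
  have hB : rmgB G y (rmgC z) = rmgB G' x (rmgC z) := by
    rw [rmga_B_symm hGt, rmga_B_symm hGt' x]
    unfold rmgB
    rw [hy, mulVec_mulVec, ← Matrix.mul_assoc, Matrix.mul_nonsing_inv G hdet, Matrix.one_mul]
  have h1 := rmga_le_gauge_mul hG y z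
  rw [hB] at h1
  have h2 : rmgQ G (rmgC z) ≤ θ⁻¹ * rmgQ G' (rmgC z) := by
    rw [inv_mul_eq_div, le_div_iff₀ hθ, mul_comm]
    exact hle z
  calc 2 * rmgB G' x (rmgC z) ≤ rmgGauge G y * rmgQ G (rmgC z) := h1
    _ ≤ rmgGauge G y * (θ⁻¹ * rmgQ G' (rmgC z)) := mul_le_mul_of_nonneg_left h2 hgy
    _ = θ⁻¹ * rmgGauge G y * rmgQ G' (rmgC z) := by ring

/-- (GA6) -/
theorem rmg_gaugeScale : StRmgGaugeScale := by
  intro ι _ _ G c hc
  funext x
  unfold rmgGauge
  refine iSup_congr fun z => ?_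
  have h1 : ∀ u v : ι → ℝ, rmgB (c • G) u v = c * rmgB G u v := by
    intro u v
    simp [rmgB, smul_mulVec, dotProduct_smul]
  rw [rmgQ, rmgQ, h1, h1]
  rw [show 2 * (c * rmgB G x (rmgC z.1)) = c * (2 * rmgB G x (rmgC z.1)) by ring]
  exact mul_div_mul_left _ _ hc

section Uni
variable {ι κ : Type} [Fintype ι] [DecidableEq ι] [Fintype κ] [DecidableEq κ]

theorem rmgb_C_mulVec (U : Matrix ι κ ℤ) (z : κ → ℤ) :
    rmgC (U *ᵥ z) = rmgCM U *ᵥ rmgC z := by
  funext i
  simp [rmgC, rmgCM, mulVec, dotProduct]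

theorem rmgb_B_sub (G : Matrix ι ι ℝ) (U : Matrix ι κ ℤ) (x y : κ → ℝ) :
    rmgB (rmgSub G U) x y = rmgB G (rmgCM U *ᵥ x) (rmgCM U *ᵥ y) := by
  unfold rmgB rmgSub
  rw [← mulVec_mulVec, ← mulVec_mulVec, dotProduct_mulVec, vecMul_transpose]

end Uni

/-- (GA7) -/
theorem rmg_gaugeUni : StRmgGaugeUni := by
  intro ι _ _ G U hU x
  -- the bijection `z ↦ U z` of nonzero integer vectors
  have hUV : U * U⁻¹ = 1 := Matrix.mul_nonsing_inv U hU
  have hVU : U⁻¹ * U = 1 := Matrix.nonsing_inv_mul U hU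
  let e : {z : ι → ℤ // z ≠ 0} ≃ {z : ι → ℤ // z ≠ 0} :=
    { toFun := fun z => ⟨U *ᵥ z.1, fun h => z.2 (by
        have := congrArg (fun w => U⁻¹ *ᵥ w) h
        simpa [mulVec_mulVec, hVU] using this)⟩
      invFun := fun z => ⟨U⁻¹ *ᵥ z.1, fun h => z.2 (by
        have := congrArg (fun w => U *ᵥ w) h
        simpa [mulVec_mulVec, hUV] using this)⟩
      left_inv := fun z => by
        apply Subtype.ext
        simp [mulVec_mulVec, hVU]
      right_inv := fun z => by
        apply Subtype.ext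
        simp [mulVec_mulVec, hUV] }
  unfold rmgGauge
  refine Equiv.iSup_congr e fun z => ?_
  show 2 * rmgB G (rmgCM U *ᵥ x) (rmgC (U *ᵥ z.1)) / rmgQ G (rmgC (U *ᵥ z.1))
    = 2 * rmgB (rmgSub G U) x (rmgC z.1) / rmgQ (rmgSub G U) (rmgC z.1)
  rw [rmgQ, rmgQ, rmgb_B_sub, rmgb_B_sub, rmgb_C_mulVec]

/-- (GA8) -/
theorem rmg_gaugeReindex : StRmgGaugeReindex := by
  intro ι κ _ _ _ _ e G x
  have hB : ∀ u v : κ → ℝ, rmgB (G.submatrix e e) u v = rmgB G (u ∘ e.symm) (v ∘ e.symm) := by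
    intro u v
    unfold rmgB
    simp only [dotProduct, mulVec, submatrix_apply, Function.comp]
    rw [← Equiv.sum_comp e]
    refine Finset.sum_congr rfl fun i _ => ?_
    rw [← Equiv.sum_comp e]
    simp
  let f : {z : κ → ℤ // z ≠ 0} ≃ {z : ι → ℤ // z ≠ 0} :=
    { toFun := fun z => ⟨z.1 ∘ e.symm, fun h => z.2 (by
        funext k
        have := congrFun h (e k)
        simpa using this)⟩
      invFun := fun z => ⟨z.1 ∘ e, fun h => z.2 (by
        funext i
        have := congrFun h (e.symm i)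
        simpa using this)⟩
      left_inv := fun z => by
        apply Subtype.ext
        funext k
        simp
      right_inv := fun z => by
        apply Subtype.ext
        funext i
        simp }
  unfold rmgGauge
  refine Equiv.iSup_congr f fun z => ?_
  show 2 * rmgB G (x ∘ e.symm) (rmgC (z.1 ∘ e.symm)) / rmgQ G (rmgC (z.1 ∘ e.symm))
    = 2 * rmgB (G.submatrix e e) x (rmgC z.1) / rmgQ (G.submatrix e e) (rmgC z.1)
  rw [rmgQ, rmgQ, hB, hB]
  rfl

end Claimed.Agent.R293
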