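/-
Row 293 (S0541), Reverse Minkowski, package GRAM, leaf RMG-DE-a (owner helper108).
Algebra of the determinant condition `RmgDet1`.
-/
import Claimed.Agent.R293.RM.GramGaugeB

set_option autoImplicit false
set_option linter.unusedSectionVars false

namespace Claimed.Agent.R293

open MeasureTheory Matrix
open scoped ENNReal

section Basic
variable {ι κ μ : Type*} [Fintype ι] [Fintype κ] [Fintype μ]

/-- independence of the columns = injectivity of `mulVec`. -/
theorem rmgd_indep_iff (Z : Matrix ι κ ℤ) :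
    RmgIndep Z ↔ Function.Injective (rmgCM Z).mulVec := by
  rw [Matrix.mulVec_injective_iff]
  rfl

theorem rmgd_CM_mul (U : Matrix ι κ ℤ) (Z : Matrix κ μ ℤ) :
    rmgCM (U * Z) = rmgCM U * rmgCM Z := by
  unfold rmgCM
  exact Matrix.map_mul (f := Int.castRingHom ℝ)

theorem rmgd_CM_one [DecidableEq ι] : rmgCM (1 : Matrix ι ι ℤ) = 1 := by
  unfold rmgCM
  exact Matrix.map_one _ Int.cast_zero Int.cast_one

theorem rmgd_CM_zero : rmgCM (0 : Matrix ι κ ℤ) = 0 := by
  unfold rmgCM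
  exact Matrix.map_zero _ Int.cast_zero

theorem rmgd_CM_det [DecidableEq ι] (U : Matrix ι ι ℤ) : (rmgCM U).det = (U.det : ℝ) := by
  unfold rmgCM
  exact (Int.cast_det U).symm

theorem rmgd_sub_sub (G : Matrix ι ι ℝ) (U : Matrix ι κ ℤ) (Z : Matrix κ μ ℤ) :
    rmgSub (rmgSub G U) Z = rmgSub G (U * Z) := by
  unfold rmgSub
  rw [rmgd_CM_mul, transpose_mul]
  simp only [Matrix.mul_assoc]

theorem rmgd_indep_mul {U : Matrix ι κ ℤ} {Z : Matrix κ μ ℤ} (hU : RmgIndep U) (hZ : RmgIndep Z) :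
    RmgIndep (U * Z) := by
  rw [rmgd_indep_iff] at *
  rw [rmgd_CM_mul]
  intro x y h
  apply hZ
  apply hU
  simpa [mulVec_mulVec] using h

theorem rmgd_indep_of_isUnit [DecidableEq ι] {U : Matrix ι ι ℤ} (hU : IsUnit U.det) :
    RmgIndep U := by
  rw [rmgd_indep_iff, Matrix.mulVec_injective_iff_isUnit, Matrix.isUnit_iff_isUnit_det,
    rmgd_CM_det]
  exact hU.map (Int.castRingHom ℝ)

theorem rmgd_sub_posDef {G : Matrix ι ι ℝ} (hG : G.PosDef) {Z : Matrix ι κ ℤ} (hZ : RmgIndep Z) :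
    (rmgSub G Z).PosDef := by
  have h := hG.conjTranspose_mul_mul_same (B := rmgCM Z) ((rmgd_indep_iff Z).mp hZ)
  rwa [conjTranspose_eq_transpose_of_trivial] at h

end Basic

/-- (DE1) -/
theorem rmg_det1Gen : StRmgDet1Gen := by
  intro ι κ _ _ _ _ G hG Z hZ
  let e := Fintype.equivFin κ
  have h1 : RmgIndep (Z.submatrix id e.symm) := by
    have : LinearIndependent ℝ ((fun j : κ => rmgC (fun i => Z i j)) ∘ e.symm) :=
      LinearIndependent.comp hZ _ e.symm.injective
    exact this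
  have h2 := hG _ _ h1
  have h3 : rmgSub G (Z.submatrix id e.symm) = (rmgSub G Z).submatrix e.symm e.symm := by
    unfold rmgSub rmgCM
    ext a b
    simp [Matrix.mul_apply]
  rw [h3, det_submatrix_equiv_self] at h2
  exact h2

/-- (DE2) -/
theorem rmg_det1Uni : StRmgDet1Uni := by
  intro ι _ _ G U hU hG r Z hZ
  rw [rmgd_sub_sub]
  exact hG r _ (rmgd_indep_mul (rmgd_indep_of_isUnit hU) hZ)

/-- (DE3) -/
theorem rmg_det1Reindex : StRmgDet1Reindex := by
  intro ι κ _ _ _ _ e G hG r Z hZ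
  have h1 : RmgIndep (Z.submatrix e.symm id) := by
    rw [rmgd_indep_iff] at *
    intro x y h
    apply hZ
    funext k
    have := congrFun h (e k)
    simpa [rmgCM, mulVec, dotProduct] using this
  have h2 := hG r _ h1
  have h3 : rmgSub G (Z.submatrix e.symm id) = rmgSub (G.submatrix e e) Z := by
    unfold rmgSub rmgCM
    ext a b
    simp only [Matrix.mul_apply, transpose_apply, map_apply, submatrix_apply, id]
    rw [← Equiv.sum_comp e]
    refine Finset.sum_congr rfl fun i _ => ?_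
    rw [← Equiv.sum_comp e]
    simp
  rw [h3] at h2
  exact h2

/-- (DE4) -/
theorem rmg_det1Scale : StRmgDet1Scale := by
  intro ι _ _ G c hc hG r Z hZ
  have h1 : rmgSub (c • G) Z = c • rmgSub G Z := by
    unfold rmgSub
    simp
  rw [h1, det_smul]
  have h2 := hG r Z hZ
  have h3 : 1 ≤ c ^ Fintype.card (Fin r) := one_le_pow₀ hc
  nlinarith

section Block
variable {ι₁ ι₂ κ : Type} [Fintype ι₁] [DecidableEq ι₁] [Fintype ι₂] [DecidableEq ι₂]
  [Fintype κ] [DecidableEq κ]

theorem rmgd_block1_posDef {A : Matrix ι₁ ι₁ ℝ} {B : Matrix ι₁ ι₂ ℝ} {C : Matrix ι₂ ι₁ ℝ}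
    {D : Matrix ι₂ ι₂ ℝ} (h : (fromBlocks A B C D).PosDef) : A.PosDef := by
  have := h.submatrix (e := (Sum.inl : ι₁ → ι₁ ⊕ ι₂)) Sum.inl_injective
  have h2 : (fromBlocks A B C D).submatrix Sum.inl Sum.inl = A := by
    ext i j; simp
  rwa [h2] at this

end Block

/-- (DE5) -/
theorem rmg_det1Block1 : StRmgDet1Block1 := by
  intro ι₁ ι₂ _ _ _ _ A B D hG r Z hZ
  let Z' : Matrix (ι₁ ⊕ ι₂) (Fin r) ℤ := Matrix.of (Sum.elim (fun i => Z i) (fun _ => 0))
  have h1 : RmgIndep Z' := by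
    rw [rmgd_indep_iff] at *
    intro x y h
    apply hZ
    funext i
    have := congrFun h (Sum.inl i)
    simpa [Z', rmgCM, mulVec, dotProduct] using this
  have h2 := hG r Z' h1
  have h3 : rmgSub (fromBlocks A B Bᵀ D) Z' = rmgSub A Z := by
    unfold rmgSub rmgCM
    ext a b
    simp [Z', Matrix.mul_apply, Fintype.sum_sum_type]
  rw [h3] at h2
  exact h2

/-- (DE6) -/
theorem rmg_det1Block2 : StRmgDet1Block2 := by
  intro ι₁ ι₂ _ _ _ _ A B D hPD hG s hs hAs r Z hZ
  have hA : A.PosDef := rmgd_block1_posDef hPD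
  have hAdet : 0 < A.det := hA.det_pos
  have hAunit : IsUnit A.det := isUnit_iff_ne_zero.mpr hAdet.ne'
  let Z' : Matrix (ι₁ ⊕ ι₂) (ι₁ ⊕ Fin r) ℤ := fromBlocks 1 0 0 Z
  have hCM : rmgCM Z' = fromBlocks 1 0 0 (rmgCM Z) := by
    show (fromBlocks 1 0 0 Z).map _ = _
    rw [fromBlocks_map]
    congr 1
    · exact Matrix.map_one _ Int.cast_zero Int.cast_one
    · exact Matrix.map_zero _ Int.cast_zero
    · exact Matrix.map_zero _ Int.cast_zero
  have h1 : RmgIndep Z' := by
    rw [rmgd_indep_iff] at *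
    rw [hCM]
    intro x y h
    rw [fromBlocks_mulVec, fromBlocks_mulVec] at h
    have hl : x ∘ Sum.inl = y ∘ Sum.inl := by
      funext i
      have := congrFun h (Sum.inl i)
      simpa using this
    have hr : x ∘ Sum.inr = y ∘ Sum.inr := by
      apply hZ
      funext i
      have := congrFun h (Sum.inr i)
      simpa using this
    funext k
    rcases k with k | k
    · exact congrFun hl k
    · exact congrFun hr k
  have h2 := rmg_det1Gen _ _ _ hG Z' h1
  have h3 : rmgSub (fromBlocks A B Bᵀ D) Z'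
      = fromBlocks A (B * rmgCM Z) ((rmgCM Z)ᵀ * Bᵀ) ((rmgCM Z)ᵀ * D * rmgCM Z) := by
    unfold rmgSub
    rw [hCM, fromBlocks_transpose, fromBlocks_multiply, fromBlocks_multiply]
    simp
  have : Invertible A := invertibleOfIsUnitDet A hAunit
  rw [h3, det_fromBlocks₁₁, invOf_eq_nonsing_inv] at h2
  have h4 : (rmgCM Z)ᵀ * D * rmgCM Z - (rmgCM Z)ᵀ * Bᵀ * A⁻¹ * (B * rmgCM Z)
      = rmgSub (rmgSchur A B D) Z := by
    unfold rmgSub rmgSchur
    simp only [Matrix.mul_sub, Matrix.sub_mul, Matrix.mul_assoc]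
  rw [h4] at h2
  have h5 : rmgSub (s ^ 2 • rmgSchur A B D) Z = s ^ 2 • rmgSub (rmgSchur A B D) Z := by
    unfold rmgSub
    simp
  rw [h5, det_smul, Fintype.card_fin]
  rcases Nat.eq_zero_or_pos r with hr | hr
  · subst hr
    simp
  have hdpos : 0 < (rmgSub (rmgSchur A B D) Z).det := by
    by_contra hneg
    push Not at hneg
    nlinarith
  have hs2 : 1 ≤ s ^ 2 := one_le_pow₀ hs
  have h6 : s ^ 2 ≤ (s ^ 2) ^ r := by
    calc s ^ 2 = (s ^ 2) ^ 1 := (pow_one _).symm
      _ ≤ (s ^ 2) ^ r := pow_le_pow_right₀ hs2 hr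
  calc 1 ≤ A.det * (rmgSub (rmgSchur A B D) Z).det := h2
    _ ≤ (s ^ 2) ^ r * (rmgSub (rmgSchur A B D) Z).det :=
        mul_le_mul_of_nonneg_right (hAs.trans h6) hdpos.le

/-- (DE9) -/
theorem rmg_fullRank : StRmgFullRank := by
  intro n r G Z hG hZ
  constructor
  · have := hZ.fintype_card_le_finrank
    simpa using this
  · intro hrn
    subst hrn
    have h1 : (rmgSub G Z).det = (Z.det : ℝ) ^ 2 * G.det := by
      unfold rmgSub
      rw [det_mul, det_mul, det_transpose, rmgd_CM_det]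
      ring
    have h2 : Z.det ≠ 0 := by
      have h3 := (rmgd_indep_iff Z).mp hZ
      rw [Matrix.mulVec_injective_iff_isUnit, Matrix.isUnit_iff_isUnit_det, rmgd_CM_det] at h3
      have := h3.ne_zero
      exact_mod_cast this
    have h4 : (1 : ℝ) ≤ (Z.det : ℝ) ^ 2 := by
      have : (1 : ℤ) ≤ Z.det ^ 2 := by
        have := Int.one_le_abs h2
        nlinarith [sq_abs Z.det, abs_nonneg Z.det]
      exact_mod_cast this
    rw [h1]
    have := hG.det_pos
    nlinarith

end Claimed.Agent.R293
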