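/-
Row 293 (S0541), Reverse Minkowski, package GRAM, leaf RMG-DE-c (owner helper108).
Monotonicity of the determinant in the Loewner order.
-/
import Claimed.Agent.R293.RM.GramDetA

set_option autoImplicit false
set_option linter.unusedSectionVars false

namespace Claimed.Agent.R293

open MeasureTheory Matrix
open scoped ENNReal MatrixOrder

section Mono
variable {κ : Type*} [Fintype κ] [DecidableEq κ]

/-- a symmetric matrix whose quadratic form dominates `|x|²` has determinant at least one. -/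
theorem rmgd_one_le_det {H : Matrix κ κ ℝ} (hH : H.IsHermitian)
    (h : ∀ x : κ → ℝ, x ⬝ᵥ x ≤ x ⬝ᵥ (H *ᵥ x)) : 1 ≤ H.det := by
  rw [hH.det_eq_prod_eigenvalues]
  have h1 : ∀ i, 1 ≤ hH.eigenvalues i := by
    intro i
    rw [hH.eigenvalues_eq i]
    set v : κ → ℝ := ⇑(hH.eigenvectorBasis i) with hv
    have h2 : v ⬝ᵥ v = 1 := by
      have h3 : ‖hH.eigenvectorBasis i‖ = 1 := hH.eigenvectorBasis.orthonormal.1 i
      have h4 : ‖hH.eigenvectorBasis i‖ ^ 2 = ∑ j, ‖(hH.eigenvectorBasis i) j‖ ^ 2 :=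
        EuclideanSpace.norm_sq_eq _
      rw [h3] at h4
      simp only [dotProduct, hv]
      simp only [Real.norm_eq_abs, sq_abs] at h4
      rw [one_pow] at h4
      rw [h4]
      exact Finset.sum_congr rfl fun j _ => (sq _).symm
    have h5 := h v
    rw [h2] at h5
    simpa using h5
  simp only [RCLike.ofReal_real_eq_id, id]
  calc (1 : ℝ) = ∏ _i : κ, (1 : ℝ) := by simp
    _ ≤ ∏ i, hH.eigenvalues i :=
        Finset.prod_le_prod (fun _ _ => zero_le_one) (fun i _ => h1 i)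

/-- monotonicity of the determinant. -/
theorem rmgd_det_le_det {M M' : Matrix κ κ ℝ} (hM : M.PosDef) (hM' : M'.IsHermitian)
    (h : ∀ x : κ → ℝ, x ⬝ᵥ (M *ᵥ x) ≤ x ⬝ᵥ (M' *ᵥ x)) : M.det ≤ M'.det := by
  obtain ⟨C, hC⟩ := CStarAlgebra.nonneg_iff_eq_star_mul_self.mp hM.posSemidef.nonneg
  rw [star_eq_conjTranspose, conjTranspose_eq_transpose_of_trivial] at hC
  have hdet : M.det = C.det ^ 2 := by
    rw [hC, det_mul, det_transpose]; ring
  have hCdet : C.det ≠ 0 := by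
    intro h0
    have := hM.det_pos
    rw [hdet, h0] at this
    simp at this
  have hCu : IsUnit C.det := isUnit_iff_ne_zero.mpr hCdet
  set H : Matrix κ κ ℝ := (C⁻¹)ᵀ * M' * C⁻¹ with hHdef
  have hH : H.IsHermitian := by
    have := isHermitian_conjTranspose_mul_mul (C⁻¹) hM'
    rwa [conjTranspose_eq_transpose_of_trivial] at this
  have hle : ∀ x : κ → ℝ, x ⬝ᵥ x ≤ x ⬝ᵥ (H *ᵥ x) := by
    intro x
    have h1 := h (C⁻¹ *ᵥ x)
    have h2 : (C⁻¹ *ᵥ x) ⬝ᵥ (M *ᵥ (C⁻¹ *ᵥ x)) = x ⬝ᵥ x := by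
      have e1 : C *ᵥ (C⁻¹ *ᵥ x) = x := by
        rw [mulVec_mulVec, Matrix.mul_nonsing_inv C hCu, one_mulVec]
      rw [hC, ← mulVec_mulVec, e1, dotProduct_mulVec, vecMul_transpose, e1]
    have h3 : (C⁻¹ *ᵥ x) ⬝ᵥ (M' *ᵥ (C⁻¹ *ᵥ x)) = x ⬝ᵥ (H *ᵥ x) := by
      rw [hHdef, ← mulVec_mulVec, ← mulVec_mulVec, dotProduct_mulVec x, vecMul_transpose]
    rw [h2, h3] at h1
    exact h1
  have h1 := rmgd_one_le_det hH hle
  have h2 : H.det = M'.det / C.det ^ 2 := by
    rw [hHdef, det_mul, det_mul, det_transpose, det_nonsing_inv, Ring.inverse_eq_inv']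
    field_simp
  rw [h2, le_div_iff₀ (by positivity), one_mul] at h1
  rw [hdet]
  exact h1

end Mono

/-- (DE10) -/
theorem rmg_detMono : StRmgDetMono := by
  intro ι _ _ G G' hG hG' θ hθ hle r Z hZ
  have h1 : (θ • rmgSub G Z).PosDef := (rmgd_sub_posDef hG hZ).smul hθ
  have h2 : (rmgSub G' Z).IsHermitian := (rmgd_sub_posDef hG' hZ).isHermitian
  have h3 := rmgd_det_le_det h1 h2 (fun x => by
    have h4 := hle (rmgCM Z *ᵥ x)
    have h5 : ∀ K : Matrix ι ι ℝ, x ⬝ᵥ (rmgSub K Z *ᵥ x) = rmgQ K (rmgCM Z *ᵥ x) := by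
      intro K
      have := rmgb_B_sub K Z x x
      exact this
    rw [smul_mulVec, dotProduct_smul, h5, h5, smul_eq_mul]
    exact h4)
  rw [det_smul, Fintype.card_fin] at h3
  exact h3

end Claimed.Agent.R293
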