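/-
Row 293 (S0541), Reverse Minkowski, package GRAM, leaf RMG-FD-a (owner: helper136).
* `rmg_fdVol : StRmgFDVol`   every fundamental domain of `ℤ^ι` has volume one;
* `rmg_vorFD (h₁ : StRmgCoercive) (h₂ : StRmgVor) : StRmgVorFD`   the Voronoi cell is a fundamental
  domain.
No sorry.  Prefix `rmgfd`.
-/
import Claimed.Agent.R293.RM.GramStmts

set_option autoImplicit false

namespace Claimed.Agent.R293

open MeasureTheory Matrix Set
open scoped ENNReal

section
variable {ι : Type*} [Fintype ι]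

/-! ### The lattice `ℤ^ι` -/

theorem rmgfd_rmgZ_eq [DecidableEq ι] :
    rmgZ ι = (Submodule.span ℤ (Set.range (Pi.basisFun ℝ ι))).toAddSubgroup := by
  ext x
  constructor
  · rintro ⟨z, rfl⟩
    have : rmgC z = ∑ i, (z i) • (Pi.basisFun ℝ ι i) := by
      funext j
      simp [rmgC, Finset.sum_apply, Pi.single_apply]
    show rmgC z ∈ Submodule.span ℤ (Set.range (Pi.basisFun ℝ ι))
    rw [this]
    exact Submodule.sum_mem _ fun i _ =>
      Submodule.smul_mem _ _ (Submodule.subset_span ⟨i, rfl⟩)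
  · intro hx
    have hx' : x ∈ Submodule.span ℤ (Set.range (Pi.basisFun ℝ ι)) := hx
    refine Submodule.span_induction (p := fun y _ => y ∈ rmgZ ι) ?_ ?_ ?_ ?_ hx'
    · rintro _ ⟨i, rfl⟩
      refine ⟨Pi.single i 1, ?_⟩
      funext j
      by_cases h : j = i
      · subst h; simp [rmgC]
      · simp [rmgC, h]
    · exact (rmgZ ι).zero_mem
    · intro a b _ _ ha hb
      exact (rmgZ ι).add_mem ha hb
    · intro n a _ ha
      exact (rmgZ ι).zsmul_mem ha n

instance rmgfd_countable : Countable (rmgZ ι) := by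
  have : Function.Surjective (fun z : ι → ℤ => (⟨rmgC z, z, rfl⟩ : rmgZ ι)) := by
    rintro ⟨_, z, rfl⟩
    exact ⟨z, rfl⟩
  exact this.countable

end

/-- **(FD1)** every fundamental domain of `ℤ^ι` has volume one. -/
theorem rmg_fdVol : StRmgFDVol := by
  intro ι _ _ K hK
  have hcube : RmgFD (ZSpan.fundamentalDomain (Pi.basisFun ℝ ι)) := by
    unfold RmgFD
    rw [rmgfd_rmgZ_eq]
    exact ZSpan.isAddFundamentalDomain' (Pi.basisFun ℝ ι) volume
  have h := IsAddFundamentalDomain.measure_eq hK hcube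
  rw [h, ZSpan.fundamentalDomain_pi_basisFun, volume_pi, Measure.pi_pi]
  simp

/-! ### Algebra of the quadratic form -/

section
variable {ι : Type*} [Fintype ι]

theorem rmgfd_B_comm {G : Matrix ι ι ℝ} (hG : Gᵀ = G) (x y : ι → ℝ) :
    rmgB G x y = rmgB G y x := by
  unfold rmgB
  rw [Matrix.dotProduct_mulVec, ← Matrix.mulVec_transpose, hG, dotProduct_comm]

theorem rmgfd_Q_sub {G : Matrix ι ι ℝ} (hG : Gᵀ = G) (x w : ι → ℝ) :
    rmgQ G (x - w) = rmgQ G x - 2 * rmgB G x w + rmgQ G w := by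
  have h := rmgfd_B_comm hG w x
  unfold rmgQ rmgB at *
  rw [Matrix.mulVec_sub, sub_dotProduct, dotProduct_sub, dotProduct_sub, h]
  ring

theorem rmgfd_continuous_Q (G : Matrix ι ι ℝ) : Continuous (rmgQ G) := by
  unfold rmgQ rmgB
  exact Continuous.dotProduct continuous_id (Continuous.matrix_mulVec continuous_const continuous_id)

omit [Fintype ι] in
theorem rmgfd_C_sub (a b : ι → ℤ) : rmgC (a - b) = rmgC a - rmgC b := by
  funext i; simp [rmgC]

omit [Fintype ι] in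
theorem rmgfd_C_add (a b : ι → ℤ) : rmgC (a + b) = rmgC a + rmgC b := by
  funext i; simp [rmgC]

omit [Fintype ι] in
theorem rmgfd_C_neg (a : ι → ℤ) : rmgC (-a) = -rmgC a := by
  funext i; simp [rmgC]

omit [Fintype ι] in
theorem rmgfd_C_injective : Function.Injective (rmgC : (ι → ℤ) → ι → ℝ) := by
  intro a b h
  funext i
  have := congrFun h i
  simpa [rmgC] using this

/-- finitely many lattice points in a sublevel set of `z ↦ Q (x - z)`. -/
theorem rmgfd_finite_sublevel {G : Matrix ι ι ℝ} {c : ℝ} (hc : 0 < c)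
    (hcoer : ∀ x : ι → ℝ, c * (x ⬝ᵥ x) ≤ rmgQ G x) (x : ι → ℝ) (R : ℝ) :
    {z : ι → ℤ | rmgQ G (x - rmgC z) ≤ R}.Finite := by
  obtain ⟨M, hM⟩ : ∃ M : ℝ, 0 ≤ M ∧ R / c ≤ M ^ 2 := by
    refine ⟨|R / c| + 1, by positivity, ?_⟩
    nlinarith [le_abs_self (R / c), abs_nonneg (R / c)]
  have hsub : {z : ι → ℤ | rmgQ G (x - rmgC z) ≤ R} ⊆
      Set.pi Set.univ fun i => Set.Icc ⌊x i - M⌋ ⌈x i + M⌉ := by
    intro z hz i _
    have h1 : c * ((x - rmgC z) ⬝ᵥ (x - rmgC z)) ≤ R := (hcoer _).trans hz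
    have h2 : (x - rmgC z) ⬝ᵥ (x - rmgC z) ≤ M ^ 2 := by
      refine le_trans ?_ hM.2
      rw [le_div_iff₀ hc]; linarith
    have h3 : (x i - z i) * (x i - z i) ≤ (x - rmgC z) ⬝ᵥ (x - rmgC z) := by
      unfold dotProduct
      exact Finset.single_le_sum (f := fun j => (x - rmgC z) j * (x - rmgC z) j)
        (fun j _ => mul_self_nonneg _) (Finset.mem_univ i)
    have h4 : |x i - z i| ≤ M := by
      refine abs_le_of_sq_le_sq ?_ hM.1
      nlinarith
    rw [abs_le] at h4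
    constructor
    · refine Int.floor_le_iff.2 ?_
      linarith [h4.2]
    · refine Int.le_ceil_iff.2 ?_
      linarith [h4.1]
  exact (Set.Finite.pi fun i => Set.finite_Icc _ _).subset hsub

/-- a closest lattice point exists. -/
theorem rmgfd_exists_closest {G : Matrix ι ι ℝ} {c : ℝ} (hc : 0 < c)
    (hcoer : ∀ x : ι → ℝ, c * (x ⬝ᵥ x) ≤ rmgQ G x) (x : ι → ℝ) :
    ∃ z₀ : ι → ℤ, ∀ z : ι → ℤ, rmgQ G (x - rmgC z₀) ≤ rmgQ G (x - rmgC z) := by
  have hfin := rmgfd_finite_sublevel hc hcoer x (rmgQ G (x - rmgC 0))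
  have hne : {z : ι → ℤ | rmgQ G (x - rmgC z) ≤ rmgQ G (x - rmgC 0)}.Nonempty :=
    ⟨0, le_refl (rmgQ G (x - rmgC 0))⟩
  obtain ⟨z₀, hz₀, hmin⟩ := Set.exists_min_image _ (fun z : ι → ℤ => rmgQ G (x - rmgC z)) hfin hne
  refine ⟨z₀, fun z => ?_⟩
  by_cases hz : rmgQ G (x - rmgC z) ≤ rmgQ G (x - rmgC 0)
  · exact hmin z hz
  · exact le_trans hz₀ (not_le.1 hz).le

/-- an affine hyperplane is Lebesgue null. -/
theorem rmgfd_hyperplane_null {a : ι → ℝ} (ha : a ≠ 0) (r : ℝ) :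
    volume {y : ι → ℝ | y ⬝ᵥ a = r} = 0 := by
  classical
  rcases Set.eq_empty_or_nonempty {y : ι → ℝ | y ⬝ᵥ a = r} with h | ⟨y₀, hy₀⟩
  · rw [h]; exact measure_empty
  · let ℓ : (ι → ℝ) →ₗ[ℝ] ℝ :=
      { toFun := fun y => y ⬝ᵥ a
        map_add' := fun u v => add_dotProduct u v a
        map_smul' := fun t u => by simp [smul_dotProduct] }
    have hker : LinearMap.ker ℓ ≠ ⊤ := by
      intro htop
      have : a ∈ LinearMap.ker ℓ := by rw [htop]; trivial
      have h0 : a ⬝ᵥ a = 0 := this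
      exact ha (dotProduct_self_eq_zero.1 h0)
    have hnull := Measure.addHaar_submodule (volume : Measure (ι → ℝ)) (LinearMap.ker ℓ) hker
    have hset : {y : ι → ℝ | y ⬝ᵥ a = r} = (fun y => y + (-y₀)) ⁻¹' (LinearMap.ker ℓ : Set (ι → ℝ)) := by
      ext y
      have hy₀' : y₀ ⬝ᵥ a = r := hy₀
      simp only [mem_ofPred_eq, mem_preimage, SetLike.mem_coe, LinearMap.mem_ker]
      show y ⬝ᵥ a = r ↔ (y + -y₀) ⬝ᵥ a = 0
      rw [add_dotProduct, neg_dotProduct, hy₀']
      constructor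
      · intro h; rw [h]; ring
      · intro h; linarith
    rw [hset, measure_preimage_add_right]
    exact hnull

end

/-- **(FD2)** the Voronoi cell is a fundamental domain of `ℤ^ι`. -/
theorem rmg_vorFD (h₁ : StRmgCoercive) (h₂ : StRmgVor) : StRmgVorFD := by
  intro ι _ _ G hG
  obtain ⟨c, hc, hcoer⟩ := h₁ ι G hG
  have hsymm : Gᵀ = G := by
    have := hG.isHermitian
    rw [Matrix.IsHermitian, Matrix.conjTranspose_eq_transpose_of_trivial] at this
    exact this
  have hV : {x : ι → ℝ | rmgGauge G x ≤ 1} =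
      ⋂ z : ι → ℤ, {x | rmgQ G x ≤ rmgQ G (x - rmgC z)} := by
    ext x
    simp only [mem_ofPred_eq, mem_iInter]
    exact h₂ ι G hG x
  have hmemV : ∀ x : ι → ℝ, x ∈ {x : ι → ℝ | rmgGauge G x ≤ 1} ↔
      ∀ z : ι → ℤ, rmgQ G x ≤ rmgQ G (x - rmgC z) := fun x => h₂ ι G hG x
  have hclosed : IsClosed {x : ι → ℝ | rmgGauge G x ≤ 1} := by
    rw [hV]
    refine isClosed_iInter fun z => ?_
    exact isClosed_le (rmgfd_continuous_Q G)
      ((rmgfd_continuous_Q G).comp (continuous_id.sub continuous_const))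
  refine IsAddFundamentalDomain.mk'' hclosed.measurableSet.nullMeasurableSet ?_ ?_ ?_
  · -- covering
    refine Filter.Eventually.of_forall fun x => ?_
    obtain ⟨z₀, hz₀⟩ := rmgfd_exists_closest hc hcoer x
    refine ⟨⟨rmgC (-z₀), -z₀, rfl⟩, ?_⟩
    rw [hmemV]
    intro z
    show rmgQ G (rmgC (-z₀) + x) ≤ rmgQ G (rmgC (-z₀) + x - rmgC z)
    have e1 : rmgC (-z₀) + x = x - rmgC z₀ := by rw [rmgfd_C_neg]; abel
    have e2 : rmgC (-z₀) + x - rmgC z = x - rmgC (z₀ + z) := by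
      rw [rmgfd_C_neg, rmgfd_C_add]; abel
    rw [e2, e1]
    exact hz₀ _
  · -- overlaps
    rintro ⟨_, w, rfl⟩ hw
    have hw0 : w ≠ 0 := by
      rintro rfl
      apply hw
      ext i
      simp [rmgC]
    have hCw : rmgC w ≠ 0 := by
      intro h
      apply hw0
      apply rmgfd_C_injective
      rw [h]; funext i; simp [rmgC]
    have hGw : G *ᵥ rmgC w ≠ 0 := by
      intro h
      have h1 : rmgQ G (rmgC w) = 0 := by unfold rmgQ rmgB; rw [h]; simp
      have h2 := hcoer (rmgC w)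
      rw [h1] at h2
      have h3 : 0 < rmgC w ⬝ᵥ rmgC w := by
        rcases (dotProduct_self_star_nonneg (rmgC w)).lt_or_eq with h | h
        · simpa using h
        · exact absurd (dotProduct_self_eq_zero.1 (by simpa using h.symm)) hCw
      nlinarith
    refine measure_mono_null ?_ (rmgfd_hyperplane_null hGw (rmgQ G (rmgC w) / 2))
    rintro y ⟨hy1, hy2⟩
    rw [Set.mem_vadd_set_iff_neg_vadd_mem] at hy1
    have hy1' : -rmgC w + y ∈ {x : ι → ℝ | rmgGauge G x ≤ 1} := hy1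
    rw [hmemV] at hy1' hy2
    have a1 := hy1' (-w)
    have a2 := hy2 w
    have e1 : -rmgC w + y - rmgC (-w) = y := by rw [rmgfd_C_neg]; abel
    have e2 : -rmgC w + y = y - rmgC w := by abel
    rw [e1, e2] at a1
    have a3 : rmgQ G (y - rmgC w) = rmgQ G y := le_antisymm a1 a2
    rw [rmgfd_Q_sub hsymm] at a3
    show y ⬝ᵥ (G *ᵥ rmgC w) = rmgQ G (rmgC w) / 2
    have : rmgB G y (rmgC w) = y ⬝ᵥ (G *ᵥ rmgC w) := rfl
    rw [← this]
    linarith
  · intro g
    exact (measurePreserving_vadd g volume).quasiMeasurePreserving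

end Claimed.Agent.R293
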