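/-
Row 293 (S0541), package GRAM, leaf ME-b: block factorisation of the Gaussian measures.
Owner: helper250.  Prefix `rmgb_`.
-/
import Mathlib
import Claimed.Agent.R293.RM.GramStmts

set_option autoImplicit false
set_option linter.unusedSectionVars false
set_option linter.style.haveILetI false

namespace Claimed.Agent.R293

open MeasureTheory Matrix
open scoped ENNReal

section block

variable {ι₁ ι₂ : Type} [Fintype ι₁] [DecidableEq ι₁] [Fintype ι₂] [DecidableEq ι₂]

theorem rmgb_A_posDef (A : Matrix ι₁ ι₁ ℝ) (B : Matrix ι₁ ι₂ ℝ) (D : Matrix ι₂ ι₂ ℝ)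
    (h : (fromBlocks A B Bᵀ D).PosDef) : A.PosDef := by
  have := h.submatrix (e := (Sum.inl : ι₁ → ι₁ ⊕ ι₂)) Sum.inl_injective
  have h2 : (fromBlocks A B Bᵀ D).submatrix (Sum.inl : ι₁ → ι₁ ⊕ ι₂) Sum.inl = A := by
    ext i j
    simp
  rwa [h2] at this

/-- The quadratic form identity. -/
theorem rmgb_Q (A : Matrix ι₁ ι₁ ℝ) (B : Matrix ι₁ ι₂ ℝ) (D : Matrix ι₂ ι₂ ℝ) (hA : A.PosDef)
    (x : ι₁ → ℝ) (y : ι₂ → ℝ) :
    rmgQ (fromBlocks A B Bᵀ D) (Sum.elim x y)
      = rmgQ A (x + (A⁻¹ * B) *ᵥ y) + rmgQ (rmgSchur A B D) y := by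
  letI : Invertible A := hA.isUnit.invertible
  have := schur_complement_eq₁₁ B D x y hA.1
  simp only [star_trivial, conjTranspose_eq_transpose_of_trivial] at this
  unfold rmgQ rmgB rmgSchur
  rw [dotProduct_mulVec, dotProduct_mulVec, dotProduct_mulVec]
  exact this

theorem rmg_blockPD : StRmgBlockPD := by
  intro ι₁ ι₂ _ _ _ _ A B D h
  have hA : A.PosDef := rmgb_A_posDef A B D h
  letI : Invertible A := hA.isUnit.invertible
  refine ⟨hA, ?_, ?_⟩
  · have hherm : (rmgSchur A B D).IsHermitian := by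
      have := (IsHermitian.fromBlocks₁₁ B D hA.1).1
        (by simpa [conjTranspose_eq_transpose_of_trivial] using h.1)
      simpa [rmgSchur, conjTranspose_eq_transpose_of_trivial] using this
    refine PosDef.of_dotProduct_mulVec_pos hherm fun y hy => ?_
    have hne : Sum.elim (-((A⁻¹ * B) *ᵥ y)) y ≠ 0 := by
      intro h0
      apply hy
      funext j
      have := congrFun h0 (Sum.inr j)
      simpa using this
    have h1 := h.dotProduct_mulVec_pos hne
    have h2 := rmgb_Q A B D hA (-((A⁻¹ * B) *ᵥ y)) y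
    simp only [star_trivial] at h1 ⊢
    unfold rmgQ rmgB at h2
    rw [h2] at h1
    simpa using h1
  · rw [det_fromBlocks₁₁, invOf_eq_nonsing_inv]
    rfl

/-- push-forward of a density of the form `ρ ∘ Φ`. -/
theorem rmgb_map_withDensity {α β : Type*} [MeasurableSpace α] [MeasurableSpace β]
    (μ : Measure α) (Φ : α → β) (hΦ : Measurable Φ) (ρ : β → ℝ≥0∞) (hρ : Measurable ρ) :
    (μ.withDensity (fun x => ρ (Φ x))).map Φ = (μ.map Φ).withDensity ρ := by
  ext s hs
  rw [Measure.map_apply hΦ hs, withDensity_apply _ (hΦ hs), withDensity_apply _ hs,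
    setLIntegral_map hs hρ hΦ]

/-- the shear is volume preserving. -/
theorem rmgb_shear (T : Matrix ι₁ ι₂ ℝ) :
    MeasurePreserving (fun p : (ι₁ → ℝ) × (ι₂ → ℝ) => (p.1 + T *ᵥ p.2, p.2))
      ((volume : Measure (ι₁ → ℝ)).prod (volume : Measure (ι₂ → ℝ)))
      ((volume : Measure (ι₁ → ℝ)).prod (volume : Measure (ι₂ → ℝ))) := by
  have hT : Measurable (fun v : ι₂ → ℝ => T *ᵥ v) :=
    (Matrix.mulVecLin T).continuous_of_finiteDimensional.measurable
  have h1 : MeasurePreserving (fun p : (ι₂ → ℝ) × (ι₁ → ℝ) => (id p.1, p.2 + T *ᵥ p.1))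
      ((volume : Measure (ι₂ → ℝ)).prod (volume : Measure (ι₁ → ℝ)))
      ((volume : Measure (ι₂ → ℝ)).prod (volume : Measure (ι₁ → ℝ))) := by
    refine MeasurePreserving.skew_product (g := fun (v : ι₂ → ℝ) (u : ι₁ → ℝ) => u + T *ᵥ v)
      (MeasurePreserving.id _) ?_ (Filter.Eventually.of_forall fun v => ?_)
    · exact measurable_snd.add (hT.comp measurable_fst)
    · exact map_add_right_eq_self volume (T *ᵥ v)
  have h2 := (Measure.measurePreserving_swap.comp h1).comp
    (Measure.measurePreserving_swap (μ := (volume : Measure (ι₁ → ℝ)))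
      (ν := (volume : Measure (ι₂ → ℝ))))
  exact h2

theorem rmgb_Q_measurable {ι : Type} [Fintype ι] (G : Matrix ι ι ℝ) : Measurable (rmgQ G) := by
  have hT : Continuous (fun v : ι → ℝ => G *ᵥ v) :=
    (Matrix.mulVecLin G).continuous_of_finiteDimensional
  have : Continuous (rmgQ G) := by
    unfold rmgQ rmgB dotProduct
    exact continuous_finsetSum _ fun i _ =>
      (continuous_apply i).mul ((continuous_apply i).comp hT)
  exact this.measurable

theorem rmg_measBlock : StRmgMeasBlock := by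
  intro ι₁ ι₂ _ _ _ _ A B D h
  obtain ⟨hA, hS, hdet⟩ := rmg_blockPD ι₁ ι₂ A B D h
  set S := rmgSchur A B D with hSdef
  set T := A⁻¹ * B with hT
  set Φ : (ι₁ ⊕ ι₂ → ℝ) → (ι₁ → ℝ) × (ι₂ → ℝ) := fun x =>
    ((fun i => x (Sum.inl i)) + T *ᵥ (fun j => x (Sum.inr j)), fun j => x (Sum.inr j)) with hΦ
  have hmp : MeasurePreserving Φ volume
      ((volume : Measure (ι₁ → ℝ)).prod (volume : Measure (ι₂ → ℝ))) :=
    (rmgb_shear T).comp (volume_measurePreserving_sumPiEquivProdPi (fun _ : ι₁ ⊕ ι₂ => ℝ))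
  set fA : (ι₁ → ℝ) → ℝ≥0∞ :=
    fun x => ENNReal.ofReal (Real.sqrt A.det * Real.exp (-(Real.pi * rmgQ A x))) with hfA
  set fS : (ι₂ → ℝ) → ℝ≥0∞ :=
    fun x => ENNReal.ofReal (Real.sqrt S.det * Real.exp (-(Real.pi * rmgQ S x))) with hfS
  have hfAm : Measurable fA := by
    have := rmgb_Q_measurable A
    fun_prop
  have hfSm : Measurable fS := by
    have := rmgb_Q_measurable S
    fun_prop
  have hdens : (fun x : ι₁ ⊕ ι₂ → ℝ => ENNReal.ofReal (Real.sqrt (fromBlocks A B Bᵀ D).det *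
      Real.exp (-(Real.pi * rmgQ (fromBlocks A B Bᵀ D) x))))
      = fun x => (fun z : (ι₁ → ℝ) × (ι₂ → ℝ) => fA z.1 * fS z.2) (Φ x) := by
    funext x
    have hx : x = Sum.elim (fun i => x (Sum.inl i)) (fun j => x (Sum.inr j)) := by
      funext k
      cases k <;> rfl
    have hQ := rmgb_Q A B D hA (fun i => x (Sum.inl i)) (fun j => x (Sum.inr j))
    rw [← hx] at hQ
    simp only [hfA, hfS, hΦ]
    rw [← ENNReal.ofReal_mul (by positivity), hQ, hdet, Real.sqrt_mul hA.det_pos.le]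
    congr 1
    rw [mul_add, neg_add, Real.exp_add]
    ring
  unfold rmgMeas
  have hρ : Measurable (fun z : (ι₁ → ℝ) × (ι₂ → ℝ) => fA z.1 * fS z.2) :=
    (hfAm.comp measurable_fst).mul (hfSm.comp measurable_snd)
  rw [hdens, rmgb_map_withDensity _ Φ hmp.measurable
    (fun z : (ι₁ → ℝ) × (ι₂ → ℝ) => fA z.1 * fS z.2) hρ, hmp.map_eq,
    prod_withDensity hfAm hfSm]

end block

end Claimed.Agent.R293
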