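/-
Row 293 (S0541), package GRAM, leaf FD-b: the sheared product of two fundamental domains is a
fundamental domain.  Owner: helper250.  Prefix `rmgs`.
-/
import Mathlib
import Claimed.Agent.R293.RM.GramStmts
import Claimed.Agent.R293.RM.GramMeasB

set_option autoImplicit false
set_option linter.unusedSectionVars false

namespace Claimed.Agent.R293

open MeasureTheory Matrix
open scoped ENNReal Pointwise

section shear

variable {ι₁ ι₂ : Type} [Fintype ι₁] [DecidableEq ι₁] [Fintype ι₂] [DecidableEq ι₂]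

/-- The shear map. -/
def rmgsPhi (T : Matrix ι₁ ι₂ ℝ) (x : ι₁ ⊕ ι₂ → ℝ) : (ι₁ → ℝ) × (ι₂ → ℝ) :=
  ((fun i => x (Sum.inl i)) + T *ᵥ (fun j => x (Sum.inr j)), fun j => x (Sum.inr j))

theorem rmgsPhi_mp (T : Matrix ι₁ ι₂ ℝ) :
    MeasurePreserving (rmgsPhi T) volume
      ((volume : Measure (ι₁ → ℝ)).prod (volume : Measure (ι₂ → ℝ))) :=
  (rmgb_shear T).comp (volume_measurePreserving_sumPiEquivProdPi (fun _ : ι₁ ⊕ ι₂ => ℝ))

theorem rmgs_qmp_snd (T : Matrix ι₁ ι₂ ℝ) :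
    Measure.QuasiMeasurePreserving (fun x => (rmgsPhi T x).2) volume volume :=
  Measure.quasiMeasurePreserving_snd.comp (rmgsPhi_mp T).quasiMeasurePreserving

theorem rmgs_qmp_fst (T : Matrix ι₁ ι₂ ℝ) (c : ι₁ → ℝ) :
    Measure.QuasiMeasurePreserving (fun x => (rmgsPhi T x).1 + c) volume volume :=
  ((measurePreserving_add_right volume c).quasiMeasurePreserving.comp
    Measure.quasiMeasurePreserving_fst).comp (rmgsPhi_mp T).quasiMeasurePreserving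

theorem rmgsPhi_add (T : Matrix ι₁ ι₂ ℝ) (x y : ι₁ ⊕ ι₂ → ℝ) :
    rmgsPhi T (x + y) = rmgsPhi T x + rmgsPhi T y := by
  unfold rmgsPhi
  have h1 : (fun j => (x + y) (Sum.inr j)) = (fun j => x (Sum.inr j)) + fun j => y (Sum.inr j) :=
    rfl
  have h2 : (fun i => (x + y) (Sum.inl i)) = (fun i => x (Sum.inl i)) + fun i => y (Sum.inl i) :=
    rfl
  rw [h1, h2, mulVec_add, Prod.mk_add_mk]
  congr 1
  abel

theorem rmgsPhi_neg (T : Matrix ι₁ ι₂ ℝ) (x : ι₁ ⊕ ι₂ → ℝ) :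
    rmgsPhi T (-x) = -rmgsPhi T x := by
  have h := rmgsPhi_add T (-x) x
  have h0 : rmgsPhi T (0 : ι₁ ⊕ ι₂ → ℝ) = 0 := by
    unfold rmgsPhi
    have h1 : (fun j => (0 : ι₁ ⊕ ι₂ → ℝ) (Sum.inr j)) = (0 : ι₂ → ℝ) := rfl
    have h2 : (fun i => (0 : ι₁ ⊕ ι₂ → ℝ) (Sum.inl i)) = (0 : ι₁ → ℝ) := rfl
    rw [h1, h2, mulVec_zero, add_zero]
    rfl
  rw [neg_add_cancel, h0] at h
  exact eq_neg_of_add_eq_zero_left h.symm

/-- first component of a lattice vector -/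
def rmgsFst (g : rmgZ (ι₁ ⊕ ι₂)) : rmgZ ι₁ :=
  ⟨fun i => g.1 (Sum.inl i), by
    obtain ⟨z, hz⟩ := g.2
    exact ⟨fun i => z (Sum.inl i), by rw [← hz]; rfl⟩⟩

/-- second component of a lattice vector -/
def rmgsSnd (g : rmgZ (ι₁ ⊕ ι₂)) : rmgZ ι₂ :=
  ⟨fun i => g.1 (Sum.inr i), by
    obtain ⟨z, hz⟩ := g.2
    exact ⟨fun i => z (Sum.inr i), by rw [← hz]; rfl⟩⟩

/-- pairing of lattice vectors -/
def rmgsPair (a : rmgZ ι₁) (b : rmgZ ι₂) : rmgZ (ι₁ ⊕ ι₂) :=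
  ⟨Sum.elim a.1 b.1, by
    obtain ⟨z, hz⟩ := a.2
    obtain ⟨w, hw⟩ := b.2
    refine ⟨Sum.elim z w, ?_⟩
    rw [← hz, ← hw]
    funext k
    cases k <;> rfl⟩

theorem rmgs_ext (g g' : rmgZ (ι₁ ⊕ ι₂)) (h1 : rmgsFst g = rmgsFst g')
    (h2 : rmgsSnd g = rmgsSnd g') : g = g' := by
  apply Subtype.ext
  funext k
  cases k with
  | inl i => exact congrFun (congrArg Subtype.val h1) i
  | inr j => exact congrFun (congrArg Subtype.val h2) j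

theorem rmgsPhi_lat (T : Matrix ι₁ ι₂ ℝ) (g : rmgZ (ι₁ ⊕ ι₂)) :
    rmgsPhi T g.1 = ((rmgsFst g).1 + T *ᵥ (rmgsSnd g).1, (rmgsSnd g).1) := rfl

instance rmgs_countable (ι : Type) [Finite ι] : Countable (rmgZ ι) :=
  (Set.countable_range (rmgC : (ι → ℤ) → ι → ℝ)).to_subtype

/-- The sheared product of two fundamental domains is a fundamental domain. -/
theorem rmgs_fd (T : Matrix ι₁ ι₂ ℝ) (KA : Set (ι₁ → ℝ)) (KS : Set (ι₂ → ℝ)) (hA : RmgFD KA)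
    (hS : RmgFD KS) : RmgFD (rmgsPhi T ⁻¹' (KA ×ˢ KS)) := by
  refine ⟨?_, ?_, ?_⟩
  · exact (hA.nullMeasurableSet.prod hS.nullMeasurableSet).preimage
      (rmgsPhi_mp T).quasiMeasurePreserving
  · have h1 : ∀ᵐ x : ι₁ ⊕ ι₂ → ℝ, ∃ g : rmgZ ι₂, g +ᵥ (rmgsPhi T x).2 ∈ KS :=
      (rmgs_qmp_snd T).ae hS.ae_covers
    have h2 : ∀ g₂ : rmgZ ι₂, ∀ᵐ x : ι₁ ⊕ ι₂ → ℝ,
        ∃ g : rmgZ ι₁, g +ᵥ ((rmgsPhi T x).1 + T *ᵥ g₂.1) ∈ KA :=
      fun g₂ => (rmgs_qmp_fst T _).ae hA.ae_covers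
    filter_upwards [h1, ae_all_iff.2 h2] with x hx1 hx2
    obtain ⟨g₂, hg₂⟩ := hx1
    obtain ⟨g₁, hg₁⟩ := hx2 g₂
    refine ⟨rmgsPair g₁ g₂, ?_⟩
    show rmgsPhi T ((rmgsPair g₁ g₂).1 + x) ∈ KA ×ˢ KS
    rw [rmgsPhi_add, rmgsPhi_lat]
    refine ⟨?_, hg₂⟩
    have : g₁ +ᵥ ((rmgsPhi T x).1 + T *ᵥ g₂.1) = g₁.1 + T *ᵥ g₂.1 + (rmgsPhi T x).1 := by
      show g₁.1 + ((rmgsPhi T x).1 + T *ᵥ g₂.1) = _
      abel
    rw [this] at hg₁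
    exact hg₁
  · intro g g' hgg'
    show volume ((g +ᵥ rmgsPhi T ⁻¹' (KA ×ˢ KS)) ∩ (g' +ᵥ rmgsPhi T ⁻¹' (KA ×ˢ KS))) = 0
    have hmem : ∀ (g : rmgZ (ι₁ ⊕ ι₂)) (x : ι₁ ⊕ ι₂ → ℝ), x ∈ g +ᵥ rmgsPhi T ⁻¹' (KA ×ˢ KS) →
        (rmgsPhi T x).1 + -(T *ᵥ (rmgsSnd g).1) ∈ rmgsFst g +ᵥ KA ∧
          (rmgsPhi T x).2 ∈ rmgsSnd g +ᵥ KS := by
      intro g x hx
      rw [Set.mem_vadd_set_iff_neg_vadd_mem] at hx
      have hx' : rmgsPhi T (-g.1 + x) ∈ KA ×ˢ KS := hx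
      rw [rmgsPhi_add, rmgsPhi_neg, rmgsPhi_lat] at hx'
      constructor
      · rw [Set.mem_vadd_set_iff_neg_vadd_mem]
        have : -rmgsFst g +ᵥ ((rmgsPhi T x).1 + -(T *ᵥ (rmgsSnd g).1))
            = (-((rmgsFst g).1 + T *ᵥ (rmgsSnd g).1, (rmgsSnd g).1) + rmgsPhi T x).1 := by
          show -(rmgsFst g).1 + ((rmgsPhi T x).1 + -(T *ᵥ (rmgsSnd g).1))
            = -((rmgsFst g).1 + T *ᵥ (rmgsSnd g).1) + (rmgsPhi T x).1
          abel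
        rw [this]
        exact hx'.1
      · rw [Set.mem_vadd_set_iff_neg_vadd_mem]
        exact hx'.2
    by_cases h2 : rmgsSnd g = rmgsSnd g'
    · have h1 : rmgsFst g ≠ rmgsFst g' := fun h1 => hgg' (rmgs_ext g g' h1 h2)
      have hnull : volume ((rmgsFst g +ᵥ KA) ∩ (rmgsFst g' +ᵥ KA)) = 0 := hA.aedisjoint h1
      refine measure_mono_null ?_
        ((rmgs_qmp_fst T (-(T *ᵥ (rmgsSnd g).1))).preimage_null hnull)
      intro x hx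
      refine ⟨(hmem g x hx.1).1, ?_⟩
      have := (hmem g' x hx.2).1
      rw [← h2] at this
      exact this
    · have hnull : volume ((rmgsSnd g +ᵥ KS) ∩ (rmgsSnd g' +ᵥ KS)) = 0 := hS.aedisjoint h2
      refine measure_mono_null ?_ ((rmgs_qmp_snd T).preimage_null hnull)
      intro x hx
      exact ⟨(hmem g x hx.1).2, (hmem g' x hx.2).2⟩

end shear

/-- (FD3) from (FD2). -/
theorem rmg_splitFD (h : StRmgVorFD) : StRmgSplitFD := by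
  intro ι₁ ι₂ _ _ _ _ A S T hA hS
  have := rmgs_fd T _ _ (h ι₁ A hA) (h ι₂ S hS)
  convert this using 1
  ext x
  simp only [Set.mem_ofPred_eq, max_le_iff, Set.mem_preimage, Set.mem_prod, rmgsPhi]

end Claimed.Agent.R293
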