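/-
Row 293 (S0541), Reverse Minkowski, package GRAM, leaf (HE): Hermite reduction.
Owner: helper207.   Prefix `rmgH_` (and `RmgHermA`, `RmgHermB`).
Induction on the rank: almost shortest vector, unimodular completion (leaf DE7), Schur complement
(leaf ME5), Hermite's inequality, size reduction.
-/
import Claimed.Agent.R293.RM.GramStmts
set_option autoImplicit false
set_option linter.unusedSectionVars false
namespace Claimed.Agent.R293
open MeasureTheory Matrix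
open scoped ENNReal

section basics
variable {ι κ μ : Type*} [Fintype ι] [Fintype κ] [Fintype μ]

theorem rmgH_CM_mulVec (Z : Matrix ι κ ℤ) (z : κ → ℤ) : rmgCM Z *ᵥ rmgC z = rmgC (Z *ᵥ z) := by
  funext i
  simp [rmgCM, rmgC, mulVec, dotProduct]

theorem rmgH_CM_mul (Z : Matrix ι κ ℤ) (Y : Matrix κ μ ℤ) : rmgCM (Z * Y) = rmgCM Z * rmgCM Y := by
  unfold rmgCM
  exact Matrix.map_mul (f := Int.castRingHom ℝ)

theorem rmgH_C_injective : Function.Injective (rmgC : (ι → ℤ) → ι → ℝ) := by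
  intro a b h
  funext i
  have := congrFun h i
  simpa [rmgC] using this

theorem rmgH_C_zero : rmgC (0 : ι → ℤ) = 0 := by funext i; simp [rmgC]

theorem rmgH_Q_sub (G : Matrix ι ι ℝ) (Z : Matrix ι κ ℤ) (x : κ → ℝ) :
    rmgQ (rmgSub G Z) x = rmgQ G (rmgCM Z *ᵥ x) := by
  unfold rmgQ rmgB rmgSub
  rw [← mulVec_mulVec, ← mulVec_mulVec, dotProduct_mulVec, vecMul_transpose]

theorem rmgH_sub_mul (G : Matrix ι ι ℝ) (Z : Matrix ι κ ℤ) (Y : Matrix κ μ ℤ) :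
    rmgSub G (Z * Y) = rmgSub (rmgSub G Z) Y := by
  unfold rmgSub
  rw [rmgH_CM_mul, transpose_mul]
  simp only [Matrix.mul_assoc]

theorem rmgH_Q_single [DecidableEq ι] (M : Matrix ι ι ℝ) (k : ι) : rmgQ M (Pi.single k 1) = M k k := by
  unfold rmgQ rmgB
  simp

theorem rmgH_sub_diag [DecidableEq κ] (G : Matrix ι ι ℝ) (Z : Matrix ι κ ℤ) (k : κ) :
    rmgSub G Z k k = rmgQ G (rmgC fun i => Z i k) := by
  rw [← rmgH_Q_single (rmgSub G Z) k, rmgH_Q_sub]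
  congr 1
  funext i
  simp [rmgCM, rmgC]

theorem rmgH_sub_submatrix (G : Matrix ι ι ℝ) (Z : Matrix ι κ ℤ) (f : μ → κ) :
    rmgSub G (Z.submatrix id f) = (rmgSub G Z).submatrix f f := by
  ext a b
  simp [rmgSub, rmgCM, Matrix.mul_apply]

theorem rmgH_abs_le_of_diag [DecidableEq ι] {M : Matrix ι ι ℝ} (hM : M.PosSemidef) {R : ℝ}
    (hR : ∀ i, M i i ≤ R) (i j : ι) : |M i j| ≤ R := by
  have hs : M j i = M i j := by
    have := hM.isHermitian.apply i j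
    simpa using this
  have h1 := hM.dotProduct_mulVec_nonneg (Pi.single i 1 + Pi.single j 1)
  have h2 := hM.dotProduct_mulVec_nonneg (Pi.single i 1 - Pi.single j 1)
  simp only [star_trivial, mulVec_add, mulVec_sub, mulVec_single_one, add_dotProduct, sub_dotProduct,
    dotProduct_add, dotProduct_sub, single_one_dotProduct, col_apply] at h1 h2
  rw [hs] at h1 h2
  have := hR i
  have := hR j
  rw [abs_le]
  constructor <;> linarith

end basics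

section blocks
variable {ι₁ ι₂ : Type*} [Fintype ι₁] [DecidableEq ι₁] [Fintype ι₂] [DecidableEq ι₂]

/-- completing the square in a block matrix. -/
theorem rmgH_block_Q (A : Matrix ι₁ ι₁ ℝ) (B : Matrix ι₁ ι₂ ℝ) (D : Matrix ι₂ ι₂ ℝ)
    (hA : Aᵀ = A) (hdet : IsUnit A.det) (x₁ : ι₁ → ℝ) (x₂ : ι₂ → ℝ) :
    rmgQ (fromBlocks A B Bᵀ D) (Sum.elim x₁ x₂)
      = rmgQ A (x₁ + A⁻¹ *ᵥ (B *ᵥ x₂)) + rmgQ (rmgSchur A B D) x₂ := by
  set v := A⁻¹ *ᵥ (B *ᵥ x₂) with hv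
  have hAv : A *ᵥ v = B *ᵥ x₂ := by
    rw [hv, mulVec_mulVec, mul_nonsing_inv _ hdet, one_mulVec]
  have hsym : ∀ a b : ι₁ → ℝ, a ⬝ᵥ (A *ᵥ b) = (A *ᵥ a) ⬝ᵥ b := by
    intro a b
    rw [dotProduct_mulVec, ← mulVec_transpose, hA]
  unfold rmgQ rmgB rmgSchur
  rw [fromBlocks_mulVec, sumElim_dotProduct_sumElim]
  simp only [Sum.elim_comp_inl, Sum.elim_comp_inr]
  rw [sub_mulVec, ← mulVec_mulVec, ← mulVec_mulVec, ← hv, mulVec_add, hAv]
  simp only [add_dotProduct, dotProduct_add, dotProduct_sub]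
  rw [hsym v x₁, hAv, dotProduct_mulVec x₂ Bᵀ x₁, vecMul_transpose, dotProduct_mulVec x₂ Bᵀ v,
    vecMul_transpose, dotProduct_comm v (B *ᵥ x₂), dotProduct_comm (B *ᵥ x₂) x₁]
  ring

theorem rmgH_Q_fin_one (A : Matrix (Fin 1) (Fin 1) ℝ) (y : Fin 1 → ℝ) :
    rmgQ A y = A 0 0 * (y 0) ^ 2 := by
  unfold rmgQ rmgB
  simp [dotProduct, mulVec]
  ring

end blocks


section lift
variable {n : ℕ}

/-- size-reduced lift of an integer vector of the quotient lattice. -/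
noncomputable def rmgH_lift (A : Matrix (Fin 1) (Fin 1) ℝ) (B : Matrix (Fin 1) (Fin n) ℝ)
    (w : Fin n → ℤ) : Fin 1 ⊕ Fin n → ℤ :=
  Sum.elim (fun _ => -round ((A⁻¹ *ᵥ (B *ᵥ rmgC w)) 0)) w

theorem rmgH_C_elim {ι₁ ι₂ : Type*} (a : ι₁ → ℤ) (w : ι₂ → ℤ) :
    rmgC (Sum.elim a w) = Sum.elim (rmgC a) (rmgC w) := by
  funext i
  cases i <;> simp [rmgC]

theorem rmgH_lift_le (A : Matrix (Fin 1) (Fin 1) ℝ) (B : Matrix (Fin 1) (Fin n) ℝ)
    (D : Matrix (Fin n) (Fin n) ℝ) (hA : A.PosDef) (w : Fin n → ℤ) :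
    rmgQ (fromBlocks A B Bᵀ D) (rmgC (rmgH_lift A B w))
      ≤ A 0 0 / 4 + rmgQ (rmgSchur A B D) (rmgC w) := by
  have hAT : Aᵀ = A := by
    have := hA.isHermitian.eq
    rwa [conjTranspose_eq_transpose_of_trivial] at this
  have hdet : IsUnit A.det := isUnit_iff_ne_zero.2 hA.det_pos.ne'
  unfold rmgH_lift
  rw [rmgH_C_elim, rmgH_block_Q A B D hAT hdet, rmgH_Q_fin_one]
  have h00 : 0 < A 0 0 := hA.diag_pos
  set t := (A⁻¹ *ᵥ (B *ᵥ rmgC w)) 0 with ht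
  have h1 : (rmgC (fun _ : Fin 1 => -round t) + A⁻¹ *ᵥ (B *ᵥ rmgC w)) 0 = t - round t := by
    simp only [Pi.add_apply, rmgC, ← ht]
    push_cast
    ring
  rw [h1]
  have h2 : (t - round t) ^ 2 ≤ 1 / 4 := by
    have := abs_sub_round t
    have h3 : (t - round t) ^ 2 = |t - round t| ^ 2 := (sq_abs _).symm
    rw [h3]
    have h4 : 0 ≤ |t - round t| := abs_nonneg _
    nlinarith
  nlinarith

theorem rmgH_lift_ne_zero (A : Matrix (Fin 1) (Fin 1) ℝ) (B : Matrix (Fin 1) (Fin n) ℝ)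
    {w : Fin n → ℤ} (hw : w ≠ 0) : rmgH_lift A B w ≠ 0 := by
  intro h
  apply hw
  funext j
  have := congrFun h (Sum.inr j)
  simpa [rmgH_lift] using this

theorem rmgH_schur_lower (A : Matrix (Fin 1) (Fin 1) ℝ) (B : Matrix (Fin 1) (Fin n) ℝ)
    (D : Matrix (Fin n) (Fin n) ℝ) (hA : A.PosDef)
    (hmin : ∀ z : Fin 1 ⊕ Fin n → ℤ, z ≠ 0 → A 0 0 ≤ 4 / 3 * rmgQ (fromBlocks A B Bᵀ D) (rmgC z))
    (w : Fin n → ℤ) (hw : w ≠ 0) : A 0 0 / 2 ≤ rmgQ (rmgSchur A B D) (rmgC w) := by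
  have h1 := hmin _ (rmgH_lift_ne_zero A B hw)
  have h2 := rmgH_lift_le A B D hA w
  linarith

/-- the unimodular matrix lifting a basis of the quotient lattice. -/
noncomputable def rmgH_liftMat (A : Matrix (Fin 1) (Fin 1) ℝ) (B : Matrix (Fin 1) (Fin n) ℝ)
    (U₁ : Matrix (Fin n) (Fin n) ℤ) : Matrix (Fin 1 ⊕ Fin n) (Fin 1 ⊕ Fin n) ℤ :=
  fromBlocks 1 (Matrix.of fun _ j => -round ((A⁻¹ *ᵥ (B *ᵥ rmgC fun i => U₁ i j)) 0)) 0 U₁

theorem rmgH_liftMat_det (A : Matrix (Fin 1) (Fin 1) ℝ) (B : Matrix (Fin 1) (Fin n) ℝ)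
    (U₁ : Matrix (Fin n) (Fin n) ℤ) : (rmgH_liftMat A B U₁).det = U₁.det := by
  unfold rmgH_liftMat
  rw [det_fromBlocks_zero₂₁, det_one, one_mul]

theorem rmgH_liftMat_diag (A : Matrix (Fin 1) (Fin 1) ℝ) (B : Matrix (Fin 1) (Fin n) ℝ)
    (D : Matrix (Fin n) (Fin n) ℝ) (hA : A.PosDef) (U₁ : Matrix (Fin n) (Fin n) ℤ) {R : ℝ}
    (hR0 : 0 ≤ R) (hR : ∀ j, rmgSub (rmgSchur A B D) U₁ j j ≤ R) (k : Fin 1 ⊕ Fin n) :
    rmgSub (fromBlocks A B Bᵀ D) (rmgH_liftMat A B U₁) k k ≤ A 0 0 + R := by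
  have h00 : 0 < A 0 0 := hA.diag_pos
  rw [rmgH_sub_diag]
  rcases k with k | j
  · have hk : k = 0 := Subsingleton.elim _ _
    subst hk
    have h1 : (rmgC fun i => rmgH_liftMat A B U₁ i (Sum.inl 0)) = Pi.single (Sum.inl 0) 1 := by
      funext i
      rcases i with i | i
      · have hi : i = 0 := Subsingleton.elim _ _
        subst hi
        simp [rmgC, rmgH_liftMat]
      · simp [rmgC, rmgH_liftMat]
    rw [h1, rmgH_Q_single]
    simp only [fromBlocks_apply₁₁]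
    linarith
  · have h1 : (fun i => rmgH_liftMat A B U₁ i (Sum.inr j)) = rmgH_lift A B (fun i => U₁ i j) := by
      funext i
      rcases i with i | i
      · simp [rmgH_liftMat, rmgH_lift]
      · simp [rmgH_liftMat, rmgH_lift]
    rw [h1]
    have h2 := rmgH_lift_le A B D hA (fun i => U₁ i j)
    have h3 := hR j
    rw [rmgH_sub_diag] at h3
    linarith

end lift


section first

theorem rmgH_Q_smul {ι : Type*} [Fintype ι] (G : Matrix ι ι ℝ) (c : ℝ) (x : ι → ℝ) :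
    rmgQ G (c • x) = c ^ 2 * rmgQ G x := by
  unfold rmgQ rmgB
  rw [mulVec_smul, smul_dotProduct, dotProduct_smul, smul_eq_mul, smul_eq_mul]
  ring

theorem rmgH_Q_pos {ι : Type*} [Fintype ι] {G : Matrix ι ι ℝ} (hG : G.PosDef) {x : ι → ℝ}
    (hx : x ≠ 0) : 0 < rmgQ G x := by
  have := hG.dotProduct_mulVec_pos hx
  simpa [rmgQ, rmgB] using this

theorem rmgH_Q_zero {ι : Type*} [Fintype ι] (G : Matrix ι ι ℝ) : rmgQ G 0 = 0 := by
  simp [rmgQ, rmgB]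

theorem rmgH_exists_first (hsnf : StRmgSNF) {n : ℕ} (G : Matrix (Fin (n + 1)) (Fin (n + 1)) ℝ)
    (lam : ℝ) (hlam : 0 < lam)
    (hmin : ∀ z : Fin (n + 1) → ℤ, z ≠ 0 → lam ≤ rmgQ G (rmgC z)) :
    ∃ (U₀ : Matrix (Fin (n + 1)) (Fin (n + 1)) ℤ) (e : Fin 1 ⊕ Fin n ≃ Fin (n + 1)),
      IsUnit U₀.det ∧ ∀ z : Fin (n + 1) → ℤ, z ≠ 0 →
        rmgQ G (rmgC fun i => U₀ i (e (Sum.inl 0))) ≤ 4 / 3 * rmgQ G (rmgC z) := by
  set S : Set ℝ := {r | ∃ z : Fin (n + 1) → ℤ, z ≠ 0 ∧ r = rmgQ G (rmgC z)} with hS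
  have hne : S.Nonempty := ⟨_, Pi.single 0 1, by simp, rfl⟩
  have hbdd : BddBelow S := ⟨lam, by rintro _ ⟨z, hz, rfl⟩; exact hmin z hz⟩
  have hm : lam ≤ sInf S := le_csInf hne (by rintro _ ⟨z, hz, rfl⟩; exact hmin z hz)
  obtain ⟨_, ⟨z₀, hz₀, rfl⟩, hlt⟩ :=
    exists_lt_of_csInf_lt hne (show sInf S < 4 / 3 * sInf S by nlinarith)
  have hall : ∀ z : Fin (n + 1) → ℤ, z ≠ 0 → rmgQ G (rmgC z₀) ≤ 4 / 3 * rmgQ G (rmgC z) := by
    intro z hz
    have : sInf S ≤ rmgQ G (rmgC z) := csInf_le hbdd ⟨z, hz, rfl⟩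
    linarith
  set Z : Matrix (Fin (n + 1)) (Fin 1) ℤ := Matrix.of fun i _ => z₀ i with hZdef
  have hind : RmgIndep Z := by
    unfold RmgIndep
    rw [linearIndependent_unique_iff]
    intro h
    apply hz₀
    apply rmgH_C_injective
    rw [rmgH_C_zero, ← h]
    rfl
  obtain ⟨U₀, W, e, hU, hW, hZ⟩ := hsnf (n + 1) 1 Z hind
  refine ⟨U₀, e, hU, fun z hzne => ?_⟩
  set u : Fin (n + 1) → ℤ := fun i => U₀ i (e (Sum.inl 0)) with hu
  have hz : ∀ i, z₀ i = u i * W 0 0 := by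
    intro i
    have := congrFun (congrFun hZ i) 0
    simpa [hZdef, Matrix.mul_apply] using this
  have hw : W 0 0 ≠ 0 := by rwa [det_fin_one] at hW
  have hCz : rmgC z₀ = ((W 0 0 : ℤ) : ℝ) • rmgC u := by
    funext i
    simp [rmgC, hz i, mul_comm]
  have hu0 : u ≠ 0 := by
    intro h
    apply hz₀
    funext i
    rw [hz i, h]; simp
  have hQu : 0 < rmgQ G (rmgC u) := lt_of_lt_of_le hlam (hmin u hu0)
  have hw2 : (1 : ℝ) ≤ ((W 0 0 : ℤ) : ℝ) ^ 2 := by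
    have h1 : (1 : ℤ) ≤ (W 0 0) ^ 2 := by
      have := Int.one_le_abs hw
      rw [← sq_abs]
      nlinarith
    exact_mod_cast h1
  have h1 := hall z hzne
  rw [hCz, rmgH_Q_smul] at h1
  nlinarith

end first

section reduce

theorem rmgH_CM_det {ι : Type*} [Fintype ι] [DecidableEq ι] (U : Matrix ι ι ℤ) :
    (rmgCM U).det = ((U.det : ℤ) : ℝ) := by
  unfold rmgCM
  exact ((Int.castRingHom ℝ).map_det U).symm

theorem rmgH_CM_det_sq {ι : Type*} [Fintype ι] [DecidableEq ι] {U : Matrix ι ι ℤ}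
    (hU : IsUnit U.det) : (rmgCM U).det * (rmgCM U).det = 1 := by
  rw [rmgH_CM_det]
  rcases Int.isUnit_iff.1 hU with h | h <;> rw [h] <;> norm_num

theorem rmgH_sub_posDef {ι : Type*} [Fintype ι] [DecidableEq ι] {G : Matrix ι ι ℝ} (hG : G.PosDef)
    {U : Matrix ι ι ℤ} (hU : IsUnit U.det) : (rmgSub G U).PosDef := by
  have h0 : (rmgCM U).det ≠ 0 := by
    intro h
    have := rmgH_CM_det_sq hU
    rw [h] at this
    simp at this
  have := hG.conjTranspose_mul_mul_same (B := rmgCM U) (mulVec_injective_of_det_ne_zero h0)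
  rwa [conjTranspose_eq_transpose_of_trivial] at this

theorem rmgH_sub_det {ι : Type*} [Fintype ι] [DecidableEq ι] (G : Matrix ι ι ℝ)
    {U : Matrix ι ι ℤ} (hU : IsUnit U.det) : (rmgSub G U).det = G.det := by
  unfold rmgSub
  rw [det_mul, det_mul, det_transpose]
  have := rmgH_CM_det_sq hU
  calc (rmgCM U).det * G.det * (rmgCM U).det = G.det * ((rmgCM U).det * (rmgCM U).det) := by ring
    _ = G.det := by rw [this, mul_one]

theorem rmgH_reduce (hsnf : StRmgSNF) (hblk : StRmgBlockPD) {n : ℕ}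
    (G : Matrix (Fin (n + 1)) (Fin (n + 1)) ℝ) (hG : G.PosDef) (lam : ℝ) (hlam : 0 < lam)
    (hmin : ∀ z : Fin (n + 1) → ℤ, z ≠ 0 → lam ≤ rmgQ G (rmgC z)) :
    ∃ (U₀ : Matrix (Fin (n + 1)) (Fin (n + 1)) ℤ) (e : Fin 1 ⊕ Fin n ≃ Fin (n + 1))
      (A : Matrix (Fin 1) (Fin 1) ℝ) (B : Matrix (Fin 1) (Fin n) ℝ) (D : Matrix (Fin n) (Fin n) ℝ),
      IsUnit U₀.det ∧ rmgSub G (U₀.submatrix id e) = fromBlocks A B Bᵀ D ∧ A.PosDef ∧
        (rmgSchur A B D).PosDef ∧ G.det = A 0 0 * (rmgSchur A B D).det ∧ lam ≤ A 0 0 ∧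
        ∀ w : Fin n → ℤ, w ≠ 0 → A 0 0 / 2 ≤ rmgQ (rmgSchur A B D) (rmgC w) := by
  obtain ⟨U₀, e, hU, hfirst⟩ := rmgH_exists_first hsnf G lam hlam hmin
  set V : Matrix (Fin (n + 1)) (Fin 1 ⊕ Fin n) ℤ := U₀.submatrix id e with hV
  set G₁ := rmgSub G V with hG₁
  have hG₁eq : G₁ = (rmgSub G U₀).submatrix e e := rmgH_sub_submatrix G U₀ e
  have hG₁PD : G₁.PosDef := by
    rw [hG₁eq]; exact (rmgH_sub_posDef hG hU).submatrix e.injective
  have hG₁det : G₁.det = G.det := by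
    rw [hG₁eq, det_submatrix_equiv_self, rmgH_sub_det G hU]
  have hG₁T : G₁ᵀ = G₁ := by
    have := hG₁PD.isHermitian.eq
    rwa [conjTranspose_eq_transpose_of_trivial] at this
  set A := G₁.toBlocks₁₁ with hA
  set B := G₁.toBlocks₁₂ with hB
  set D := G₁.toBlocks₂₂ with hD
  have h21 : G₁.toBlocks₂₁ = Bᵀ := by
    ext i j
    have := congrFun (congrFun hG₁T (Sum.inr i)) (Sum.inl j)
    simpa [hB, toBlocks₁₂, toBlocks₂₁] using this.symm
  have hfb : G₁ = fromBlocks A B Bᵀ D := by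
    rw [← h21]; exact (fromBlocks_toBlocks G₁).symm
  have hPD' : (fromBlocks A B Bᵀ D).PosDef := hfb ▸ hG₁PD
  obtain ⟨hAPD, hSPD, hdet⟩ := hblk (Fin 1) (Fin n) A B D hPD'
  have hVne : ∀ z' : Fin 1 ⊕ Fin n → ℤ, z' ≠ 0 → V *ᵥ z' ≠ 0 := by
    intro z' hz' h
    have h1 : rmgC z' ≠ 0 := fun h0 => hz' (rmgH_C_injective (h0.trans rmgH_C_zero.symm))
    have h2 := rmgH_Q_pos hG₁PD h1
    rw [hG₁, rmgH_Q_sub, rmgH_CM_mulVec, h, rmgH_C_zero, rmgH_Q_zero] at h2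
    exact lt_irrefl _ h2
  have hQ₁ : ∀ z' : Fin 1 ⊕ Fin n → ℤ, rmgQ G₁ (rmgC z') = rmgQ G (rmgC (V *ᵥ z')) := by
    intro z'
    rw [hG₁, rmgH_Q_sub, rmgH_CM_mulVec]
  have hA00 : A 0 0 = rmgQ G (rmgC fun i => U₀ i (e (Sum.inl 0))) := by
    have : A 0 0 = G₁ (Sum.inl 0) (Sum.inl 0) := rfl
    rw [this, hG₁, rmgH_sub_diag]
    rfl
  have hu0 : (fun i => U₀ i (e (Sum.inl 0))) ≠ (0 : Fin (n + 1) → ℤ) := by
    have h1 := hVne (Pi.single (Sum.inl 0) 1) (by simp)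
    have h2 : V *ᵥ (Pi.single (Sum.inl 0) 1) = fun i => U₀ i (e (Sum.inl 0)) := by
      funext i
      simp [hV]
    rwa [h2] at h1
  refine ⟨U₀, e, A, B, D, hU, hfb, hAPD, hSPD, ?_, ?_, ?_⟩
  · rw [← hG₁det, hfb, hdet, det_fin_one]
  · rw [hA00]; exact hmin _ hu0
  · refine rmgH_schur_lower A B D hAPD (fun z' hz' => ?_)
    rw [← hfb, hQ₁, hA00]
    exact hfirst _ (hVne z' hz')

end reduce


section induction

/-- Hermite's inequality with constant `c`. -/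
def RmgHermA (n : ℕ) (c : ℝ) : Prop :=
  ∀ (G : Matrix (Fin n) (Fin n) ℝ) (lam : ℝ), G.PosDef → 0 < lam →
    (∀ z : Fin n → ℤ, z ≠ 0 → lam ≤ rmgQ G (rmgC z)) → c * lam ^ n ≤ G.det

/-- existence of a basis with bounded norms. -/
def RmgHermB (n : ℕ) (lam D R : ℝ) : Prop :=
  ∀ G : Matrix (Fin n) (Fin n) ℝ, G.PosDef →
    (∀ z : Fin n → ℤ, z ≠ 0 → lam ≤ rmgQ G (rmgC z)) → G.det ≤ D →
      ∃ U : Matrix (Fin n) (Fin n) ℤ, IsUnit U.det ∧ ∀ i, rmgSub G U i i ≤ R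

theorem rmgH_stepA (hsnf : StRmgSNF) (hblk : StRmgBlockPD) {n : ℕ} {c : ℝ} (hc : 0 < c)
    (ih : RmgHermA n c) : RmgHermA (n + 1) (c / 2 ^ n) := by
  intro G lam hG hlam hmin
  obtain ⟨U₀, e, A, B, D, -, -, hA, hS, hdet, hlamA, hlow⟩ := rmgH_reduce hsnf hblk G hG lam hlam hmin
  have hμ : 0 < A 0 0 := hA.diag_pos
  have h1 := ih (rmgSchur A B D) (A 0 0 / 2) hS (by positivity) hlow
  rw [hdet]
  calc c / 2 ^ n * lam ^ (n + 1) ≤ c / 2 ^ n * (A 0 0) ^ (n + 1) := by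
        gcongr
    _ = A 0 0 * (c * (A 0 0 / 2) ^ n) := by
        rw [div_pow]; field_simp; ring
    _ ≤ A 0 0 * (rmgSchur A B D).det := by gcongr

theorem rmgH_stepB (hsnf : StRmgSNF) (hblk : StRmgBlockPD) {n : ℕ} {c : ℝ} (hc : 0 < c)
    (ihA : RmgHermA n c) {lam D R' : ℝ} (hlam : 0 < lam) (hR' : 0 ≤ R')
    (ih : RmgHermB n (lam / 2) (D / lam) R') :
    RmgHermB (n + 1) lam D (max 1 (D * 2 ^ n / c) + R') := by
  intro G hG hmin hD
  obtain ⟨U₀, e, A, B, D', hU₀, hfb, hA, hS, hdet, hlamA, hlow⟩ :=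
    rmgH_reduce hsnf hblk G hG lam hlam hmin
  have hμ : 0 < A 0 0 := hA.diag_pos
  have hSdet : 0 < (rmgSchur A B D').det := hS.det_pos
  -- upper bound for `μ`
  have hμle : A 0 0 ≤ max 1 (D * 2 ^ n / c) := by
    by_cases h1 : A 0 0 ≤ 1
    · exact h1.trans (le_max_left _ _)
    · push Not at h1
      refine le_trans ?_ (le_max_right _ _)
      have h2 := ihA (rmgSchur A B D') (A 0 0 / 2) hS (by positivity) hlow
      have h3 : A 0 0 * (c * (A 0 0 / 2) ^ n) ≤ D := by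
        calc A 0 0 * (c * (A 0 0 / 2) ^ n) ≤ A 0 0 * (rmgSchur A B D').det := by gcongr
          _ = G.det := hdet.symm
          _ ≤ D := hD
      have h4 : A 0 0 * (c * (A 0 0 / 2) ^ n) = c * (A 0 0) ^ (n + 1) / 2 ^ n := by
        rw [div_pow]; field_simp; ring
      have h5 : A 0 0 ≤ (A 0 0) ^ (n + 1) := le_self_pow₀ h1.le (by omega)
      rw [le_div_iff₀ hc]
      rw [h4, div_le_iff₀ (by positivity)] at h3
      nlinarith
  have hSle : (rmgSchur A B D').det ≤ D / lam := by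
    rw [le_div_iff₀ hlam]
    calc (rmgSchur A B D').det * lam ≤ (rmgSchur A B D').det * A 0 0 := by gcongr
      _ = G.det := by rw [hdet]; ring
      _ ≤ D := hD
  obtain ⟨U₁, hU₁, hdiag⟩ := ih (rmgSchur A B D') hS
    (fun w hw => le_trans (by linarith) (hlow w hw)) hSle
  set U₂ := rmgH_liftMat A B U₁ with hU₂
  set V : Matrix (Fin (n + 1)) (Fin 1 ⊕ Fin n) ℤ := U₀.submatrix id e with hV
  refine ⟨(V * U₂).submatrix id e.symm, ?_, fun i => ?_⟩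
  · have h1 : (V * U₂).submatrix id e.symm = U₀ * U₂.submatrix e.symm e.symm := by
      have h2 : U₀ = V.submatrix id e.symm := by
        rw [hV, submatrix_submatrix]; simp
      conv_rhs => rw [h2]
      rw [submatrix_mul_equiv]
    rw [h1, det_mul, det_submatrix_equiv_self, hU₂, rmgH_liftMat_det]
    exact hU₀.mul hU₁
  · rw [rmgH_sub_submatrix, submatrix_apply, rmgH_sub_mul, hfb]
    have := rmgH_liftMat_diag A B D' hA U₁ hR' hdiag (e.symm i)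
    linarith

theorem rmgH_all (hsnf : StRmgSNF) (hblk : StRmgBlockPD) (n : ℕ) :
    (∃ c : ℝ, 0 < c ∧ RmgHermA n c) ∧
      ∀ lam D : ℝ, 0 < lam → ∃ R : ℝ, 0 ≤ R ∧ RmgHermB n lam D R := by
  induction n with
  | zero =>
    refine ⟨⟨1, one_pos, fun G lam _ _ _ => by simp⟩, fun lam D _ => ⟨0, le_rfl, fun G _ _ _ => ?_⟩⟩
    exact ⟨1, by simp, fun i => i.elim0⟩
  | succ n ih =>
    obtain ⟨⟨c, hc, hA⟩, hB⟩ := ih
    refine ⟨⟨c / 2 ^ n, by positivity, rmgH_stepA hsnf hblk hc hA⟩, fun lam D hlam => ?_⟩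
    obtain ⟨R', hR', hB'⟩ := hB (lam / 2) (D / lam) (by positivity)
    exact ⟨max 1 (D * 2 ^ n / c) + R', by positivity, rmgH_stepB hsnf hblk hc hA hlam hR' hB'⟩

theorem rmg_hermite (hsnf : StRmgSNF) (hblk : StRmgBlockPD) : StRmgHermite := by
  intro n
  obtain ⟨R, hR, hB⟩ := (rmgH_all hsnf hblk n).2 1 1 one_pos
  refine ⟨R, fun G hG hmin hdet => ?_⟩
  obtain ⟨U, hU, hdiag⟩ := hB G hG hmin hdet
  exact ⟨U, hU, rmgH_abs_le_of_diag (rmgH_sub_posDef hG hU).posSemidef hdiag⟩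

end induction

end Claimed.Agent.R293
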