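/-
Row 293 (S0541), black box "Reverse Minkowski", package GRAM, leaves (IN1), (IN2), (IN5):
polar decomposition, determinant on a segment, stability of nearby forms.  Owner: helper96.
-/
import Claimed.Agent.R293.RM.GramStmts

set_option autoImplicit false

namespace Claimed.Agent.R293

open MeasureTheory Matrix
open scoped ENNReal

section Sqrt
open scoped MatrixOrder

/-- a positive definite real matrix has a positive definite square root. -/
theorem rmgIN_sqrt {ι : Type} [Fintype ι] [DecidableEq ι] (M : Matrix ι ι ℝ) (hM : M.PosDef) :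
    ∃ P : Matrix ι ι ℝ, P.PosDef ∧ P * P = M := by
  have h2 : CFC.sqrt M * CFC.sqrt M = M := CFC.sqrt_mul_sqrt_self M hM.posSemidef.nonneg
  refine ⟨CFC.sqrt M, ?_, h2⟩
  have h1 : (CFC.sqrt M).PosSemidef := Matrix.nonneg_iff_posSemidef.mp (CFC.sqrt_nonneg M)
  rw [h1.posDef_iff_det_ne_zero]
  intro h0
  have h3 : M.det = 0 := by
    rw [← h2, Matrix.det_mul, h0, mul_zero]
  exact hM.det_pos.ne' h3

end Sqrt

/-- **(IN1)** polar decomposition. -/
theorem rmg_polar : StRmgPolar := by
  intro ι _ _ N hN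
  have hNu : IsUnit N.det := isUnit_iff_ne_zero.mpr hN
  have hM : (N * Nᵀ).PosDef := by
    have h1 : (N * Nᵀ).PosSemidef := by
      have := Matrix.posSemidef_self_mul_conjTranspose N
      simpa [Matrix.conjTranspose_eq_transpose_of_trivial] using this
    rw [h1.posDef_iff_det_ne_zero, Matrix.det_mul, Matrix.det_transpose]
    exact mul_ne_zero hN hN
  obtain ⟨P, hP, hPP⟩ := rmgIN_sqrt _ hM
  have hPu : IsUnit P.det := isUnit_iff_ne_zero.mpr hP.det_pos.ne'
  have hPt : Pᵀ = P := by
    have := hP.isHermitian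
    simpa [Matrix.IsHermitian, Matrix.conjTranspose_eq_transpose_of_trivial] using this
  refine ⟨P, P⁻¹ * N, hP, ?_, ?_⟩
  · rw [mul_eq_one_comm]
    calc P⁻¹ * N * (P⁻¹ * N)ᵀ = P⁻¹ * (N * Nᵀ) * P⁻¹ := by
          rw [Matrix.transpose_mul, Matrix.transpose_nonsing_inv, hPt]
          simp only [Matrix.mul_assoc]
      _ = (P⁻¹ * P) * (P * P⁻¹) := by
          rw [← hPP]
          simp only [Matrix.mul_assoc]
      _ = 1 := by
          rw [Matrix.nonsing_inv_mul P hPu, Matrix.mul_nonsing_inv P hPu, Matrix.one_mul]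
  · rw [← Matrix.mul_assoc, Matrix.mul_nonsing_inv P hPu, Matrix.one_mul]

/-- determinant of an affine function of a symmetric matrix. -/
theorem rmgIN_det_affine {ι : Type} [Fintype ι] [DecidableEq ι] (P : Matrix ι ι ℝ)
    (hP : P.IsHermitian) (a u : ℝ) :
    (a • (1 : Matrix ι ι ℝ) + u • P).det = ∏ i, (a + u * hP.eigenvalues i) := by
  by_cases hu : u = 0
  · subst hu
    simp
  have h1 := Matrix.eval_charpoly P (-a / u)
  rw [hP.charpoly_eq, Polynomial.eval_prod] at h1
  have e1 : a • (1 : Matrix ι ι ℝ) + u • P = (-u) • (Matrix.scalar ι (-a / u) - P) := by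
    ext i j
    by_cases hij : i = j
    · subst hij
      simp only [Matrix.add_apply, Matrix.smul_apply, Matrix.one_apply_eq, smul_eq_mul,
        Matrix.sub_apply, Matrix.scalar_apply, Matrix.diagonal_apply_eq]
      field_simp
      ring
    · simp only [Matrix.add_apply, Matrix.smul_apply, Matrix.one_apply_ne hij, smul_eq_mul,
        Matrix.sub_apply, Matrix.scalar_apply, Matrix.diagonal_apply_ne _ hij]
      ring
  rw [e1, Matrix.det_smul, ← h1, ← Finset.card_univ, ← Finset.prod_const, ← Finset.prod_mul_distrib]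
  refine Finset.prod_congr rfl fun i _ => ?_
  simp only [Polynomial.eval_sub, Polynomial.eval_X, Polynomial.eval_C, RCLike.ofReal_real_eq_id,
    id_eq]
  field_simp
  ring

/-- **(IN2)** `det((1-u) 1 + u P) ≥ 1` for positive definite `P` of determinant one. -/
theorem rmg_detSeg : StRmgDetSeg := by
  intro ι _ _ P hP hdet u hu0 hu1
  have hH := hP.isHermitian
  rw [rmgIN_det_affine P hH]
  have hpos : ∀ i, 0 < hH.eigenvalues i := fun i => hP.eigenvalues_pos i
  have hprod : ∏ i, hH.eigenvalues i = 1 := by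
    have := hH.det_eq_prod_eigenvalues
    rw [hdet] at this
    simpa using this.symm
  have hamgm : ∀ i, hH.eigenvalues i ^ u ≤ (1 - u) + u * hH.eigenvalues i := by
    intro i
    have := Real.geom_mean_le_arith_mean2_weighted (w₁ := 1 - u) (w₂ := u) (p₁ := 1)
      (p₂ := hH.eigenvalues i) (by linarith) hu0 zero_le_one (hpos i).le (by ring)
    simpa using this
  calc (1 : ℝ) = (∏ i, hH.eigenvalues i) ^ u := by rw [hprod, Real.one_rpow]
    _ = ∏ i, hH.eigenvalues i ^ u := by
        rw [Real.finsetProd_rpow _ _ fun i _ => (hpos i).le]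
    _ ≤ ∏ i, ((1 - u) + u * hH.eigenvalues i) :=
        Finset.prod_le_prod (fun i _ => Real.rpow_nonneg (hpos i).le _) fun i _ => hamgm i

/-- **(IN5)** a form close to a stable form with margin is stable. -/
theorem rmg_stableNear (hDM : StRmgDetMono) (hFR : StRmgFullRank) : StRmgStableNear := by
  intro n G G' δ θ hG hmar hG' hdet hθ0 hθ1 hθδ hQ
  refine ⟨hG', hdet, ?_⟩
  intro r Z hZ
  obtain ⟨hrn, hfull⟩ := hFR n r G' Z hG' hZ
  rcases Nat.eq_zero_or_pos r with hr0 | hr0
  · subst hr0
    simp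
  rcases Nat.lt_or_ge r n with hlt | hge
  · have h1 := hDM (Fin n) G G' hG.1 hG' θ hθ0 hQ r Z hZ
    have h2 := hmar r Z hr0 (by simpa using hlt) hZ
    have h3 : θ ^ n ≤ θ ^ r := pow_le_pow_of_le_one hθ0.le hθ1 hrn
    have hδ : 0 ≤ 1 + δ := by
      by_contra hcon
      push Not at hcon
      have : θ ^ n * (1 + δ) < 0 := mul_neg_of_pos_of_neg (pow_pos hθ0 n) hcon
      linarith
    calc (1 : ℝ) ≤ θ ^ n * (1 + δ) := hθδ
      _ ≤ θ ^ r * (1 + δ) := mul_le_mul_of_nonneg_right h3 hδ
      _ ≤ θ ^ r * (rmgSub G Z).det := mul_le_mul_of_nonneg_left h2 (pow_pos hθ0 r).le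
      _ ≤ (rmgSub G' Z).det := h1
  · have := hfull (le_antisymm hrn hge)
    rw [hdet] at this
    exact this

end Claimed.Agent.R293
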