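/-
Row 293 (S0541), Reverse Minkowski, package GRAM, leaf (IN): the interior case (convexity argument).
Owner: helper207.   Prefix `rmgI_`.
-/
import Claimed.Agent.R293.RM.GramStmts
set_option autoImplicit false
namespace Claimed.Agent.R293
open MeasureTheory Matrix
open scoped ENNReal

open scoped MatrixOrder in
theorem rmgI_factor {ι : Type*} [Fintype ι] [DecidableEq ι] {G : Matrix ι ι ℝ} (hG : G.PosDef) :
    ∃ B : Matrix ι ι ℝ, G = Bᵀ * B := by
  have h0 : 0 ≤ G := Matrix.nonneg_iff_posSemidef.2 hG.posSemidef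
  have h1 := CFC.sqrt_mul_sqrt_self G h0
  have h2 : (CFC.sqrt G).IsHermitian :=
    (Matrix.nonneg_iff_posSemidef.1 (CFC.sqrt_nonneg G)).isHermitian
  refine ⟨CFC.sqrt G, ?_⟩
  have h3 : (CFC.sqrt G)ᵀ = CFC.sqrt G := by
    have := h2.eq
    rwa [conjTranspose_eq_transpose_of_trivial] at this
  rw [h3, h1]

theorem rmgI_Q_factor {ι : Type*} [Fintype ι] (B : Matrix ι ι ℝ) (x : ι → ℝ) :
    rmgQ (Bᵀ * B) x = (B *ᵥ x) ⬝ᵥ (B *ᵥ x) := by
  unfold rmgQ rmgB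
  rw [← mulVec_mulVec, dotProduct_mulVec, vecMul_transpose]

theorem rmgI_bound {ι : Type*} [Fintype ι] (N : Seminorm ℝ (ι → ℝ)) :
    ∃ C : ℝ, 0 ≤ C ∧ ∀ x, N x ≤ C * ‖x‖ := by
  classical
  refine ⟨∑ i, N (Pi.single i 1), Finset.sum_nonneg fun i _ => apply_nonneg N _, fun x => ?_⟩
  have hx : x = ∑ i, x i • (Pi.single i (1 : ℝ) : ι → ℝ) := by
    conv_lhs => rw [pi_eq_sum_univ x]
    refine Finset.sum_congr rfl fun i _ => ?_
    funext j
    simp [Pi.single_apply, eq_comm]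
  have h1 : ∀ s : Finset ι, N (∑ i ∈ s, x i • (Pi.single i (1 : ℝ) : ι → ℝ))
      ≤ ∑ i ∈ s, N (x i • (Pi.single i (1 : ℝ) : ι → ℝ)) := by
    intro s
    induction s using Finset.induction_on with
    | empty => simp
    | insert a s ha ih =>
      rw [Finset.sum_insert ha, Finset.sum_insert ha]
      exact (map_add_le_add N _ _).trans (by linarith)
  calc N x = N (∑ i, x i • (Pi.single i (1 : ℝ) : ι → ℝ)) := by rw [← hx]
    _ ≤ ∑ i, N (x i • (Pi.single i (1 : ℝ) : ι → ℝ)) := h1 _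
    _ = ∑ i, ‖x i‖ * N (Pi.single i 1) := by simp only [map_smul_eq_mul]
    _ ≤ ∑ i, ‖x‖ * N (Pi.single i 1) :=
        Finset.sum_le_sum fun i _ => mul_le_mul_of_nonneg_right (norm_le_pi_norm x i) (apply_nonneg N _)
    _ = (∑ i, N (Pi.single i 1)) * ‖x‖ := by rw [Finset.sum_mul]; simp only [mul_comm]

theorem rmgI_continuous {ι : Type*} [Fintype ι] (N : Seminorm ℝ (ι → ℝ)) : Continuous N := by
  obtain ⟨C, hC, hN⟩ := rmgI_bound N
  have : LipschitzWith (Real.toNNReal C) N := by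
    refine LipschitzWith.of_dist_le_mul fun x y => ?_
    rw [Real.dist_eq, dist_eq_norm, Real.coe_toNNReal _ hC]
    exact (abs_sub_map_le_sub N x y).trans (hN _)
  exact this.continuous

theorem rmgI_cancel {T F : ℝ≥0∞} {u : ℝ} (hu0 : 0 < u) (hu1 : u ≤ 1) (hT : T ≠ ⊤)
    (h : T ≤ ENNReal.ofReal (1 - u) * T + ENNReal.ofReal u * F) : T ≤ F := by
  by_cases hF : F = ⊤
  · rw [hF]; exact le_top
  lift T to NNReal using hT
  lift F to NNReal using hF
  have h1 : ((T : ℝ≥0∞)).toReal ≤ (ENNReal.ofReal (1 - u) * T + ENNReal.ofReal u * F).toReal :=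
    ENNReal.toReal_mono (by
      exact ENNReal.add_ne_top.2 ⟨ENNReal.mul_ne_top ENNReal.ofReal_ne_top ENNReal.coe_ne_top,
        ENNReal.mul_ne_top ENNReal.ofReal_ne_top ENNReal.coe_ne_top⟩) h
  rw [ENNReal.toReal_add (ENNReal.mul_ne_top ENNReal.ofReal_ne_top ENNReal.coe_ne_top)
    (ENNReal.mul_ne_top ENNReal.ofReal_ne_top ENNReal.coe_ne_top), ENNReal.toReal_mul,
    ENNReal.toReal_mul, ENNReal.toReal_ofReal (by linarith), ENNReal.toReal_ofReal hu0.le] at h1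
  simp only [ENNReal.coe_toReal] at h1
  have h2 : (T : ℝ) ≤ F := by nlinarith
  exact_mod_cast h2

theorem rmgI_psi_le {ι : Type*} [Fintype ι] [DecidableEq ι] (q : ℕ) (h₁ h₂ : (ι → ℝ) → ℝ)
    (A₁ A₂ : Matrix ι ι ℝ) (C : ℝ) (hC : 0 ≤ C) (h0 : ∀ z, 0 ≤ h₁ (A₁ *ᵥ z))
    (hle : ∀ z, h₁ (A₁ *ᵥ z) ≤ C * h₂ (A₂ *ᵥ z)) :
    rmgPsi q h₁ A₁ ≤ ENNReal.ofReal (C ^ q) * rmgPsi q h₂ A₂ := by
  unfold rmgPsi rmgMom
  rw [← lintegral_const_mul' _ _ ENNReal.ofReal_ne_top]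
  refine lintegral_mono fun z => ?_
  rw [← ENNReal.ofReal_mul (by positivity), ← mul_pow]
  exact ENNReal.ofReal_le_ofReal (pow_le_pow_left₀ (h0 z) (hle z) q)

theorem rmgI_psi_finite (hfin : StRmgMomFinite) {ι : Type} [Fintype ι] [DecidableEq ι] (q : ℕ)
    (p : Seminorm ℝ (ι → ℝ)) (A : Matrix ι ι ℝ) : rmgPsi q p A < ⊤ :=
  hfin ι 1 Matrix.PosDef.one (p.comp (Matrix.mulVecLin A)) q

/-- lower bound for the quadratic form of `(1-u) 1 + u P`. -/
theorem rmgI_seg_lower {ι : Type*} [Fintype ι] [DecidableEq ι] {P : Matrix ι ι ℝ} (hP : P.PosDef)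
    {u : ℝ} (hu0 : 0 ≤ u) (hu1 : u ≤ 1) (y : ι → ℝ) :
    (1 - u) ^ 2 * (y ⬝ᵥ y) ≤
      (((1 - u) • (1 : Matrix ι ι ℝ) + u • P) *ᵥ y) ⬝ᵥ (((1 - u) • (1 : Matrix ι ι ℝ) + u • P) *ᵥ y) := by
  have h1 : ((1 - u) • (1 : Matrix ι ι ℝ) + u • P) *ᵥ y = (1 - u) • y + u • (P *ᵥ y) := by
    rw [add_mulVec, smul_mulVec, smul_mulVec, one_mulVec]
  have h2 : 0 ≤ y ⬝ᵥ (P *ᵥ y) := by
    have := hP.posSemidef.dotProduct_mulVec_nonneg y
    simpa using this
  have h3 : 0 ≤ (P *ᵥ y) ⬝ᵥ (P *ᵥ y) := by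
    rw [dotProduct]; exact Finset.sum_nonneg fun i _ => mul_self_nonneg _
  rw [h1]
  simp only [add_dotProduct, dotProduct_add, smul_dotProduct, dotProduct_smul, smul_eq_mul]
  rw [dotProduct_comm (P *ᵥ y) y]
  have h4 : 0 ≤ u * (1 - u) * (y ⬝ᵥ (P *ᵥ y)) := by
    have : 0 ≤ 1 - u := by linarith
    positivity
  have h5 : 0 ≤ u * u * ((P *ᵥ y) ⬝ᵥ (P *ᵥ y)) := by positivity
  nlinarith

theorem rmgI_step (hsemi : StRmgGaugeSemi) (hpert : StRmgGaugePert) (hvor : StRmgVorFD)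
    (hfin : StRmgMomFinite) (hcmp : StRmgCompare) (hfac : StRmgMomFactor)
    (hconv : StRmgPsiConvex) (hnear : StRmgStableNear)
    {n q : ℕ} (G B P : Matrix (Fin n) (Fin n) ℝ)
    (hst : RmgStable G) (hmax : RmgMaximal q G) (δ : ℝ) (hmar : RmgMargin δ G)
    (hGB : G = Bᵀ * B) (hP : P.PosDef) (u : ℝ) (hu0 : 0 < u) (hu1 : u < 1)
    (c : ℝ) (hc : c ^ n = ((1 - u) • (1 : Matrix (Fin n) (Fin n) ℝ) + u • P).det) (hc1 : 1 ≤ c)
    (hθ : 1 ≤ ((1 - u) ^ 2 / c ^ 2) ^ n * (1 + δ)) :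
    rmgTheta q G ≤ ENNReal.ofReal ((((1 - u) ^ 2 / c ^ 2)⁻¹) ^ q) *
      (ENNReal.ofReal (1 - u) * rmgPsi q (rmgGauge G) (B⁻¹ * P)
        + ENNReal.ofReal u * rmgPsi q (rmgGauge G) (B⁻¹ * (P * P))) := by
  obtain ⟨hPD, hdet, hD1⟩ := hst
  have hc0 : 0 < c := by linarith
  set Bu : Matrix (Fin n) (Fin n) ℝ := (1 - u) • (1 : Matrix (Fin n) (Fin n) ℝ) + u • P with hBu
  have hPT : Pᵀ = P := by
    have := hP.isHermitian.eq
    rwa [conjTranspose_eq_transpose_of_trivial] at this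
  have hBuT : Buᵀ = Bu := by
    rw [hBu, transpose_add, transpose_smul, transpose_smul, transpose_one, hPT]
  have hBdet2 : B.det * B.det = 1 := by
    rw [← hdet, hGB, det_mul, det_transpose]
  have hBdet : B.det ≠ 0 := by
    intro h; rw [h] at hBdet2; simp at hBdet2
  have hBunit : IsUnit B.det := isUnit_iff_ne_zero.2 hBdet
  set B' : Matrix (Fin n) (Fin n) ℝ := c⁻¹ • (Bu * B) with hB'
  have hB'det : B'.det = B.det := by
    rw [hB', det_smul, det_mul, ← hc, Fintype.card_fin, ← mul_assoc, ← mul_pow,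
      inv_mul_cancel₀ hc0.ne', one_pow, one_mul]
  have hB'det0 : B'.det ≠ 0 := by rw [hB'det]; exact hBdet
  have hB'unit : IsUnit B'.det := isUnit_iff_ne_zero.2 hB'det0
  set G' : Matrix (Fin n) (Fin n) ℝ := B'ᵀ * B' with hG'
  have hG'PD : G'.PosDef := by
    have := Matrix.PosDef.conjTranspose_mul_self B' (mulVec_injective_of_det_ne_zero hB'det0)
    rwa [conjTranspose_eq_transpose_of_trivial] at this
  have hG'det : G'.det = 1 := by
    rw [hG', det_mul, det_transpose, hB'det, hBdet2]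
  set θ : ℝ := (1 - u) ^ 2 / c ^ 2 with hθdef
  have h1u : 0 < 1 - u := by linarith
  have hθ0 : 0 < θ := by positivity
  have hθ1 : θ ≤ 1 := by
    rw [hθdef, div_le_one (by positivity)]
    have : (1 - u) ^ 2 ≤ 1 := by nlinarith
    nlinarith
  have hQ : ∀ x : Fin n → ℝ, θ * rmgQ G x ≤ rmgQ G' x := by
    intro x
    rw [hGB, hG', rmgI_Q_factor, rmgI_Q_factor]
    have h1 : B' *ᵥ x = c⁻¹ • (Bu *ᵥ (B *ᵥ x)) := by
      rw [hB', smul_mulVec, mulVec_mulVec]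
    rw [h1, smul_dotProduct, dotProduct_smul, smul_eq_mul, smul_eq_mul]
    have h2 := rmgI_seg_lower hP hu0.le hu1.le (B *ᵥ x)
    rw [← hBu] at h2
    rw [hθdef, div_mul_eq_mul_div, div_le_iff₀ (by positivity)]
    calc (1 - u) ^ 2 * (B *ᵥ x ⬝ᵥ B *ᵥ x) ≤ _ := h2
      _ = c⁻¹ * (c⁻¹ * (Bu *ᵥ B *ᵥ x ⬝ᵥ Bu *ᵥ B *ᵥ x)) * c ^ 2 := by
        field_simp
  have hst' : RmgStable G' :=
    hnear n G G' δ θ ⟨hPD, hdet, hD1⟩ hmar hG'PD hG'det hθ0 hθ1 hθ hQ
  obtain ⟨p, hp, -⟩ := hsemi (Fin n) G hPD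
  obtain ⟨p', hp', -⟩ := hsemi (Fin n) G' hG'PD
  have hpf : (⇑p : (Fin n → ℝ) → ℝ) = rmgGauge G := funext hp
  have hpf' : (⇑p' : (Fin n → ℝ) → ℝ) = rmgGauge G' := funext hp'
  -- matrix identities
  have hid1 : B'⁻¹ * Bu = c • B⁻¹ := by
    have h1 : B' * (c • B⁻¹) = Bu := by
      rw [hB', Matrix.smul_mul, Matrix.mul_smul, smul_smul, inv_mul_cancel₀ hc0.ne', one_smul, Matrix.mul_assoc,
        mul_nonsing_inv _ hBunit, Matrix.mul_one]
    rw [← h1, ← Matrix.mul_assoc, nonsing_inv_mul _ hB'unit, Matrix.one_mul]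
  have hGunit : IsUnit G.det := by rw [hdet]; exact isUnit_one
  have hid2 : (G⁻¹ * G') * (B'⁻¹ * P) = c⁻¹ • (B⁻¹ * (Bu * P)) := by
    have h1 : G' * B'⁻¹ = B'ᵀ := by
      rw [hG', Matrix.mul_assoc, mul_nonsing_inv _ hB'unit, Matrix.mul_one]
    have h2 : B'ᵀ = G * (c⁻¹ • (B⁻¹ * Bu)) := by
      rw [hB', transpose_smul, transpose_mul, hBuT, hGB, Matrix.mul_smul, Matrix.mul_assoc Bᵀ B,
        ← Matrix.mul_assoc B, mul_nonsing_inv _ hBunit, Matrix.one_mul]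
    rw [Matrix.mul_assoc, ← Matrix.mul_assoc G', h1, h2, ← Matrix.mul_assoc, ← Matrix.mul_assoc,
      nonsing_inv_mul _ hGunit, Matrix.one_mul, Matrix.smul_mul, Matrix.mul_assoc]
  -- finiteness
  have hTfin : rmgTheta q G ≠ ⊤ := by
    have := hfin (Fin n) G hPD p q
    rw [hpf] at this
    exact this.ne
  -- (a)
  have ha : rmgPsi q (rmgGauge G') B'⁻¹ ≤ rmgTheta q G := by
    rw [← hfac (Fin n) B' hB'det0]
    exact hmax G' hst'
  -- (b)
  have hb : rmgTheta q G ≤ rmgPsi q (rmgGauge G') (c • B⁻¹) := by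
    have h1 : rmgTheta q G ≤ rmgMom q G (rmgGauge G') := by
      refine hcmp (Fin n) G hPD (rmgGauge G') ?_ ?_ ?_ (hvor (Fin n) G' hG'PD) q
      · rw [← hpf']; exact (rmgI_continuous p').measurable
      · intro x; rw [← hp']; exact apply_nonneg p' x
      · intro s x hs
        rw [← hp', ← hp', map_smul_eq_mul, Real.norm_eq_abs, abs_of_pos hs]
    have h2 : rmgMom q G (rmgGauge G') = rmgPsi q (rmgGauge G') B⁻¹ := by
      rw [hGB]; exact hfac (Fin n) B hBdet _ q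
    have h3 := rmgI_psi_le q (rmgGauge G') (rmgGauge G') B⁻¹ (c • B⁻¹) 1 zero_le_one
      (fun z => by rw [← hp']; exact apply_nonneg p' _)
      (fun z => by
        rw [smul_mulVec, ← hp', ← hp', map_smul_eq_mul, Real.norm_eq_abs, abs_of_pos hc0, one_mul]
        exact le_mul_of_one_le_left (apply_nonneg p' _) hc1)
    rw [one_pow, ENNReal.ofReal_one, one_mul] at h3
    exact h1.trans (h2.le.trans h3)
  -- (c)
  have hcv := hconv (Fin n) p' q B'⁻¹ (B'⁻¹ * P) u hu0.le hu1.le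
  rw [hpf'] at hcv
  have hid3 : (1 - u) • B'⁻¹ + u • (B'⁻¹ * P) = c • B⁻¹ := by
    rw [← hid1, hBu, Matrix.mul_add, Matrix.mul_smul, Matrix.mul_smul, Matrix.mul_one]
  rw [hid3] at hcv
  -- (d)
  have hd : rmgTheta q G ≤ rmgPsi q (rmgGauge G') (B'⁻¹ * P) := by
    refine rmgI_cancel hu0 hu1.le hTfin (hb.trans (hcv.trans ?_))
    gcongr
  -- (e)
  have he : rmgPsi q (rmgGauge G') (B'⁻¹ * P)
      ≤ ENNReal.ofReal ((θ⁻¹) ^ q) * rmgPsi q (rmgGauge G) (B⁻¹ * (Bu * P)) := by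
    refine rmgI_psi_le q _ _ _ _ θ⁻¹ (inv_nonneg.2 hθ0.le)
      (fun z => by rw [← hp']; exact apply_nonneg p' _) (fun z => ?_)
    have h1 := hpert (Fin n) G G' hPD hG'PD θ hθ0 (fun z => hQ _) ((B'⁻¹ * P) *ᵥ z)
    rw [mulVec_mulVec, hid2, smul_mulVec, ← hp (c⁻¹ • _), map_smul_eq_mul, Real.norm_eq_abs,
      abs_of_pos (inv_pos.2 hc0), hp] at h1
    refine h1.trans (mul_le_mul_of_nonneg_left ?_ (inv_nonneg.2 hθ0.le))
    have h2 : 0 ≤ rmgGauge G ((B⁻¹ * (Bu * P)) *ᵥ z) := by rw [← hp]; exact apply_nonneg p _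
    have h3 : c⁻¹ ≤ 1 := inv_le_one_of_one_le₀ hc1
    nlinarith
  -- (f)
  have hf := hconv (Fin n) p q (B⁻¹ * P) (B⁻¹ * (P * P)) u hu0.le hu1.le
  rw [hpf] at hf
  have hid4 : (1 - u) • (B⁻¹ * P) + u • (B⁻¹ * (P * P)) = B⁻¹ * (Bu * P) := by
    rw [hBu, Matrix.add_mul, Matrix.smul_mul, Matrix.smul_mul, Matrix.one_mul, Matrix.mul_add, Matrix.mul_smul, Matrix.mul_smul]
  rw [hid4] at hf
  exact hd.trans (he.trans (by gcongr))


theorem rmgI_theta_zero {q : ℕ} (hq : 1 ≤ q) (G : Matrix (Fin 0) (Fin 0) ℝ) : rmgTheta q G = 0 := by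
  unfold rmgTheta rmgMom
  have h : ∀ x : Fin 0 → ℝ, rmgGauge G x = 0 := by
    intro x
    unfold rmgGauge
    have : IsEmpty {z : Fin 0 → ℤ // z ≠ 0} := ⟨fun z => z.2 (Subsingleton.elim _ _)⟩
    exact Real.iSup_of_isEmpty _
  simp only [h, zero_pow (by omega : q ≠ 0), ENNReal.ofReal_zero, lintegral_zero]

theorem rmg_interior (hsemi : StRmgGaugeSemi) (hpert : StRmgGaugePert) (hvor : StRmgVorFD)
    (hfin : StRmgMomFinite) (hcmp : StRmgCompare) (hfac : StRmgMomFactor) (hpolar : StRmgPolar)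
    (hseg : StRmgDetSeg) (hconv : StRmgPsiConvex) (hrot : StRmgPsiRot) (hnear : StRmgStableNear) :
    StRmgInterior := by
  intro n q hq G hst hmax δ hδ hmar M hM
  rcases Nat.eq_zero_or_pos n with rfl | hn
  · rw [rmgI_theta_zero hq]; exact bot_le
  have hPD := hst.1
  have hdet := hst.2.1
  obtain ⟨B, hGB⟩ := rmgI_factor hPD
  have hBdet2 : B.det * B.det = 1 := by
    rw [← hdet, hGB, det_mul, det_transpose]
  have hBdet : B.det ≠ 0 := by
    intro h; rw [h] at hBdet2; simp at hBdet2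
  have hBunit : IsUnit B.det := isUnit_iff_ne_zero.2 hBdet
  obtain ⟨P, O, hP, hO, hBM⟩ := hpolar (Fin n) (B * M) (by rw [det_mul, hM, mul_one]; exact hBdet)
  have hPdet : P.det = 1 := by
    have h1 : O.det * O.det = 1 := by
      have := congrArg det hO
      rwa [det_mul, det_transpose, det_one] at this
    have h2 : B.det = P.det * O.det := by
      have := congrArg det hBM
      rwa [det_mul, det_mul, hM, mul_one] at this
    have h3 : P.det * P.det = 1 := by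
      have : (P.det * O.det) * (P.det * O.det) = 1 := by rw [← h2]; exact hBdet2
      calc P.det * P.det = (P.det * P.det) * (O.det * O.det) := by rw [h1, mul_one]
        _ = (P.det * O.det) * (P.det * O.det) := by ring
        _ = 1 := this
    have h4 := hP.det_pos
    nlinarith
  have hMeq : M = (B⁻¹ * P) * O := by
    rw [Matrix.mul_assoc, ← hBM, ← Matrix.mul_assoc, nonsing_inv_mul _ hBunit, Matrix.one_mul]
  rw [hMeq, hrot (Fin n) _ q _ O hO]
  obtain ⟨p, hp, -⟩ := hsemi (Fin n) G hPD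
  have hpf : (⇑p : (Fin n → ℝ) → ℝ) = rmgGauge G := funext hp
  have hafin : rmgPsi q (rmgGauge G) (B⁻¹ * P) ≠ ⊤ := by
    rw [← hpf]; exact (rmgI_psi_finite hfin q p _).ne
  have hbfin : rmgPsi q (rmgGauge G) (B⁻¹ * (P * P)) ≠ ⊤ := by
    rw [← hpf]; exact (rmgI_psi_finite hfin q p _).ne
  have hTfin : rmgTheta q G ≠ ⊤ := by
    have := hfin (Fin n) G hPD p q
    rw [hpf] at this
    exact this.ne
  set a := rmgPsi q (rmgGauge G) (B⁻¹ * P) with ha
  set b := rmgPsi q (rmgGauge G) (B⁻¹ * (P * P)) with hb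
  set d : ℝ → ℝ := fun u => ((1 - u) • (1 : Matrix (Fin n) (Fin n) ℝ) + u • P).det with hd
  set c : ℝ → ℝ := fun u => d u ^ ((n : ℝ)⁻¹) with hc
  set θ : ℝ → ℝ := fun u => (1 - u) ^ 2 / c u ^ 2 with hθ
  have hdc : Continuous d := by
    rw [hd]
    exact Continuous.matrix_det (by fun_prop)
  have hd0 : d 0 = 1 := by simp [hd]
  have hcc : ContinuousAt c 0 := by
    rw [hc]
    exact hdc.continuousAt.rpow_const (Or.inl (by rw [hd0]; exact one_ne_zero))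
  have hc0 : c 0 = 1 := by simp [hc, hd0]
  have hθc : ContinuousAt θ 0 := by
    rw [hθ]
    refine ContinuousAt.div (by fun_prop) (hcc.pow 2) ?_
    rw [hc0]; norm_num
  have hθ0 : θ 0 = 1 := by simp [hθ, hc0]
  have hθt : Filter.Tendsto θ (nhdsWithin 0 (Set.Ioi 0)) (nhds 1) := by
    have := hθc.tendsto
    rw [hθ0] at this
    exact this.mono_left nhdsWithin_le_nhds
  have hev1 : ∀ᶠ u in nhdsWithin (0 : ℝ) (Set.Ioi 0), 1 ≤ θ u ^ n * (1 + δ) := by
    have h1 : Filter.Tendsto (fun u => θ u ^ n * (1 + δ)) (nhdsWithin 0 (Set.Ioi 0))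
        (nhds (1 ^ n * (1 + δ))) := (hθt.pow n).mul_const _
    rw [one_pow, one_mul] at h1
    exact (h1.eventually (lt_mem_nhds (by linarith : (1 : ℝ) < 1 + δ))).mono fun u hu => hu.le
  have hev2 : ∀ᶠ u in nhdsWithin (0 : ℝ) (Set.Ioi 0), 0 < u ∧ u < 1 := by
    have h1 : ∀ᶠ u in nhdsWithin (0 : ℝ) (Set.Ioi 0), u ∈ Set.Ioi (0 : ℝ) := self_mem_nhdsWithin
    have h2 : ∀ᶠ u in nhdsWithin (0 : ℝ) (Set.Ioi 0), u < 1 :=
      nhdsWithin_le_nhds (gt_mem_nhds (by norm_num : (0 : ℝ) < 1))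
    exact h1.and h2
  have hev : ∀ᶠ u in nhdsWithin (0 : ℝ) (Set.Ioi 0),
      (rmgTheta q G).toReal ≤ ((θ u)⁻¹) ^ q * ((1 - u) * a.toReal + u * b.toReal) := by
    filter_upwards [hev1, hev2] with u h1 h2
    obtain ⟨hu0, hu1⟩ := h2
    have hd1 : 1 ≤ d u := hseg (Fin n) P hP hPdet u hu0.le hu1.le
    have hcn : c u ^ n = d u := Real.rpow_inv_natCast_pow (by linarith) hn.ne'
    have hc1 : 1 ≤ c u := Real.one_le_rpow hd1 (by positivity)
    have hstep := rmgI_step hsemi hpert hvor hfin hcmp hfac hconv hnear G B P hst hmax δ hmar hGB hP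
      u hu0 hu1 (c u) hcn hc1 h1
    have hθpos : 0 < θ u := by
      have : 0 < 1 - u := by linarith
      have : 0 < c u := by linarith
      simp only [hθ]; positivity
    have hne : ENNReal.ofReal (((θ u)⁻¹) ^ q) * (ENNReal.ofReal (1 - u) * a + ENNReal.ofReal u * b) ≠ ⊤ :=
      ENNReal.mul_ne_top ENNReal.ofReal_ne_top (ENNReal.add_ne_top.2
        ⟨ENNReal.mul_ne_top ENNReal.ofReal_ne_top hafin, ENNReal.mul_ne_top ENNReal.ofReal_ne_top hbfin⟩)
    have h3 := ENNReal.toReal_mono hne hstep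
    rw [ENNReal.toReal_mul, ENNReal.toReal_add (ENNReal.mul_ne_top ENNReal.ofReal_ne_top hafin)
      (ENNReal.mul_ne_top ENNReal.ofReal_ne_top hbfin), ENNReal.toReal_mul, ENNReal.toReal_mul,
      ENNReal.toReal_ofReal (by positivity), ENNReal.toReal_ofReal (by linarith),
      ENNReal.toReal_ofReal hu0.le] at h3
    exact h3
  have hlim : Filter.Tendsto (fun u : ℝ => ((θ u)⁻¹) ^ q * ((1 - u) * a.toReal + u * b.toReal))
      (nhdsWithin 0 (Set.Ioi 0)) (nhds a.toReal) := by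
    have h1 : Filter.Tendsto (fun u => ((θ u)⁻¹) ^ q) (nhdsWithin 0 (Set.Ioi 0)) (nhds ((1 : ℝ)⁻¹ ^ q)) :=
      (hθt.inv₀ one_ne_zero).pow q
    have h2 : Filter.Tendsto (fun u : ℝ => (1 - u) * a.toReal + u * b.toReal)
        (nhdsWithin 0 (Set.Ioi 0)) (nhds ((1 - 0) * a.toReal + 0 * b.toReal)) := by
      have : Continuous (fun u : ℝ => (1 - u) * a.toReal + u * b.toReal) := by fun_prop
      exact (this.tendsto 0).mono_left nhdsWithin_le_nhds
    have h3 := h1.mul h2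
    simpa using h3
  have hfinal : (rmgTheta q G).toReal ≤ a.toReal := ge_of_tendsto hlim hev
  exact (ENNReal.toReal_le_toReal hTfin hafin).1 hfinal

end Claimed.Agent.R293
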