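/-
Row 293 (S0541), Reverse Minkowski, package GRAM, leaf RMG-ME-a (owner helper38):
the Gaussian measures `γ_G`: linear change of variables, relabelling, total mass, factorisation of
moments, rotation invariance of `ψ`.
-/
import Claimed.Agent.R293.RM.GramStmts

set_option autoImplicit false

namespace Claimed.Agent.R293

open MeasureTheory Matrix
open scoped ENNReal

/-- push-forward of a measure with density under a measurable equivalence which scales the base
measure. -/
theorem rmgME_map_withDensity {α β : Type*} [MeasurableSpace α] [MeasurableSpace β]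
    (μ : Measure α) (ν : Measure β) (e : α ≃ᵐ β) (c c' : ℝ≥0∞) (hmap : μ.map e = c • ν)
    (f : α → ℝ≥0∞) (g : β → ℝ≥0∞) (hfg : ∀ x, f x = c' * g (e x)) (hc' : c' ≠ ⊤)
    (hcc : c * c' = 1) : (μ.withDensity f).map e = ν.withDensity g := by
  ext s hs
  rw [e.map_apply, withDensity_apply _ (e.measurable hs), withDensity_apply _ hs,
    ← lintegral_indicator (e.measurable hs), ← lintegral_indicator hs]
  have h1 : ∀ x, (e ⁻¹' s).indicator f x = (fun y => c' * s.indicator g y) (e x) := by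
    intro x
    by_cases hx : e x ∈ s
    · have hx' : x ∈ e ⁻¹' s := hx
      simp [Set.indicator_of_mem hx, Set.indicator_of_mem hx', hfg]
    · have hx' : x ∉ e ⁻¹' s := hx
      simp [Set.indicator_of_notMem hx, Set.indicator_of_notMem hx']
  simp_rw [h1]
  rw [← lintegral_map_equiv (fun y => c' * s.indicator g y) e, hmap, lintegral_smul_measure,
    lintegral_const_mul' _ _ hc', smul_eq_mul, ← mul_assoc, hcc, one_mul]

section Basic
variable {ι : Type*} [Fintype ι] [DecidableEq ι]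

/-- `x ↦ A x` as a measurable equivalence. -/
noncomputable def rmgMulEquiv (A : Matrix ι ι ℝ) (hA : A.det ≠ 0) : (ι → ℝ) ≃ᵐ (ι → ℝ) where
  toFun x := A *ᵥ x
  invFun x := A⁻¹ *ᵥ x
  left_inv x := by
    simp [mulVec_mulVec, nonsing_inv_mul _ (isUnit_iff_ne_zero.mpr hA)]
  right_inv x := by
    simp [mulVec_mulVec, mul_nonsing_inv _ (isUnit_iff_ne_zero.mpr hA)]
  measurable_toFun := (Continuous.matrix_mulVec continuous_const continuous_id).measurable
  measurable_invFun := (Continuous.matrix_mulVec continuous_const continuous_id).measurable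

@[simp] theorem rmgMulEquiv_apply (A : Matrix ι ι ℝ) (hA : A.det ≠ 0) (x : ι → ℝ) :
    rmgMulEquiv A hA x = A *ᵥ x := rfl

theorem rmgMulEquiv_coe (A : Matrix ι ι ℝ) (hA : A.det ≠ 0) :
    (rmgMulEquiv A hA : (ι → ℝ) → ι → ℝ) = fun x => A *ᵥ x := rfl

omit [DecidableEq ι] in
theorem rmgQ_congr (G A : Matrix ι ι ℝ) (x : ι → ℝ) :
    rmgQ (Aᵀ * G * A) x = rmgQ G (A *ᵥ x) := by
  unfold rmgQ rmgB
  rw [← mulVec_mulVec, ← mulVec_mulVec, dotProduct_mulVec, vecMul_transpose]

theorem rmgME_sqrt_det (G A : Matrix ι ι ℝ) :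
    Real.sqrt (Aᵀ * G * A).det = |A.det| * Real.sqrt G.det := by
  rw [det_mul, det_mul, det_transpose]
  have : A.det * G.det * A.det = A.det ^ 2 * G.det := by ring
  rw [this, Real.sqrt_mul (sq_nonneg _), Real.sqrt_sq_eq_abs]

/-- (ME2), without positivity. -/
theorem rmg_measMap' (G A : Matrix ι ι ℝ) (hA : A.det ≠ 0) :
    (rmgMeas (Aᵀ * G * A)).map (fun x => A *ᵥ x) = rmgMeas G := by
  rw [← rmgMulEquiv_coe A hA]
  unfold rmgMeas
  apply rmgME_map_withDensity volume volume (rmgMulEquiv A hA)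
    (ENNReal.ofReal |A.det⁻¹|) (ENNReal.ofReal |A.det|)
  · exact Real.map_matrix_volume_pi_eq_smul_volume_pi hA
  · intro x
    rw [rmgQ_congr, rmgME_sqrt_det, rmgMulEquiv_apply, mul_assoc,
      ENNReal.ofReal_mul (abs_nonneg _)]
  · exact ENNReal.ofReal_ne_top
  · rw [← ENNReal.ofReal_mul (abs_nonneg _), ← abs_mul, inv_mul_cancel₀ hA]
    simp

/-- change of variables in an integral, for arbitrary integrands. -/
theorem rmgME_lintegral_mulVec (G A : Matrix ι ι ℝ) (hA : A.det ≠ 0) (F : (ι → ℝ) → ℝ≥0∞) :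
    ∫⁻ x, F (A *ᵥ x) ∂(rmgMeas (Aᵀ * G * A)) = ∫⁻ y, F y ∂(rmgMeas G) := by
  rw [← rmg_measMap' G A hA, ← rmgMulEquiv_coe A hA, lintegral_map_equiv]
  rfl

end Basic

/-- (ME2). -/
theorem rmg_measMap : StRmgMeasMap := by
  intro ι _ _ G A _ hA
  exact rmg_measMap' G A hA

theorem rmgQ_submatrix {ι κ : Type*} [Fintype ι] [Fintype κ] (e : κ ≃ ι) (G : Matrix ι ι ℝ)
    (x : κ → ℝ) : rmgQ (G.submatrix e e) x = rmgQ G (x ∘ e.symm) := by
  unfold rmgQ rmgB dotProduct mulVec dotProduct
  rw [← Equiv.sum_comp e (fun i : ι => (x ∘ e.symm) i * ∑ j, G i j * (x ∘ e.symm) j)]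
  refine Finset.sum_congr rfl fun k _ => ?_
  rw [← Equiv.sum_comp e (fun j : ι => G (e k) j * (x ∘ e.symm) j)]
  simp

/-- (ME3). -/
theorem rmg_measReindex : StRmgMeasReindex := by
  intro ι κ _ _ _ _ e G
  have hcoe : (fun x : κ → ℝ => x ∘ e.symm)
      = (MeasurableEquiv.piCongrLeft (fun _ : ι => ℝ) e : (κ → ℝ) → ι → ℝ) := by
    funext x i
    obtain ⟨k, rfl⟩ := e.surjective i
    rw [MeasurableEquiv.piCongrLeft_apply_apply]
    simp
  rw [hcoe]
  unfold rmgMeas
  apply rmgME_map_withDensity volume volume (MeasurableEquiv.piCongrLeft (fun _ : ι => ℝ) e) 1 1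
  · rw [one_smul]
    exact (volume_measurePreserving_piCongrLeft (fun _ : ι => ℝ) e).map_eq
  · intro x
    rw [one_mul, ← hcoe, det_submatrix_equiv_self, rmgQ_submatrix]
  · exact ENNReal.one_ne_top
  · simp

section One
variable {ι : Type*} [Fintype ι] [DecidableEq ι]

/-- total mass of the standard form. -/
theorem rmgME_mass_one : rmgMeas (1 : Matrix ι ι ℝ) Set.univ = 1 := by
  unfold rmgMeas
  rw [withDensity_apply _ MeasurableSet.univ, Measure.restrict_univ]
  have h1 : ∀ x : ι → ℝ, Real.sqrt (1 : Matrix ι ι ℝ).det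
      * Real.exp (-(Real.pi * rmgQ (1 : Matrix ι ι ℝ) x))
      = ∏ i, Real.exp (-Real.pi * (x i) ^ 2) := by
    intro x
    rw [det_one, Real.sqrt_one, one_mul, ← Real.exp_sum]
    congr 1
    unfold rmgQ rmgB
    rw [one_mulVec, dotProduct, ← Finset.mul_sum, neg_mul]
    congr 2
    exact Finset.sum_congr rfl fun i _ => by ring
  simp_rw [h1]
  have hint : Integrable (fun x : ι → ℝ => ∏ i, Real.exp (-Real.pi * (x i) ^ 2)) volume :=
    Integrable.fintype_prod (μ := fun _ => (volume : Measure ℝ))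
      (f := fun _ t => Real.exp (-Real.pi * t ^ 2)) fun _ => integrable_exp_neg_mul_sq Real.pi_pos
  rw [← ofReal_integral_eq_lintegral_ofReal hint
    (Filter.Eventually.of_forall fun x => Finset.prod_nonneg fun i _ => (Real.exp_pos _).le)]
  rw [integral_fintype_prod_volume_eq_pow (fun t : ℝ => Real.exp (-Real.pi * t ^ 2)),
    integral_gaussian, div_self Real.pi_ne_zero]
  simp

end One

open scoped MatrixOrder in
/-- a positive definite matrix is `BᵀB` with `B` invertible. -/
theorem rmgME_exists_factor {ι : Type*} [Fintype ι] [DecidableEq ι] {G : Matrix ι ι ℝ}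
    (hG : G.PosDef) : ∃ B : Matrix ι ι ℝ, B.det ≠ 0 ∧ G = Bᵀ * B := by
  obtain ⟨B, hB⟩ := CStarAlgebra.nonneg_iff_eq_star_mul_self.mp hG.posSemidef.nonneg
  rw [star_eq_conjTranspose, conjTranspose_eq_transpose_of_trivial] at hB
  refine ⟨B, ?_, hB⟩
  intro h0
  have := hG.det_pos
  rw [hB, det_mul, h0, mul_zero] at this
  exact lt_irrefl _ this

/-- (ME1). -/
theorem rmg_measProb : StRmgMeasProb := by
  intro ι _ _ G hG
  obtain ⟨B, hdet, hB⟩ := rmgME_exists_factor hG
  have hmap := rmg_measMap' (1 : Matrix ι ι ℝ) B hdet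
  rw [mul_one, ← hB] at hmap
  constructor
  rw [← rmgME_mass_one (ι := ι), ← hmap, ← rmgMulEquiv_coe B hdet, (rmgMulEquiv B hdet).map_apply]
  simp

/-- (TH4). -/
theorem rmg_momFactor : StRmgMomFactor := by
  intro ι _ _ B hB h q
  unfold rmgPsi rmgMom
  rw [← rmgME_lintegral_mulVec (1 : Matrix ι ι ℝ) B hB, mul_one]
  refine lintegral_congr fun x => ?_
  simp only [mulVec_mulVec]
  rw [nonsing_inv_mul _ (isUnit_iff_ne_zero.mpr hB), one_mulVec]

/-- (IN4). -/
theorem rmg_psiRot : StRmgPsiRot := by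
  intro ι _ _ h q A O hO
  have hdet : O.det ≠ 0 := by
    intro h0
    have := congrArg Matrix.det hO
    rw [det_mul, h0, mul_zero, det_one] at this
    exact zero_ne_one this
  unfold rmgPsi rmgMom
  rw [← rmgME_lintegral_mulVec (1 : Matrix ι ι ℝ) O hdet
    (fun z => ENNReal.ofReal (h (A *ᵥ z) ^ q)), mul_one, hO]
  refine lintegral_congr fun x => ?_
  rw [mulVec_mulVec]

end Claimed.Agent.R293
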