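/-
Row 293 (S0541), Reverse Minkowski, package GRAM, leaf RMG-ME-c (owner helper271):
finite moments of seminorms under `γ_G` (ME6) and convexity of `ψ` (IN3).  Prefix `rmgMC`.
-/
import Claimed.Agent.R293.RM.GramMeasA

set_option autoImplicit false

namespace Claimed.Agent.R293

open MeasureTheory Matrix
open scoped ENNReal

section Basic
variable {ι : Type*} [Fintype ι]

/-- a seminorm on `ι → ℝ` is continuous. -/
theorem rmgMC_continuous (p : Seminorm ℝ (ι → ℝ)) : Continuous p :=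
  p.convexOn.locallyLipschitz.continuous

theorem rmgMC_measurable (p : Seminorm ℝ (ι → ℝ)) : Measurable p :=
  (rmgMC_continuous p).measurable

theorem rmgMC_continuous_rmgQ (G : Matrix ι ι ℝ) : Continuous (rmgQ G) := by
  unfold rmgQ rmgB
  exact Continuous.dotProduct continuous_id (Continuous.matrix_mulVec continuous_const continuous_id)

theorem rmgMC_rmgQ_one [DecidableEq ι] (x : ι → ℝ) : rmgQ (1 : Matrix ι ι ℝ) x = x ⬝ᵥ x := by
  unfold rmgQ rmgB
  rw [one_mulVec]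

theorem rmgMC_rmgQ_smul (c : ℝ) (G : Matrix ι ι ℝ) (x : ι → ℝ) :
    rmgQ (c • G) x = c * rmgQ G x := by
  unfold rmgQ rmgB
  rw [smul_mulVec, dotProduct_smul, smul_eq_mul]

/-- a seminorm is dominated by the Euclidean norm. -/
theorem rmgMC_sq_le [DecidableEq ι] (p : Seminorm ℝ (ι → ℝ)) (x : ι → ℝ) :
    p x ^ 2 ≤ (∑ i, p (Pi.single i 1) ^ 2) * (x ⬝ᵥ x) := by
  have h1 : p x ≤ ∑ i, p (Pi.single i 1) * |x i| := by
    have hx : x = ∑ i, x i • (Pi.single i (1 : ℝ) : ι → ℝ) := by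
      funext j
      simp [Finset.sum_apply, Pi.single_apply]
    calc p x = p (∑ i, x i • (Pi.single i (1 : ℝ) : ι → ℝ)) := by rw [← hx]
      _ ≤ ∑ i, p (x i • (Pi.single i (1 : ℝ) : ι → ℝ)) :=
          Finset.le_sum_of_subadditive p (map_zero p).le (map_add_le_add p) _ _
      _ = ∑ i, p (Pi.single i 1) * |x i| := by
          refine Finset.sum_congr rfl fun i _ => ?_
          rw [map_smul_eq_mul, Real.norm_eq_abs, mul_comm]
  have h2 : (∑ i, p (Pi.single i 1) * |x i|) ^ 2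
      ≤ (∑ i, p (Pi.single i 1) ^ 2) * ∑ i, |x i| ^ 2 :=
    Finset.sum_mul_sq_le_sq_mul_sq _ _ _
  have h3 : ∑ i, |x i| ^ 2 = x ⬝ᵥ x := by
    unfold dotProduct
    exact Finset.sum_congr rfl fun i _ => by rw [sq_abs]; ring
  rw [← h3]
  exact (pow_le_pow_left₀ (apply_nonneg p x) h1 2).trans h2

end Basic

section Gauss
variable {ι : Type} [Fintype ι] [DecidableEq ι]

/-- the Gaussian integral of a positive definite form is finite. -/
theorem rmgMC_lintegral_exp_lt_top {G : Matrix ι ι ℝ} (hG : G.PosDef) :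
    ∫⁻ x : ι → ℝ, ENNReal.ofReal (Real.exp (-(Real.pi * rmgQ G x))) < ⊤ := by
  have hP := rmg_measProb ι G hG
  have h1 : rmgMeas G Set.univ = 1 := hP.measure_univ
  unfold rmgMeas at h1
  rw [withDensity_apply _ MeasurableSet.univ, Measure.restrict_univ] at h1
  have hs : 0 < Real.sqrt G.det := Real.sqrt_pos.mpr hG.det_pos
  simp_rw [ENNReal.ofReal_mul hs.le] at h1
  rw [lintegral_const_mul' _ _ ENNReal.ofReal_ne_top] at h1
  by_contra hcon
  rw [not_lt, top_le_iff] at hcon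
  rw [hcon, ENNReal.mul_top (by simpa using hs)] at h1
  exact ENNReal.top_ne_one h1

/-- a seminorm is dominated by the square root of a positive definite form. -/
theorem rmgMC_exists_sq_le {G : Matrix ι ι ℝ} (hG : G.PosDef) (p : Seminorm ℝ (ι → ℝ)) :
    ∃ K : ℝ, 0 ≤ K ∧ ∀ x, p x ^ 2 ≤ K * rmgQ G x := by
  obtain ⟨B, hdet, hB⟩ := rmgME_exists_factor hG
  set p' : Seminorm ℝ (ι → ℝ) := p.comp (Matrix.mulVecLin B⁻¹) with hp'
  refine ⟨∑ i, p' (Pi.single i 1) ^ 2, Finset.sum_nonneg fun i _ => sq_nonneg _, fun x => ?_⟩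
  have h1 := rmgMC_sq_le p' (B *ᵥ x)
  have h2 : p' (B *ᵥ x) = p x := by
    rw [hp', Seminorm.comp_apply, Matrix.mulVecLin_apply, mulVec_mulVec,
      nonsing_inv_mul _ (isUnit_iff_ne_zero.mpr hdet), one_mulVec]
  have h3 : rmgQ G x = (B *ᵥ x) ⬝ᵥ (B *ᵥ x) := by
    rw [← rmgMC_rmgQ_one, ← rmgQ_congr, mul_one, ← hB]
  rw [h2] at h1
  rw [h3]
  exact h1

theorem rmgMC_rmgQ_nonneg {G : Matrix ι ι ℝ} (hG : G.PosDef) (x : ι → ℝ) : 0 ≤ rmgQ G x := by
  obtain ⟨B, -, hB⟩ := rmgME_exists_factor hG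
  have h3 : rmgQ G x = (B *ᵥ x) ⬝ᵥ (B *ᵥ x) := by
    rw [← rmgMC_rmgQ_one, ← rmgQ_congr, mul_one, ← hB]
  rw [h3]
  exact Finset.sum_nonneg fun i _ => mul_self_nonneg _

/-- pointwise bound of a power of a seminorm by a Gaussian-integrable function. -/
theorem rmgMC_pow_le_exp {G : Matrix ι ι ℝ} (hG : G.PosDef) (p : Seminorm ℝ (ι → ℝ)) (q : ℕ) :
    ∃ M : ℝ, 0 ≤ M ∧ ∀ x, p x ^ q ≤ M * Real.exp (Real.pi / 2 * rmgQ G x) := by
  obtain ⟨K, hK0, hK⟩ := rmgMC_exists_sq_le hG p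
  have hpi := Real.pi_pos
  set c : ℝ := Real.pi / (2 * (K + 1)) with hc
  have hc0 : 0 < c := by positivity
  have hcK : c * K ≤ Real.pi / 2 := by
    rw [hc, div_mul_eq_mul_div, div_le_div_iff₀ (by positivity) (by norm_num)]
    nlinarith
  refine ⟨(q.factorial : ℝ) / c ^ q * Real.exp c, by positivity, fun x => ?_⟩
  have hQ := rmgMC_rmgQ_nonneg hG x
  have hu : 0 ≤ p x := apply_nonneg p x
  have h1 : p x ≤ 1 + K * rmgQ G x := by nlinarith [hK x, sq_nonneg (p x - 1)]
  have h2 : c * p x ≤ c + Real.pi / 2 * rmgQ G x := by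
    calc c * p x ≤ c * (1 + K * rmgQ G x) := by gcongr
      _ = c + c * K * rmgQ G x := by ring
      _ ≤ c + Real.pi / 2 * rmgQ G x := by gcongr
  have h3 : (c * p x) ^ q / (q.factorial : ℝ) ≤ Real.exp (c * p x) :=
    Real.pow_div_factorial_le_exp _ (by positivity) q
  have h4 : Real.exp (c * p x) ≤ Real.exp c * Real.exp (Real.pi / 2 * rmgQ G x) := by
    rw [← Real.exp_add]
    exact Real.exp_le_exp.mpr h2
  have hf : (0 : ℝ) < q.factorial := by positivity
  have h5 : (c * p x) ^ q ≤ (q.factorial : ℝ) * (Real.exp c * Real.exp (Real.pi / 2 * rmgQ G x)) := by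
    rw [div_le_iff₀ hf] at h3
    calc (c * p x) ^ q ≤ Real.exp (c * p x) * q.factorial := h3
      _ ≤ (Real.exp c * Real.exp (Real.pi / 2 * rmgQ G x)) * q.factorial := by gcongr
      _ = _ := by ring
  rw [mul_pow] at h5
  have hcq : 0 < c ^ q := by positivity
  calc p x ^ q = c ^ q * p x ^ q / c ^ q := by field_simp
    _ ≤ (q.factorial : ℝ) * (Real.exp c * Real.exp (Real.pi / 2 * rmgQ G x)) / c ^ q := by gcongr
    _ = _ := by ring

end Gauss

/-- (ME6). -/
theorem rmg_momFinite : StRmgMomFinite := by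
  intro ι _ _ G hG p q
  obtain ⟨M, hM0, hM⟩ := rmgMC_pow_le_exp hG p q
  have hG2 : ((1 / 2 : ℝ) • G).PosDef := hG.smul (by norm_num)
  have hfin := rmgMC_lintegral_exp_lt_top hG2
  unfold rmgMom
  have hmeasQ : Measurable (rmgQ G) := (rmgMC_continuous_rmgQ G).measurable
  calc ∫⁻ x, ENNReal.ofReal (p x ^ q) ∂(rmgMeas G)
      ≤ ∫⁻ x, ENNReal.ofReal (M * Real.exp (Real.pi / 2 * rmgQ G x)) ∂(rmgMeas G) :=
        lintegral_mono fun x => ENNReal.ofReal_le_ofReal (hM x)
    _ = ∫⁻ x, ENNReal.ofReal (Real.sqrt G.det * M)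
          * ENNReal.ofReal (Real.exp (-(Real.pi * rmgQ ((1 / 2 : ℝ) • G) x))) := by
        unfold rmgMeas
        rw [lintegral_withDensity_eq_lintegral_mul _ (by fun_prop) (by fun_prop)]
        refine lintegral_congr fun x => ?_
        rw [Pi.mul_apply, ← ENNReal.ofReal_mul (by positivity), ← ENNReal.ofReal_mul (by positivity),
          rmgMC_rmgQ_smul]
        congr 1
        have : Real.exp (-(Real.pi * rmgQ G x)) * Real.exp (Real.pi / 2 * rmgQ G x)
            = Real.exp (-(Real.pi * (1 / 2 * rmgQ G x))) := by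
          rw [← Real.exp_add]
          congr 1
          ring
        rw [← this]
        ring
    _ < ⊤ := by
        rw [lintegral_const_mul' _ _ ENNReal.ofReal_ne_top]
        exact ENNReal.mul_lt_top ENNReal.ofReal_lt_top hfin

/-- (IN3). -/
theorem rmg_psiConvex : StRmgPsiConvex := by
  intro ι _ _ p q A₀ A₁ s hs0 hs1
  unfold rmgPsi rmgMom
  have hs1' : 0 ≤ 1 - s := by linarith
  have hcont : ∀ A : Matrix ι ι ℝ, Measurable fun z : ι → ℝ => ENNReal.ofReal (p (A *ᵥ z) ^ q) := by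
    intro A
    have : Continuous fun z : ι → ℝ => p (A *ᵥ z) ^ q :=
      ((rmgMC_continuous p).comp (Continuous.matrix_mulVec continuous_const continuous_id)).pow q
    exact ENNReal.measurable_ofReal.comp this.measurable
  rw [← lintegral_const_mul' _ _ ENNReal.ofReal_ne_top, ← lintegral_const_mul' _ _ ENNReal.ofReal_ne_top,
    ← lintegral_add_left ((hcont A₀).const_mul _)]
  refine lintegral_mono fun z => ?_
  rw [← ENNReal.ofReal_mul hs1', ← ENNReal.ofReal_mul hs0,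
    ← ENNReal.ofReal_add (by positivity) (by positivity)]
  refine ENNReal.ofReal_le_ofReal ?_
  have h1 : p (((1 - s) • A₀ + s • A₁) *ᵥ z) ≤ (1 - s) * p (A₀ *ᵥ z) + s * p (A₁ *ᵥ z) := by
    rw [add_mulVec, smul_mulVec, smul_mulVec]
    refine (map_add_le_add p _ _).trans ?_
    rw [map_smul_eq_mul, map_smul_eq_mul, Real.norm_eq_abs, Real.norm_eq_abs, abs_of_nonneg hs1',
      abs_of_nonneg hs0]
  have h2 := (convexOn_pow q).2 (x := p (A₀ *ᵥ z)) (y := p (A₁ *ᵥ z)) (apply_nonneg p _)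
    (apply_nonneg p _) hs1' hs0 (by ring)
  simp only [smul_eq_mul] at h2
  exact (pow_le_pow_left₀ (apply_nonneg p _) h1 q).trans h2

end Claimed.Agent.R293
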