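/-
Row 293 (S0541), Reverse Minkowski, package GRAM, leaf RMG-CO-a (owner helper271):
summability of the theta series (CO1), the mass bound `ρ_1(G) γ_G(K) ≤ 1` for fundamental
domains (CO2) and its scaled form for the Voronoi cell (CO3).  Prefix `rmgMS`.
-/
import Claimed.Agent.R293.RM.GramMeasC
import Claimed.Agent.R293.GPoisSum

set_option autoImplicit false

namespace Claimed.Agent.R293

open MeasureTheory Matrix
open scoped ENNReal

/-- (CO1). -/
theorem rmg_summable : StRmgSummable := by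
  intro ι _ _ G hG t ht
  have h := gp_summable (G := t ^ 2 • G) (hG.smul (by positivity)) 0
  refine h.congr fun z => ?_
  have h1 : gpSh z 0 = rmgC z := by
    funext i
    simp [gpSh, rmgC]
  have h2 : gpQ (t ^ 2 • G) (rmgC z) = t ^ 2 * rmgQ G (rmgC z) := rmgMC_rmgQ_smul _ _ _
  rw [gpW, h1, h2]
  congr 1
  ring

section Alg
variable {ι : Type*} [Fintype ι]

theorem rmgMS_rmgB_comm {G : Matrix ι ι ℝ} (hG : G.PosDef) (x y : ι → ℝ) :
    rmgB G x y = rmgB G y x := by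
  have hs : Gᵀ = G := by
    have := hG.isHermitian
    rwa [IsHermitian, conjTranspose_eq_transpose_of_trivial] at this
  unfold rmgB
  rw [dotProduct_comm x, dotProduct_mulVec y, ← mulVec_transpose, hs]

theorem rmgMS_rmgQ_add {G : Matrix ι ι ℝ} (hG : G.PosDef) (x y : ι → ℝ) :
    rmgQ G (x + y) = rmgQ G x + 2 * rmgB G y x + rmgQ G y := by
  have h := rmgMS_rmgB_comm hG x y
  unfold rmgQ
  unfold rmgB at h ⊢
  rw [mulVec_add, add_dotProduct, dotProduct_add, dotProduct_add, h]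
  ring

theorem rmgMS_rmgB_neg (G : Matrix ι ι ℝ) (x y : ι → ℝ) : rmgB G x (-y) = -rmgB G x y := by
  unfold rmgB
  rw [mulVec_neg, dotProduct_neg]

theorem rmgMS_rmgQ_neg (G : Matrix ι ι ℝ) (x : ι → ℝ) : rmgQ G (-x) = rmgQ G x := by
  unfold rmgQ rmgB
  rw [mulVec_neg, dotProduct_neg, neg_dotProduct, neg_neg]

omit [Fintype ι] in
theorem rmgMS_rmgC_neg (z : ι → ℤ) : rmgC (-z) = -rmgC z := by
  funext i
  simp [rmgC]

omit [Fintype ι] in
theorem rmgMS_rmgC_injective : Function.Injective (rmgC : (ι → ℤ) → ι → ℝ) := by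
  intro a b h
  funext i
  have := congrFun h i
  unfold rmgC at this
  exact_mod_cast this

/-- `ℤ^ι` as a type is the lattice `rmgZ ι`. -/
noncomputable def rmgMSEquiv (ι : Type*) [Fintype ι] : (ι → ℤ) ≃ rmgZ ι :=
  Equiv.ofBijective (fun z => ⟨rmgC z, z, rfl⟩)
    ⟨fun _ _ h => rmgMS_rmgC_injective (Subtype.ext_iff.mp h),
      fun ⟨_, z, hz⟩ => ⟨z, Subtype.ext hz⟩⟩

theorem rmgMSEquiv_coe (z : ι → ℤ) : ((rmgMSEquiv ι z : rmgZ ι) : ι → ℝ) = rmgC z := rfl

theorem rmgMS_countable : Countable (rmgZ ι) := (rmgMSEquiv ι).symm.injective.countable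

/-- the cosh trick, for one pair `± z`. -/
theorem rmgMS_pair {G : Matrix ι ι ℝ} (hG : G.PosDef) (x z : ι → ℝ) :
    2 * (Real.exp (-(Real.pi * rmgQ G x)) * Real.exp (-(Real.pi * rmgQ G z)))
      ≤ Real.exp (-(Real.pi * rmgQ G (z + x))) + Real.exp (-(Real.pi * rmgQ G (-z + x))) := by
  have h1 : Real.exp (-(Real.pi * rmgQ G (z + x)))
      = Real.exp (-(Real.pi * rmgQ G x)) * Real.exp (-(Real.pi * rmgQ G z))
        * Real.exp (-(2 * Real.pi * rmgB G x z)) := by
    rw [rmgMS_rmgQ_add hG, ← Real.exp_add, ← Real.exp_add]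
    congr 1
    ring
  have h2 : Real.exp (-(Real.pi * rmgQ G (-z + x)))
      = Real.exp (-(Real.pi * rmgQ G x)) * Real.exp (-(Real.pi * rmgQ G z))
        * Real.exp (2 * Real.pi * rmgB G x z) := by
    rw [rmgMS_rmgQ_add hG, rmgMS_rmgQ_neg, rmgMS_rmgB_neg, ← Real.exp_add, ← Real.exp_add]
    congr 1
    ring
  have h3 : 2 ≤ Real.exp (-(2 * Real.pi * rmgB G x z)) + Real.exp (2 * Real.pi * rmgB G x z) := by
    have := Real.one_le_cosh (2 * Real.pi * rmgB G x z)
    rw [Real.cosh_eq] at this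
    linarith
  rw [h1, h2, ← mul_add]
  have hpos : 0 ≤ Real.exp (-(Real.pi * rmgQ G x)) * Real.exp (-(Real.pi * rmgQ G z)) := by
    positivity
  nlinarith

end Alg

section Point
variable {ι : Type} [Fintype ι] [DecidableEq ι]

/-- the cosh trick, summed over the lattice. -/
theorem rmgMS_pointwise {G : Matrix ι ι ℝ} (hG : G.PosDef) (D : ℝ) (hD : 0 ≤ D) (x : ι → ℝ) :
    ENNReal.ofReal (rmgRho 1 G) * ENNReal.ofReal (D * Real.exp (-(Real.pi * rmgQ G x)))
      ≤ ∑' z : ι → ℤ, ENNReal.ofReal (D * Real.exp (-(Real.pi * rmgQ G (rmgC z + x)))) := by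
  set F : (ι → ℤ) → ℝ≥0∞ :=
    fun z => ENNReal.ofReal (D * Real.exp (-(Real.pi * rmgQ G (rmgC z + x)))) with hF
  have hsum := rmg_summable ι G hG 1 one_pos
  have hneg : ∑' z, F (-z) = ∑' z, F z := (Equiv.neg (ι → ℤ)).tsum_eq F
  have h2 : 2 * ∑' z, F z = ∑' z, (F z + F (-z)) := by
    rw [ENNReal.tsum_add, hneg, two_mul]
  have hrho : ENNReal.ofReal (rmgRho 1 G)
      = ∑' z : ι → ℤ, ENNReal.ofReal (Real.exp (-(Real.pi * rmgQ G (rmgC z)))) := by
    unfold rmgRho
    rw [ENNReal.ofReal_tsum_of_nonneg (fun _ => (Real.exp_pos _).le) hsum]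
    refine tsum_congr fun z => ?_
    congr 3
    ring
  have h3 : 2 * (ENNReal.ofReal (rmgRho 1 G)
      * ENNReal.ofReal (D * Real.exp (-(Real.pi * rmgQ G x)))) ≤ 2 * ∑' z, F z := by
    rw [h2, hrho, ← ENNReal.tsum_mul_right, ← ENNReal.tsum_mul_left]
    refine ENNReal.tsum_le_tsum fun z => ?_
    have h4 := rmgMS_pair hG x (rmgC z)
    rw [hF]
    simp only
    rw [rmgMS_rmgC_neg, ← ENNReal.ofReal_add (by positivity) (by positivity),
      ← ENNReal.ofReal_mul (by positivity),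
      show (2 : ℝ≥0∞) = ENNReal.ofReal 2 by simp, ← ENNReal.ofReal_mul (by norm_num)]
    refine ENNReal.ofReal_le_ofReal ?_
    nlinarith
  exact (ENNReal.mul_le_mul_iff_right (by norm_num) (by norm_num)).mp h3

end Point

/-- (CO2). -/
theorem rmg_massFD : StRmgMassFD := by
  intro ι _ _ G hG K hK
  have : Countable (rmgZ ι) := rmgMS_countable
  have hP := rmg_measProb ι G hG
  have h1 : rmgMeas G Set.univ = 1 := hP.measure_univ
  set D : ℝ := Real.sqrt G.det with hD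
  have hD0 : 0 ≤ D := Real.sqrt_nonneg _
  set dens : (ι → ℝ) → ℝ≥0∞ :=
    fun x => ENNReal.ofReal (D * Real.exp (-(Real.pi * rmgQ G x))) with hdens
  have hmeasQ : Continuous (rmgQ G) := rmgMC_continuous_rmgQ G
  have hdm : Measurable dens := by
    rw [hdens]
    fun_prop
  have hM : rmgMeas G = volume.withDensity dens := rfl
  rw [hM, withDensity_apply _ MeasurableSet.univ, Measure.restrict_univ,
    IsAddFundamentalDomain.lintegral_eq_tsum'' hK dens, ← (rmgMSEquiv ι).tsum_eq] at h1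
  have h2 : ∀ z : ι → ℤ, ∫⁻ x in K, dens ((rmgMSEquiv ι z) +ᵥ x)
      = ∫⁻ x in K, dens (rmgC z + x) := fun z => rfl
  simp_rw [h2] at h1
  have h3 : ∀ z : ι → ℤ, AEMeasurable (fun x => dens (rmgC z + x)) (volume.restrict K) :=
    fun z => (hdm.comp (measurable_const_add _)).aemeasurable
  rw [← lintegral_tsum h3] at h1
  rw [hM, withDensity_apply', ← lintegral_const_mul' _ _ ENNReal.ofReal_ne_top, ← h1]
  exact lintegral_mono fun x => rmgMS_pointwise hG D hD0 x

/-- `ρ_1(t² G) = ρ_t(G)`. -/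
theorem rmgMS_rho_smul {ι : Type*} [Fintype ι] (G : Matrix ι ι ℝ) (t : ℝ) :
    rmgRho 1 (t ^ 2 • G) = rmgRho t G := by
  unfold rmgRho
  refine tsum_congr fun z => ?_
  rw [rmgMC_rmgQ_smul]
  congr 2
  ring

/-- (CO3). -/
theorem rmg_mass (hVor : StRmgVorFD) (hMap : StRmgMeasMap) (hSc : StRmgGaugeScale)
    (hSemi : StRmgGaugeSemi) : StRmgMass := by
  intro ι _ _ G hG t ht
  have ht2 : (0 : ℝ) < t ^ 2 := by positivity
  have hG' : (t ^ 2 • G).PosDef := hG.smul ht2
  have h1 := rmg_massFD ι (t ^ 2 • G) hG' _ (hVor ι (t ^ 2 • G) hG')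
  rw [rmgMS_rho_smul, hSc ι G (t ^ 2) ht2.ne'] at h1
  obtain ⟨p, hp, -⟩ := hSemi ι G hG
  set A : Matrix ι ι ℝ := t • (1 : Matrix ι ι ℝ) with hA
  have hAdet : A.det ≠ 0 := by
    rw [hA, det_smul, det_one, mul_one]
    exact pow_ne_zero _ ht.ne'
  have hAG : Aᵀ * G * A = t ^ 2 • G := by
    rw [hA, transpose_smul, transpose_one, smul_mul_assoc, one_mul, mul_smul_comm, mul_one,
      smul_smul]
    congr 1
    ring
  have h2 : rmgMeas G {x | rmgGauge G x ≤ t} = rmgMeas (t ^ 2 • G) {x | rmgGauge G x ≤ 1} := by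
    rw [← hMap ι G A hG hAdet, ← rmgMulEquiv_coe A hAdet, MeasurableEquiv.map_apply, hAG]
    congr 1
    ext x
    simp only [Set.mem_preimage, Set.mem_ofPred_eq, rmgMulEquiv_apply]
    rw [hA, smul_mulVec, one_mulVec, ← hp, ← hp, map_smul_eq_mul, Real.norm_eq_abs,
      abs_of_pos ht]
    constructor
    · intro h
      nlinarith
    · intro h
      nlinarith
  rw [h2]
  exact h1

end Claimed.Agent.R293
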