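/-
Row 293 (S0541), package GRAM, leaf MX (part A): continuity of `ψ`, upper semicontinuity of `Θ`.
Owner: helper250.  Prefix `rmgx_`.
-/
import Mathlib
import Claimed.Agent.R293.RM.GramStmts

set_option autoImplicit false

namespace Claimed.Agent.R293

open MeasureTheory Matrix Filter Topology
open scoped ENNReal NNReal

section psi

variable {n : ℕ}

theorem rmgx_bound (N : Seminorm ℝ (Fin n → ℝ)) : ∃ C : ℝ, 0 ≤ C ∧ ∀ x, N x ≤ C * ‖x‖ := by
  refine ⟨∑ i, N (Pi.single i 1), Finset.sum_nonneg fun i _ => apply_nonneg N _, fun x => ?_⟩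
  have hx : x = ∑ i, x i • (Pi.single i (1 : ℝ) : Fin n → ℝ) := by
    funext j
    simp [Finset.sum_apply, Pi.single_apply]
  calc N x = N (∑ i, x i • (Pi.single i (1 : ℝ) : Fin n → ℝ)) := by rw [← hx]
    _ ≤ ∑ i, N (x i • (Pi.single i (1 : ℝ) : Fin n → ℝ)) :=
        Finset.le_sum_of_subadditive N (map_zero N).le (map_add_le_add N) _ _
    _ = ∑ i, ‖x i‖ * N (Pi.single i 1) := by simp only [map_smul_eq_mul]
    _ ≤ ∑ i, ‖x‖ * N (Pi.single i 1) :=
        Finset.sum_le_sum fun i _ =>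
          mul_le_mul_of_nonneg_right (norm_le_pi_norm x i) (apply_nonneg N _)
    _ = (∑ i, N (Pi.single i 1)) * ‖x‖ := by rw [Finset.sum_mul]; simp only [mul_comm]

theorem rmgx_continuous (N : Seminorm ℝ (Fin n → ℝ)) : Continuous N := by
  obtain ⟨C, hC, hN⟩ := rmgx_bound N
  refine (LipschitzWith.of_le_add_mul' C fun x y => ?_).continuous
  have h1 : N x ≤ N y + N (x - y) := by
    have := map_add_le_add N y (x - y)
    simpa using this
  have h2 := hN (x - y)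
  rw [dist_eq_norm]
  linarith

theorem rmgx_mulVec_norm_le (A A₀ : Matrix (Fin n) (Fin n) ℝ)
    (hA : ∀ i j, |A i j| ≤ |A₀ i j| + 1) (z : Fin n → ℝ) :
    ‖A *ᵥ z‖ ≤ (∑ i, ∑ j, (|A₀ i j| + 1)) * ‖z‖ := by
  have hK : ∀ i, 0 ≤ ∑ j, (|A₀ i j| + 1) := fun i => Finset.sum_nonneg fun j _ => by positivity
  rw [pi_norm_le_iff_of_nonneg (mul_nonneg (Finset.sum_nonneg fun i _ => hK i) (norm_nonneg _))]
  intro i
  calc ‖(A *ᵥ z) i‖ = ‖∑ j, A i j * z j‖ := rfl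
    _ ≤ ∑ j, ‖A i j * z j‖ := norm_sum_le _ _
    _ ≤ ∑ j, (|A₀ i j| + 1) * ‖z‖ := by
        refine Finset.sum_le_sum fun j _ => ?_
        rw [norm_mul]
        exact mul_le_mul (hA i j) (norm_le_pi_norm z j) (norm_nonneg _) (by positivity)
    _ = (∑ j, (|A₀ i j| + 1)) * ‖z‖ := by rw [Finset.sum_mul]
    _ ≤ (∑ i, ∑ j, (|A₀ i j| + 1)) * ‖z‖ := by
        refine mul_le_mul_of_nonneg_right ?_ (norm_nonneg _)
        exact Finset.single_le_sum (f := fun i => ∑ j, (|A₀ i j| + 1)) (fun i _ => hK i)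
          (Finset.mem_univ i)

theorem rmgx_eventually_entries (A₀ : Matrix (Fin n) (Fin n) ℝ) :
    ∀ᶠ A in 𝓝 A₀, ∀ i j, |A i j| ≤ |A₀ i j| + 1 := by
  rw [eventually_all]
  intro i
  rw [eventually_all]
  intro j
  have hc : Continuous fun A : Matrix (Fin n) (Fin n) ℝ => |A i j| :=
    (continuous_id.matrix_elem i j).abs
  have := hc.continuousAt.tendsto.eventually (gt_mem_nhds (lt_add_one (|A₀ i j|)))
  exact this.mono fun A hA => hA.le

/-- `ψ_p` is continuous. -/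
theorem rmgx_psi_continuous (hMF : StRmgMomFinite) (q : ℕ) (p : Seminorm ℝ (Fin n → ℝ)) :
    Continuous (rmgPsi q p : Matrix (Fin n) (Fin n) ℝ → ℝ≥0∞) := by
  rw [continuous_iff_continuousAt]
  intro A₀
  obtain ⟨C, hC, hp⟩ := rmgx_bound p
  set K : ℝ := ∑ i, ∑ j, (|A₀ i j| + 1) with hK
  have hK0 : 0 ≤ K := Finset.sum_nonneg fun i _ => Finset.sum_nonneg fun j _ => by positivity
  set P : Seminorm ℝ (Fin n → ℝ) :=
    (Real.toNNReal (C * K)) • normSeminorm ℝ (Fin n → ℝ) with hP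
  have hPz : ∀ z, P z = C * K * ‖z‖ := fun z => by
    rw [hP, _root_.smul_apply, NNReal.smul_def, Real.coe_toNNReal _ (mul_nonneg hC hK0)]
    rfl
  have : FirstCountableTopology (Matrix (Fin n) (Fin n) ℝ) :=
    inferInstanceAs (FirstCountableTopology (Fin n → Fin n → ℝ))
  unfold ContinuousAt rmgPsi rmgMom
  refine tendsto_lintegral_filter_of_dominated_convergence
    (fun z => ENNReal.ofReal (P z ^ q)) ?_ ?_ ?_ ?_
  · refine Eventually.of_forall fun A => ?_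
    have hc : Continuous fun z : Fin n → ℝ => p (A *ᵥ z) ^ q :=
      ((rmgx_continuous p).comp (Continuous.matrix_mulVec continuous_const continuous_id)).pow q
    exact hc.measurable.ennreal_ofReal
  · filter_upwards [rmgx_eventually_entries A₀] with A hA
    refine Eventually.of_forall fun z => ?_
    refine ENNReal.ofReal_le_ofReal (pow_le_pow_left₀ (apply_nonneg p _) ?_ q)
    rw [hPz]
    calc p (A *ᵥ z) ≤ C * ‖A *ᵥ z‖ := hp _
      _ ≤ C * (K * ‖z‖) := mul_le_mul_of_nonneg_left (rmgx_mulVec_norm_le A A₀ hA z) hC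
      _ = C * K * ‖z‖ := by ring
  · exact (hMF (Fin n) 1 PosDef.one P q).ne
  · refine Eventually.of_forall fun z => ?_
    have hc : Continuous fun A : Matrix (Fin n) (Fin n) ℝ => ENNReal.ofReal (p (A *ᵥ z) ^ q) :=
      ENNReal.continuous_ofReal.comp
        (((rmgx_continuous p).comp (Continuous.matrix_mulVec continuous_id continuous_const)).pow q)
    exact hc.continuousAt.tendsto

end psi

section usc

variable {n : ℕ}

theorem rmgx_Q_add (G M : Matrix (Fin n) (Fin n) ℝ) (x : Fin n → ℝ) :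
    rmgQ (G + M) x = rmgQ G x + rmgQ M x := by
  unfold rmgQ rmgB
  rw [add_mulVec, dotProduct_add]

theorem rmgx_form_bound (M : Matrix (Fin n) (Fin n) ℝ) (ε : ℝ) (hM : ∀ i j, |M i j| ≤ ε)
    (x : Fin n → ℝ) : |rmgQ M x| ≤ ε * n * (x ⬝ᵥ x) := by
  have h1 : rmgQ M x = ∑ i, ∑ j, x i * (M i j * x j) := by
    unfold rmgQ rmgB dotProduct mulVec dotProduct
    simp [Finset.mul_sum]
  rw [h1]
  calc |∑ i, ∑ j, x i * (M i j * x j)| ≤ ∑ i, ∑ j, |x i * (M i j * x j)| :=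
        (Finset.abs_sum_le_sum_abs _ _).trans
          (Finset.sum_le_sum fun i _ => Finset.abs_sum_le_sum_abs _ _)
    _ ≤ ∑ i, ∑ j, ε * ((x i ^ 2 + x j ^ 2) / 2) := by
        refine Finset.sum_le_sum fun i _ => Finset.sum_le_sum fun j _ => ?_
        rw [abs_mul, abs_mul]
        have h2 : |x i| * |x j| ≤ (x i ^ 2 + x j ^ 2) / 2 := by
          nlinarith [sq_abs (x i), sq_abs (x j), sq_nonneg (|x i| - |x j|)]
        have hε : 0 ≤ ε := (abs_nonneg _).trans (hM i j)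
        calc |x i| * (|M i j| * |x j|) = |M i j| * (|x i| * |x j|) := by ring
          _ ≤ ε * ((x i ^ 2 + x j ^ 2) / 2) := mul_le_mul (hM i j) h2 (by positivity) hε
    _ = ε * n * (x ⬝ᵥ x) := by
        have hS : x ⬝ᵥ x = ∑ i, x i ^ 2 := by
          unfold dotProduct
          exact Finset.sum_congr rfl fun i _ => (sq (x i)).symm
        rw [hS]
        simp_rw [← Finset.mul_sum, ← Finset.sum_div, Finset.sum_add_distrib, Finset.sum_const,
          Finset.card_univ, Fintype.card_fin, nsmul_eq_mul]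
        rw [← Finset.mul_sum]
        ring

theorem rmgx_posDef_of_det {B : Matrix (Fin n) (Fin n) ℝ} (hB : B.det ≠ 0) :
    (Bᵀ * B).PosDef := by
  have := PosDef.conjTranspose_mul_self B
    (mulVec_injective_of_isUnit ((isUnit_iff_isUnit_det B).2 (isUnit_iff_ne_zero.2 hB)))
  rwa [conjTranspose_eq_transpose_of_trivial] at this

theorem rmgx_eventually_form (hCo : StRmgCoercive) (B₀ : Matrix (Fin n) (Fin n) ℝ)
    (hB₀ : B₀.det ≠ 0) (θ : ℝ) (hθ : θ < 1) :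
    ∀ᶠ B in 𝓝 B₀, ∀ x : Fin n → ℝ, θ * rmgQ (B₀ᵀ * B₀) x ≤ rmgQ (Bᵀ * B) x := by
  obtain ⟨c, hc, hco⟩ := hCo (Fin n) (B₀ᵀ * B₀) (rmgx_posDef_of_det hB₀)
  set ε : ℝ := (1 - θ) * c / (n + 1) with hε
  have hεpos : 0 < ε := by
    have : 0 < 1 - θ := by linarith
    positivity
  have hev : ∀ᶠ B in 𝓝 B₀, ∀ i j, |(Bᵀ * B - B₀ᵀ * B₀) i j| ≤ ε := by
    rw [eventually_all]
    intro i
    rw [eventually_all]
    intro j
    have hcont : Continuous fun B : Matrix (Fin n) (Fin n) ℝ => |(Bᵀ * B - B₀ᵀ * B₀) i j| :=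
      (((continuous_id.matrix_transpose.matrix_mul continuous_id).sub
        continuous_const).matrix_elem i j).abs
    have h0 : |(B₀ᵀ * B₀ - B₀ᵀ * B₀) i j| < ε := by simpa using hεpos
    exact (hcont.continuousAt.tendsto.eventually (gt_mem_nhds h0)).mono fun B hB => hB.le
  filter_upwards [hev] with B hB x
  have h1 := rmgx_form_bound _ ε hB x
  have h2 : rmgQ (Bᵀ * B) x = rmgQ (B₀ᵀ * B₀) x + rmgQ (Bᵀ * B - B₀ᵀ * B₀) x := by
    rw [← rmgx_Q_add]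
    congr 1
    abel
  have hxx : 0 ≤ x ⬝ᵥ x := by
    unfold dotProduct
    exact Finset.sum_nonneg fun i _ => mul_self_nonneg _
  have h3 : ε * n * (x ⬝ᵥ x) ≤ (1 - θ) * (c * (x ⬝ᵥ x)) := by
    have : ε * n ≤ (1 - θ) * c := by
      rw [hε, div_mul_eq_mul_div, div_le_iff₀ (by positivity)]
      have : 0 ≤ (1 - θ) * c := by
        have : 0 < 1 - θ := by linarith
        positivity
      nlinarith
    calc ε * n * (x ⬝ᵥ x) ≤ (1 - θ) * c * (x ⬝ᵥ x) := mul_le_mul_of_nonneg_right this hxx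
      _ = _ := by ring
  have h4 : (1 - θ) * (c * (x ⬝ᵥ x)) ≤ (1 - θ) * rmgQ (B₀ᵀ * B₀) x :=
    mul_le_mul_of_nonneg_left (hco x) (by linarith)
  have h5 := (abs_le.1 h1).1
  rw [h2]
  linarith

/-- (MX1) upper semicontinuity. -/
theorem rmg_usc (hMF : StRmgMomFinite) (hCo : StRmgCoercive) (hSemi : StRmgGaugeSemi)
    (hPert : StRmgGaugePert) (hFac : StRmgMomFactor) : StRmgUSC := by
  intro n q B₀ hB₀ y hy
  set G₀ := B₀ᵀ * B₀ with hG₀
  have hG₀pd : G₀.PosDef := rmgx_posDef_of_det hB₀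
  obtain ⟨p, hp, -⟩ := hSemi (Fin n) G₀ hG₀pd
  have hpfun : (fun x => p x) = rmgGauge G₀ := funext hp
  have hψ := rmgx_psi_continuous hMF q p
  have hval : rmgPsi q p B₀⁻¹ < y := by
    have : rmgTheta q G₀ = rmgPsi q (rmgGauge G₀) B₀⁻¹ := hFac (Fin n) B₀ hB₀ _ q
    rw [this, ← hpfun] at hy
    exact hy
  -- choice of the dilation
  have hstep1 : ∀ᶠ t in 𝓝 (1 : ℝ), rmgPsi q p (t • B₀⁻¹) < y := by
    have hc : Continuous fun t : ℝ => rmgPsi q p (t • B₀⁻¹) :=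
      hψ.comp (continuous_id.smul continuous_const)
    have h1 : rmgPsi q p ((1 : ℝ) • B₀⁻¹) < y := by simpa using hval
    exact hc.continuousAt.tendsto.eventually (gt_mem_nhds h1)
  obtain ⟨t₀, ht₀y, ht₀⟩ : ∃ t₀ : ℝ, rmgPsi q p (t₀ • B₀⁻¹) < y ∧ 1 < t₀ :=
    ((hstep1.filter_mono nhdsWithin_le_nhds).and
      (self_mem_nhdsWithin : Set.Ioi (1 : ℝ) ∈ 𝓝[>] (1 : ℝ))).exists
  have ht₀pos : 0 < t₀ := by linarith
  have hinv : G₀⁻¹ * B₀ᵀ = B₀⁻¹ := by
    have hu : IsUnit B₀.det := isUnit_iff_ne_zero.2 hB₀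
    have hu' : IsUnit B₀ᵀ.det := by rwa [det_transpose]
    rw [hG₀, Matrix.mul_inv_rev, mul_assoc, nonsing_inv_mul _ hu', mul_one]
  have hstep2 : ∀ᶠ B in 𝓝 B₀, rmgPsi q p (t₀ • (G₀⁻¹ * Bᵀ)) < y := by
    have hc : Continuous fun B : Matrix (Fin n) (Fin n) ℝ => rmgPsi q p (t₀ • (G₀⁻¹ * Bᵀ)) :=
      hψ.comp ((continuous_const.matrix_mul continuous_id.matrix_transpose).const_smul t₀)
    have h1 : rmgPsi q p (t₀ • (G₀⁻¹ * B₀ᵀ)) < y := by rw [hinv]; exact ht₀y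
    exact hc.continuousAt.tendsto.eventually (gt_mem_nhds h1)
  have hstep3 : ∀ᶠ B in 𝓝 B₀, B.det ≠ 0 :=
    (continuous_id.matrix_det.continuousAt (x := B₀)).eventually_ne hB₀
  have hstep4 := rmgx_eventually_form hCo B₀ hB₀ t₀⁻¹ (inv_lt_one_of_one_lt₀ ht₀)
  filter_upwards [hstep2, hstep3, hstep4] with B h2 h3 h4
  refine lt_of_le_of_lt ?_ h2
  have hGpd : (Bᵀ * B).PosDef := rmgx_posDef_of_det h3
  obtain ⟨p', hp', -⟩ := hSemi (Fin n) (Bᵀ * B) hGpd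
  have e1 : rmgTheta q (Bᵀ * B) = rmgPsi q (rmgGauge (Bᵀ * B)) B⁻¹ := hFac (Fin n) B h3 _ q
  rw [e1]
  unfold rmgPsi rmgMom
  refine lintegral_mono fun z => ?_
  refine ENNReal.ofReal_le_ofReal (pow_le_pow_left₀ ?_ ?_ q)
  · show 0 ≤ rmgGauge (Bᵀ * B) (B⁻¹ *ᵥ z)
    rw [← hp']
    exact apply_nonneg p' _
  · show rmgGauge (Bᵀ * B) (B⁻¹ *ᵥ z) ≤ p ((t₀ • (G₀⁻¹ * Bᵀ)) *ᵥ z)
    have h5 := hPert (Fin n) G₀ (Bᵀ * B) hG₀pd hGpd t₀⁻¹ (inv_pos.2 ht₀pos)
      (fun z => h4 (rmgC z)) (B⁻¹ *ᵥ z)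
    rw [inv_inv] at h5
    refine h5.trans (le_of_eq ?_)
    have hu : IsUnit B.det := isUnit_iff_ne_zero.2 h3
    have e2 : (G₀⁻¹ * (Bᵀ * B)) *ᵥ (B⁻¹ *ᵥ z) = (G₀⁻¹ * Bᵀ) *ᵥ z := by
      rw [mulVec_mulVec]
      congr 1
      rw [mul_assoc, mul_assoc, mul_nonsing_inv _ hu, mul_one]
    rw [e2, ← hp, smul_mulVec, map_smul_eq_mul, Real.norm_of_nonneg ht₀pos.le]

end usc

end Claimed.Agent.R293
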