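/-
Row 293 (S0541), package GRAM, leaf MX (part B): compactness, existence of a maximiser.
Owner: helper250.  Prefix `rmgx_`.
-/
import Mathlib
import Claimed.Agent.R293.RM.GramStmts
import Claimed.Agent.R293.RM.GramMeasA
import Claimed.Agent.R293.RM.GramMaxA

set_option autoImplicit false

namespace Claimed.Agent.R293

open MeasureTheory Matrix Filter Topology
open scoped ENNReal NNReal

section compact

variable {n : ℕ}

theorem rmgx_det_ne_of_stable {B : Matrix (Fin n) (Fin n) ℝ} (h : (Bᵀ * B).det = 1) :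
    B.det ≠ 0 := by
  intro h0
  rw [det_mul, h0, mul_zero] at h
  exact zero_ne_one h

theorem rmgx_stable_iff (B : Matrix (Fin n) (Fin n) ℝ) :
    RmgStable (Bᵀ * B) ↔ (Bᵀ * B).det = 1 ∧ RmgDet1 (Bᵀ * B) :=
  ⟨fun h => ⟨h.2.1, h.2.2⟩, fun h => ⟨rmgx_posDef_of_det (rmgx_det_ne_of_stable h.1), h.1, h.2⟩⟩

/-- (MX2) compactness. -/
theorem rmg_compact : StRmgCompact := by
  intro n R
  have hbox : IsCompact {B : Matrix (Fin n) (Fin n) ℝ | ∀ i j, |B i j| ≤ R} := by
    have h1 : IsCompact (Set.pi Set.univ fun _ : Fin n => Set.pi Set.univ fun _ : Fin n =>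
        Set.Icc (-R) R) := isCompact_univ_pi fun _ => isCompact_univ_pi fun _ => isCompact_Icc
    have h2 : {B : Matrix (Fin n) (Fin n) ℝ | ∀ i j, |B i j| ≤ R}
        = (Set.pi Set.univ fun _ : Fin n => Set.pi Set.univ fun _ : Fin n => Set.Icc (-R) R) := by
      ext B
      constructor
      · intro h i _ j _
        exact abs_le.1 (h i j)
      · intro h i j
        exact abs_le.2 (h i (Set.mem_univ i) j (Set.mem_univ j))
    rw [h2]
    exact h1
  refine hbox.of_isClosed_subset ?_ fun B hB => hB.1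
  have hG : Continuous fun B : Matrix (Fin n) (Fin n) ℝ => Bᵀ * B :=
    continuous_id.matrix_transpose.matrix_mul continuous_id
  have hset : {B : Matrix (Fin n) (Fin n) ℝ | (∀ i j, |B i j| ≤ R) ∧ RmgStable (Bᵀ * B)}
      = {B | ∀ i j, |B i j| ≤ R} ∩ ({B | (Bᵀ * B).det = 1} ∩
        ⋂ (r : ℕ) (Z : Matrix (Fin n) (Fin r) ℤ) (_ : RmgIndep Z),
          {B | 1 ≤ (rmgSub (Bᵀ * B) Z).det}) := by
    ext B
    simp only [Set.mem_ofPred_eq, Set.mem_inter_iff, Set.mem_iInter, rmgx_stable_iff, RmgDet1]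
  rw [hset]
  refine hbox.isClosed.inter ((isClosed_eq hG.matrix_det continuous_const).inter ?_)
  refine isClosed_iInter fun r => isClosed_iInter fun Z => isClosed_iInter fun _ => ?_
  refine isClosed_le continuous_const ?_
  unfold rmgSub
  exact ((continuous_const.matrix_mul hG).matrix_mul continuous_const).matrix_det

end compact

section max

variable {n : ℕ}

theorem rmgx_det_cast (U : Matrix (Fin n) (Fin n) ℤ) : (rmgCM U).det = (U.det : ℝ) := by
  have := (Int.castRingHom ℝ).map_det U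
  simpa [rmgCM, RingHom.mapMatrix_apply] using this.symm

/-- rank one sublattices: `Q ≥ 1` on nonzero integer vectors. -/
theorem rmgx_Q_ge_one {G : Matrix (Fin n) (Fin n) ℝ} (h : RmgDet1 G) (z : Fin n → ℤ)
    (hz : z ≠ 0) : 1 ≤ rmgQ G (rmgC z) := by
  set Z : Matrix (Fin n) (Fin 1) ℤ := fun i _ => z i with hZ
  have hind : RmgIndep Z := by
    unfold RmgIndep
    rw [linearIndependent_unique_iff]
    intro h0
    apply hz
    funext i
    have := congrFun h0 i
    simpa [rmgC, hZ] using this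
  have h1 := h 1 Z hind
  rw [det_fin_one] at h1
  have h2 : rmgSub G Z 0 0 = rmgQ G (rmgC z) := by
    unfold rmgSub rmgQ rmgB
    rw [Matrix.mul_apply]
    simp only [Matrix.mul_apply, dotProduct, mulVec, rmgCM, rmgC, hZ, Matrix.transpose_apply,
      Finset.sum_mul, Finset.mul_sum]
    rw [Finset.sum_comm]
    refine Finset.sum_congr rfl fun i _ => Finset.sum_congr rfl fun j _ => ?_
    show (z i : ℝ) * G i j * (z j : ℝ) = _
    ring
  rwa [h2] at h1

/-- every stable form is equivalent to `BᵀB` with `B` in a fixed box. -/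
theorem rmgx_reduce (hTU : StRmgThetaUni) (hDU : StRmgDet1Uni) (q : ℕ) (R : ℝ)
    (hR : ∀ G : Matrix (Fin n) (Fin n) ℝ, G.PosDef →
      (∀ z : Fin n → ℤ, z ≠ 0 → 1 ≤ rmgQ G (rmgC z)) → G.det ≤ 1 →
        ∃ U : Matrix (Fin n) (Fin n) ℤ, IsUnit U.det ∧ ∀ i j, |rmgSub G U i j| ≤ R)
    (G : Matrix (Fin n) (Fin n) ℝ) (hG : RmgStable G) :
    ∃ B : Matrix (Fin n) (Fin n) ℝ, ((∀ i j, |B i j| ≤ Real.sqrt R) ∧ RmgStable (Bᵀ * B)) ∧
      rmgTheta q (Bᵀ * B) = rmgTheta q G := by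
  obtain ⟨hpd, hdet, hD1⟩ := hG
  obtain ⟨U, hU, hUR⟩ := hR G hpd (rmgx_Q_ge_one hD1) hdet.le
  have hUdet : (rmgCM U).det ^ 2 = 1 := by
    rw [rmgx_det_cast]
    rcases Int.isUnit_iff.1 hU with h | h <;> simp [h]
  have hUne : (rmgCM U).det ≠ 0 := by
    intro h0
    rw [h0] at hUdet
    norm_num at hUdet
  have hpd' : (rmgSub G U).PosDef := by
    have := hpd.conjTranspose_mul_mul_same (B := rmgCM U)
      (mulVec_injective_of_isUnit ((isUnit_iff_isUnit_det _).2 (isUnit_iff_ne_zero.2 hUne)))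
    rwa [conjTranspose_eq_transpose_of_trivial] at this
  have hdet' : (rmgSub G U).det = 1 := by
    unfold rmgSub
    rw [det_mul, det_mul, det_transpose, hdet, mul_one, ← sq, hUdet]
  obtain ⟨B, -, hB⟩ := rmgME_exists_factor hpd'
  refine ⟨B, ⟨fun k i => ?_, ?_⟩, ?_⟩
  · apply Real.abs_le_sqrt
    have h1 : (Bᵀ * B) i i = ∑ k, B k i ^ 2 := by
      rw [Matrix.mul_apply]
      exact Finset.sum_congr rfl fun k _ => by rw [Matrix.transpose_apply, sq]
    have h2 : B k i ^ 2 ≤ ∑ k, B k i ^ 2 :=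
      Finset.single_le_sum (f := fun k => B k i ^ 2) (fun k _ => sq_nonneg _) (Finset.mem_univ k)
    have h3 := (le_abs_self _).trans (hUR i i)
    rw [hB, h1] at h3
    exact h2.trans h3
  · rw [← hB]
    exact ⟨hpd', hdet', hDU (Fin n) G U hU hD1⟩
  · rw [← hB]
    exact hTU (Fin n) G hpd U hU q

end max

/-- (MX) a maximiser exists. -/
theorem rmg_max (hH : StRmgHermite) (hTU : StRmgThetaUni) (hDU : StRmgDet1Uni) (hU : StRmgUSC)
    (hC : StRmgCompact) : StRmgMax := by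
  intro n q hex
  obtain ⟨G₁, hG₁⟩ := hex
  obtain ⟨R, hR⟩ := hH n
  have key := rmgx_reduce hTU hDU q R hR
  obtain ⟨B₁, hB₁, -⟩ := key G₁ hG₁
  have husc : UpperSemicontinuousOn (fun B : Matrix (Fin n) (Fin n) ℝ => rmgTheta q (Bᵀ * B))
      {B | (∀ i j, |B i j| ≤ Real.sqrt R) ∧ RmgStable (Bᵀ * B)} := by
    intro B hB y hy
    exact (hU n q B (rmgx_det_ne_of_stable hB.2.2.1) y hy).filter_mono nhdsWithin_le_nhds
  obtain ⟨B, hB, hmax⟩ := husc.exists_isMaxOn ⟨B₁, hB₁⟩ (hC n (Real.sqrt R))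
  refine ⟨Bᵀ * B, hB.2, fun G' hG' => ?_⟩
  obtain ⟨B', hB', e⟩ := key G' hG'
  rw [← e]
  exact hmax hB'

end Claimed.Agent.R293
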