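/-
Row 293 (S0541), black box "Reverse Minkowski", package GRAM: assembly.
Owner: helper140.
-/
import Claimed.Agent.R293.RM.GramStmts

set_option autoImplicit false

namespace Claimed.Agent.R293

open MeasureTheory Matrix
open scoped ENNReal

/-- (DE11) block reduction: a sublattice given by `Z` can be moved, by a unimodular change of basis
and a relabelling, to the first block (its saturation), without changing `Θ` and the determinant
condition.  From DE7, TH1, TH2, DE2, DE3. -/
def StRmgReduce : Prop := ∀ (n r : ℕ) (G : Matrix (Fin n) (Fin n) ℝ) (Z : Matrix (Fin n) (Fin r) ℤ),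
  G.PosDef → RmgIndep Z →
    ∃ (A : Matrix (Fin r) (Fin r) ℝ) (B : Matrix (Fin r) (Fin (n - r)) ℝ)
      (D : Matrix (Fin (n - r)) (Fin (n - r)) ℝ),
      (fromBlocks A B Bᵀ D).PosDef ∧ A.det ≤ (rmgSub G Z).det ∧
      (∀ q : ℕ, rmgTheta q (fromBlocks A B Bᵀ D) = rmgTheta q G) ∧
      (RmgDet1 G → RmgDet1 (fromBlocks A B Bᵀ D))

/-- every seminorm on `ι → ℝ` is continuous. -/
theorem rmg_seminorm_continuous {ι : Type*} [Fintype ι] [DecidableEq ι] (p : Seminorm ℝ (ι → ℝ)) :
    Continuous p := by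
  have hb : ∀ x : ι → ℝ, p x ≤ (∑ i, p (Pi.single i 1)) * ‖x‖ := by
    intro x
    have hx : x = ∑ i, x i • (Pi.single i (1 : ℝ) : ι → ℝ) := by
      funext j
      simp [Finset.sum_apply, Pi.single_apply]
    calc p x = p (∑ i, x i • (Pi.single i (1 : ℝ) : ι → ℝ)) := by rw [← hx]
      _ ≤ ∑ i, p (x i • (Pi.single i (1 : ℝ) : ι → ℝ)) :=
          Finset.le_sum_of_subadditive p (map_zero p).le (map_add_le_add p) _ _
      _ = ∑ i, ‖x i‖ * p (Pi.single i 1) := by simp [map_smul_eq_mul]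
      _ ≤ ∑ i, ‖x‖ * p (Pi.single i 1) := by
          refine Finset.sum_le_sum fun i _ => ?_
          exact mul_le_mul_of_nonneg_right (norm_le_pi_norm x i) (apply_nonneg p _)
      _ = (∑ i, p (Pi.single i 1)) * ‖x‖ := by rw [← Finset.mul_sum, mul_comm]
  have hC : 0 ≤ ∑ i, p (Pi.single i (1 : ℝ) : ι → ℝ) := Finset.sum_nonneg fun i _ => apply_nonneg p _
  have : LipschitzWith ⟨_, hC⟩ p := by
    refine LipschitzWith.of_dist_le_mul fun x y => ?_
    rw [Real.dist_eq, dist_eq_norm]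
    calc |p x - p y| ≤ p (x - y) := abs_sub_map_le_sub p x y
      _ ≤ _ := hb _
  exact this.continuous

/-- in rank zero the gauge vanishes. -/
theorem rmgGauge_of_isEmpty {ι : Type*} [Fintype ι] [IsEmpty ι] (G : Matrix ι ι ℝ) (x : ι → ℝ) :
    rmgGauge G x = 0 := by
  unfold rmgGauge
  have : IsEmpty {z : ι → ℤ // z ≠ 0} := ⟨fun z => z.2 (Subsingleton.elim _ _)⟩
  exact Real.iSup_of_isEmpty _

theorem rmgTheta_of_isEmpty {ι : Type*} [Fintype ι] [DecidableEq ι] [IsEmpty ι] (G : Matrix ι ι ℝ)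
    {q : ℕ} (hq : 1 ≤ q) : rmgTheta q G = 0 := by
  unfold rmgTheta rmgMom
  have : ∀ x : ι → ℝ, ENNReal.ofReal (rmgGauge G x ^ q) = 0 := by
    intro x
    rw [rmgGauge_of_isEmpty, zero_pow (by omega)]
    simp
  simp [this]

/-- a limiting argument in `ℝ≥0∞`. -/
theorem rmg_le_of_forall_scale {x c : ℝ≥0∞} (q : ℕ)
    (h : ∀ s : ℝ, 1 < s → x ≤ ENNReal.ofReal (s ^ q) * c) : x ≤ c := by
  have ht : Filter.Tendsto (fun s : ℝ => ENNReal.ofReal (s ^ q) * c) (nhdsWithin 1 (Set.Ioi 1))
      (nhds (ENNReal.ofReal ((1 : ℝ) ^ q) * c)) := by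
    apply ENNReal.Tendsto.mul_const
    · apply ENNReal.tendsto_ofReal
      exact ((continuous_pow q).tendsto 1).mono_left nhdsWithin_le_nhds
    · left
      simp
  simp only [one_pow, ENNReal.ofReal_one, one_mul] at ht
  refine ge_of_tendsto ht ?_
  filter_upwards [self_mem_nhdsWithin] with s hs using h s hs

/-- the alternative "there are proper sublattices of determinant arbitrarily close to one". -/
def RmgTight {n : ℕ} (G : Matrix (Fin n) (Fin n) ℝ) : Prop :=
  ∀ δ : ℝ, 0 < δ → ∃ (r : ℕ) (Z : Matrix (Fin n) (Fin r) ℤ), 0 < r ∧ r < n ∧ RmgIndep Z ∧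
    (rmgSub G Z).det ≤ 1 + δ

theorem rmg_margin_of_not_tight {n : ℕ} {G : Matrix (Fin n) (Fin n) ℝ} (h : ¬ RmgTight G) :
    ∃ δ : ℝ, 0 < δ ∧ RmgMargin δ G := by
  unfold RmgTight at h
  push Not at h
  obtain ⟨δ, hδ, h⟩ := h
  refine ⟨δ, hδ, fun r Z hr hrn hZ => ?_⟩
  rw [Fintype.card_fin] at hrn
  exact (h r Z hr hrn hZ).le

/-- **Case A**: splitting along an almost unimodular proper sublattice. -/
theorem rmg_caseA (hRed : StRmgReduce) (hSplit : StRmgSplit) (hScale : StRmgThetaScale)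
    (hB1 : StRmgDet1Block1) (hB2 : StRmgDet1Block2) (hPD : StRmgBlockPD)
    {n q : ℕ} (hq : 1 ≤ q) (b : ℝ≥0∞)
    (IH : ∀ k : ℕ, k < n → ∀ G : Matrix (Fin k) (Fin k) ℝ, G.PosDef → RmgDet1 G →
      rmgTheta q G ≤ k * b)
    (G : Matrix (Fin n) (Fin n) ℝ) (hG : G.PosDef) (h1 : RmgDet1 G) (hA : RmgTight G) :
    rmgTheta q G ≤ n * b := by
  refine rmg_le_of_forall_scale q fun s hs => ?_
  have hs0 : 0 < s := by linarith
  have hs2 : 0 < s ^ 2 - 1 := by nlinarith
  obtain ⟨r, Z, hr, hrn, hZ, hdet⟩ := hA (s ^ 2 - 1) hs2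
  obtain ⟨A, B, D, hpd, hAdet, hTh, hD1⟩ := hRed n r G Z hG hZ
  obtain ⟨hApd, hSpd, -⟩ := hPD _ _ A B D hpd
  have hD1' := hD1 h1
  have hA1 : RmgDet1 A := hB1 _ _ A B D hD1'
  have hS1 : RmgDet1 (s ^ 2 • rmgSchur A B D) :=
    hB2 _ _ A B D hpd hD1' s hs.le (by linarith)
  have hSpd' : (s ^ 2 • rmgSchur A B D).PosDef := hSpd.smul (by positivity)
  have e1 : rmgTheta q A ≤ r * b := IH r hrn A hApd hA1
  have e2 : rmgTheta q (s ^ 2 • rmgSchur A B D) ≤ (n - r : ℕ) * b :=
    IH (n - r) (by omega) _ hSpd' hS1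
  have e3 : rmgTheta q (rmgSchur A B D)
      = ENNReal.ofReal (s ^ q) * rmgTheta q (s ^ 2 • rmgSchur A B D) := hScale _ _ hSpd s q hs0
  have hsq : (1 : ℝ≥0∞) ≤ ENNReal.ofReal (s ^ q) := by
    rw [← ENNReal.ofReal_one]
    exact ENNReal.ofReal_le_ofReal (one_le_pow₀ hs.le)
  calc rmgTheta q G = rmgTheta q (fromBlocks A B Bᵀ D) := (hTh q).symm
    _ ≤ rmgTheta q A + rmgTheta q (rmgSchur A B D) := hSplit _ _ A B D hpd q hq
    _ ≤ r * b + ENNReal.ofReal (s ^ q) * ((n - r : ℕ) * b) := by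
        rw [e3]
        gcongr
    _ ≤ ENNReal.ofReal (s ^ q) * (r * b) + ENNReal.ofReal (s ^ q) * ((n - r : ℕ) * b) := by
        refine add_le_add ?_ le_rfl
        exact le_mul_of_one_le_left (zero_le (a := (r : ℝ≥0∞) * b)) hsq
    _ = ENNReal.ofReal (s ^ q) * (n * b) := by
        rw [← mul_add, ← add_mul]
        congr 2
        have : r + (n - r) = n := by omega
        exact_mod_cast this

/-- **The induction step** (interface between the assembly and the extremal argument). -/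
def StRmgStep : Prop := ∀ (n q : ℕ), 1 ≤ q → 0 < n → ∀ b : ℝ≥0∞,
  ENNReal.ofReal ((rmlpConst n * Real.sqrt q) ^ q) ≤ b →
  (∀ k : ℕ, k < n → ∀ G : Matrix (Fin k) (Fin k) ℝ, G.PosDef → RmgDet1 G → rmgTheta q G ≤ k * b) →
  ∀ G : Matrix (Fin n) (Fin n) ℝ, G.PosDef → RmgDet1 G → rmgTheta q G ≤ n * b

theorem rmlpConst_nonneg {n : ℕ} (hn : 1 ≤ n) : 0 ≤ rmlpConst n := by
  unfold rmlpConst rmlpK
  have h1 : (1 : ℝ) ≤ 2 * n := by
    have : (1 : ℝ) ≤ n := by exact_mod_cast hn
    linarith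
  have := Real.log_nonneg h1
  positivity

/-- the moment bound, by induction on the rank. -/
theorem rmg_moment (hStep : StRmgStep) (hMono : StRmlpConstMono) : StRmgMoment := by
  intro N q hq n
  induction n using Nat.strong_induction_on with
  | _ n IH =>
    intro hnN G hG h1
    rcases Nat.eq_zero_or_pos n with rfl | hn
    · rw [rmgTheta_of_isEmpty G hq]
      exact zero_le
    · refine hStep n q hq hn _ ?_ (fun k hk G' hG' h1' => IH k hk (by omega) G' hG' h1') G hG h1
      apply ENNReal.ofReal_le_ofReal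
      apply pow_le_pow_left₀ (mul_nonneg (rmlpConst_nonneg hn) (Real.sqrt_nonneg _))
      exact mul_le_mul_of_nonneg_right (hMono n N hn hnN) (Real.sqrt_nonneg _)

theorem rmgExp_exp_ge (n : ℕ) : 3 * (n : ℝ) ≤ Real.exp (rmgExp n) := by
  have h1 : Real.log (n + 1) + 2 ≤ (rmgExp n : ℝ) := by
    unfold rmgExp
    push_cast
    have := Nat.le_ceil (Real.log ((n : ℝ) + 1))
    linarith
  have h2 : Real.exp (Real.log (n + 1) + 2) ≤ Real.exp (rmgExp n) := Real.exp_le_exp.mpr h1
  have h3 : Real.exp (Real.log (n + 1) + 2) = ((n : ℝ) + 1) * Real.exp 2 := by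
    rw [Real.exp_add, Real.exp_log (by positivity)]
  have h4 : (3 : ℝ) ≤ Real.exp 2 := by
    have := Real.add_one_le_exp (2 : ℝ)
    linarith
  have h5 : (0 : ℝ) ≤ n := Nat.cast_nonneg n
  nlinarith

/-- **Reverse Minkowski in Gram form**, from the moment bound. -/
theorem rm_gram_of_moment (hMom : StRmgMoment) (hMass : StRmgMass) (hProb : StRmgMeasProb)
    (hSemi : StRmgGaugeSemi) : StRmGram := by
  intro n G hG h1
  rcases Nat.eq_zero_or_pos n with rfl | hn
  · unfold rmgRho
    rw [tsum_fintype]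
    simp [rmgQ, rmgB]
    norm_num
  · have hq : 1 ≤ rmgExp n := by unfold rmgExp; omega
    set q := rmgExp n with hq_def
    set β := rmlpConst n * Real.sqrt q with hβ_def
    have hK : 0 < rmlpConst n := by
      unfold rmlpConst rmlpK
      have h1 : (1 : ℝ) < 2 * n := by
        have : (1 : ℝ) ≤ n := by exact_mod_cast hn
        linarith
      have := Real.log_pos h1
      have hM : (0 : ℝ) < rmlpM n := by
        have : 1 ≤ rmlpM n := by unfold rmlpM; omega
        exact_mod_cast this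
      positivity
    have hβ : 0 < β := mul_pos hK (Real.sqrt_pos.mpr (by exact_mod_cast hq))
    have ht : rmgTau n = Real.exp 1 * β := rfl
    have ht0 : 0 < rmgTau n := by rw [ht]; positivity
    have := hProb _ G hG
    obtain ⟨p, hp, -⟩ := hSemi _ G hG
    have hmeas : Measurable (rmgGauge G) := by
      have : rmgGauge G = p := by funext x; exact (hp x).symm
      rw [this]
      exact (rmg_seminorm_continuous p).measurable
    have hΘ : rmgTheta q G ≤ n * ENNReal.ofReal (β ^ q) := hMom n q hq n le_rfl G hG h1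
    -- Markov
    have hmk : ENNReal.ofReal (rmgTau n ^ q) * rmgMeas G {x | rmgTau n < rmgGauge G x}
        ≤ rmgTheta q G := by
      have hm := mul_meas_ge_le_lintegral₀ (μ := rmgMeas G)
        (f := fun x => ENNReal.ofReal (rmgGauge G x ^ q))
        ((ENNReal.measurable_ofReal.comp (hmeas.pow_const q)).aemeasurable)
        (ENNReal.ofReal (rmgTau n ^ q))
      refine le_trans ?_ hm
      refine mul_le_mul_right (measure_mono ?_) _
      intro x hx
      simp only [Set.mem_ofPred_eq] at hx ⊢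
      exact ENNReal.ofReal_le_ofReal (pow_le_pow_left₀ ht0.le hx.le q)
    have hpow : ENNReal.ofReal (rmgTau n ^ q)
        = ENNReal.ofReal (Real.exp q) * ENNReal.ofReal (β ^ q) := by
      rw [ht, mul_pow, ← Real.exp_nat_mul, mul_one, ENNReal.ofReal_mul (Real.exp_pos _).le]
    have hβq0 : ENNReal.ofReal (β ^ q) ≠ 0 := by
      simp only [ne_eq, ENNReal.ofReal_eq_zero, not_le]
      positivity
    have hbad : ENNReal.ofReal (Real.exp q) * rmgMeas G {x | rmgTau n < rmgGauge G x} ≤ n := by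
      have h := hmk.trans hΘ
      rw [hpow, mul_right_comm, mul_comm (n : ℝ≥0∞)] at h
      rw [mul_comm (ENNReal.ofReal (Real.exp q) * _)] at h
      exact (ENNReal.mul_le_mul_iff_right hβq0 ENNReal.ofReal_ne_top).mp h
    have hbad2 : rmgMeas G {x | rmgTau n < rmgGauge G x} ≤ 1 / 3 := by
      have h3 : (3 : ℝ≥0∞) * n ≤ ENNReal.ofReal (Real.exp q) := by
        have := ENNReal.ofReal_le_ofReal (rmgExp_exp_ge n)
        rwa [ENNReal.ofReal_mul (by norm_num), ENNReal.ofReal_natCast,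
          show ENNReal.ofReal 3 = 3 by simp] at this
      have h4 : (3 : ℝ≥0∞) * n * rmgMeas G {x | rmgTau n < rmgGauge G x} ≤ n :=
        le_trans (by gcongr) hbad
      have hn0 : (n : ℝ≥0∞) ≠ 0 := by exact_mod_cast hn.ne'
      have h5 : (n : ℝ≥0∞) * (3 * rmgMeas G {x | rmgTau n < rmgGauge G x}) ≤ n * 1 := by
        rw [mul_one]
        calc (n : ℝ≥0∞) * (3 * rmgMeas G {x | rmgTau n < rmgGauge G x})
            = 3 * n * rmgMeas G {x | rmgTau n < rmgGauge G x} := by ring
          _ ≤ n := h4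
      have h6 := (ENNReal.mul_le_mul_iff_right hn0 (ENNReal.natCast_ne_top n)).mp h5
      rw [ENNReal.le_div_iff_mul_le (by left; norm_num) (by left; norm_num), mul_comm]
      exact h6
    have hgood : (2 : ℝ≥0∞) / 3 ≤ rmgMeas G {x | rmgGauge G x ≤ rmgTau n} := by
      have hun : (1 : ℝ≥0∞) ≤ rmgMeas G {x | rmgGauge G x ≤ rmgTau n}
          + rmgMeas G {x | rmgTau n < rmgGauge G x} := by
        rw [← measure_univ (μ := rmgMeas G)]
        refine le_trans (measure_mono ?_) (measure_union_le _ _)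
        intro x _
        rcases le_or_gt (rmgGauge G x) (rmgTau n) with h | h
        · exact Or.inl h
        · exact Or.inr h
      have h7 : (2 : ℝ≥0∞) / 3 + 1 / 3 ≤ rmgMeas G {x | rmgGauge G x ≤ rmgTau n} + 1 / 3 := by
        have e : (2 : ℝ≥0∞) / 3 + 1 / 3 = 1 := by
          rw [ENNReal.div_add_div_same]
          norm_num
          exact ENNReal.div_self (by norm_num) (by norm_num)
        rw [e]
        exact hun.trans (by gcongr)
      exact (ENNReal.add_le_add_iff_right (by simp)).mp h7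
    have hfin := hMass _ G hG (rmgTau n) ht0
    have h8 : ENNReal.ofReal (rmgRho (rmgTau n) G) * (2 / 3) ≤ 1 := le_trans (by gcongr) hfin
    have h9 : ENNReal.ofReal (rmgRho (rmgTau n) G * (2 / 3)) ≤ ENNReal.ofReal 1 := by
      rw [ENNReal.ofReal_mul' (by norm_num), ENNReal.ofReal_one]
      have : ENNReal.ofReal (2 / 3) = 2 / 3 := by
        rw [ENNReal.ofReal_div_of_pos (by norm_num)]
        simp
      rw [this]
      exact h8
    have h10 := (ENNReal.ofReal_le_ofReal_iff (by norm_num)).mp h9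
    linarith

end Claimed.Agent.R293
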