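/-
Row 293 (S0541), Reverse Minkowski, package GRAM, leaf DE8 (normalisation).  Owner: helper140.
-/
import Claimed.Agent.R293.RM.GramMain

set_option autoImplicit false

namespace Claimed.Agent.R293

open Matrix Filter Topology

theorem rmgNz_sub_smul {n r : ℕ} (c : ℝ) (G : Matrix (Fin n) (Fin n) ℝ)
    (Z : Matrix (Fin n) (Fin r) ℤ) : (rmgSub (c • G) Z).det = c ^ r * (rmgSub G Z).det := by
  have : rmgSub (c • G) Z = c • rmgSub G Z := by
    unfold rmgSub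
    rw [Matrix.mul_smul, Matrix.smul_mul]
  rw [this, Matrix.det_smul, Fintype.card_fin]

theorem rmgNz_one_indep (n : ℕ) : RmgIndep (1 : Matrix (Fin n) (Fin n) ℤ) := by
  unfold RmgIndep
  have : (fun j : Fin n => rmgC (fun i => (1 : Matrix (Fin n) (Fin n) ℤ) i j))
      = fun j => (Pi.basisFun ℝ (Fin n)) j := by
    funext j i
    simp [rmgC, Matrix.one_apply, Pi.single_apply]
  rw [this]
  exact (Pi.basisFun ℝ (Fin n)).linearIndependent

theorem rmgNz_sub_one {n : ℕ} (G : Matrix (Fin n) (Fin n) ℝ) :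
    rmgSub G (1 : Matrix (Fin n) (Fin n) ℤ) = G := by
  simp [rmgSub, rmgCM]

theorem rmgNz_exists_gt (k : ℕ) (δ : ℝ) (hδ : 0 < δ) : ∃ t : ℝ, 1 < t ∧ t ^ k < 1 + δ := by
  have h1 : ∀ᶠ t : ℝ in 𝓝 1, t ^ k < 1 + δ := by
    have hc : ContinuousAt (fun t : ℝ => t ^ k) 1 := (continuous_pow k).continuousAt
    apply hc.eventually (gt_mem_nhds _)
    simp [hδ]
  have h2 : ∀ᶠ t : ℝ in 𝓝[>] 1, t ^ k < 1 + δ := h1.filter_mono nhdsWithin_le_nhds
  have h3 : ∀ᶠ t : ℝ in 𝓝[>] 1, 1 < t := self_mem_nhdsWithin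
  obtain ⟨t, ht1, ht2⟩ := (h3.and h2).exists
  exact ⟨t, ht1, ht2⟩

/-- (DE8) normalisation. -/
theorem rmg_normalize (hFull : StRmgFullRank) : StRmgNormalize := by
  intro n G hn hG h1
  set A : Set ℝ := {s | 1 ≤ s ∧ RmgDet1 ((s ^ 2)⁻¹ • G)} with hA
  -- reformulation of membership
  have hmem : ∀ s : ℝ, 1 ≤ s → (RmgDet1 ((s ^ 2)⁻¹ • G) ↔
      ∀ (r : ℕ) (Z : Matrix (Fin n) (Fin r) ℤ), RmgIndep Z → s ^ (2 * r) ≤ (rmgSub G Z).det) := by
    intro s hs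
    have hs0 : 0 < s := by linarith
    refine forall_congr' fun r => forall_congr' fun Z => imp_congr_right fun _ => ?_
    rw [rmgNz_sub_smul, inv_pow, ← pow_mul, inv_mul_eq_div, le_div_iff₀ (by positivity), one_mul]
  have h1A : (1 : ℝ) ∈ A := by
    refine ⟨le_rfl, ?_⟩
    simpa using h1
  have hbdd : BddAbove A := by
    refine ⟨G.det, ?_⟩
    rintro s ⟨hs, hsd⟩
    have h2 := (hmem s hs).mp hsd n 1 (rmgNz_one_indep n)
    rw [rmgNz_sub_one] at h2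
    calc s = s ^ 1 := (pow_one s).symm
      _ ≤ s ^ (2 * n) := pow_le_pow_right₀ hs (by omega)
      _ ≤ G.det := h2
  set s₀ := sSup A with hs₀
  have hlub : IsLUB A s₀ := isLUB_csSup ⟨1, h1A⟩ hbdd
  have hs₀1 : 1 ≤ s₀ := hlub.1 h1A
  have hs₀0 : 0 < s₀ := by linarith
  have hs₀A : RmgDet1 ((s₀ ^ 2)⁻¹ • G) := by
    rw [hmem s₀ hs₀1]
    intro r Z hZ
    by_contra hcon
    push Not at hcon
    have hev : ∀ᶠ t : ℝ in 𝓝 s₀, (rmgSub G Z).det < t ^ (2 * r) :=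
      ((continuous_pow (2 * r)).continuousAt (x := s₀)).eventually (lt_mem_nhds hcon)
    have hfr : ∃ᶠ t in 𝓝[≤] s₀, t ∈ A := hlub.frequently_mem ⟨1, h1A⟩
    obtain ⟨t, htA, ht⟩ := (hfr.and_eventually (hev.filter_mono nhdsWithin_le_nhds)).exists
    have := (hmem t htA.1).mp htA.2 r Z hZ
    linarith
  refine ⟨s₀, hs₀1, hs₀A, fun δ hδ => ?_⟩
  obtain ⟨t, ht1, ht2⟩ := rmgNz_exists_gt (2 * n) δ hδ
  have hs' : 1 ≤ s₀ * t := by nlinarith
  have hnot : s₀ * t ∉ A := by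
    intro hin
    have := hlub.1 hin
    nlinarith
  have hnot2 : ¬ RmgDet1 (((s₀ * t) ^ 2)⁻¹ • G) := fun h => hnot ⟨hs', h⟩
  rw [hmem _ hs'] at hnot2
  push Not at hnot2
  obtain ⟨r, Z, hZ, hlt⟩ := hnot2
  have hr : 0 < r := by
    rcases Nat.eq_zero_or_pos r with rfl | h
    · exfalso
      have : (rmgSub G Z).det = 1 := Matrix.det_isEmpty
      rw [this] at hlt
      simp at hlt
    · exact h
  refine ⟨r, Z, hr, hZ, ?_⟩
  have hrn := (hFull n r G Z hG hZ).1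
  rw [rmgNz_sub_smul, inv_pow, ← pow_mul, inv_mul_eq_div, div_le_iff₀ (by positivity)]
  have h3 : t ^ (2 * r) ≤ t ^ (2 * n) := pow_le_pow_right₀ ht1.le (by omega)
  calc (rmgSub G Z).det ≤ (s₀ * t) ^ (2 * r) := hlt.le
    _ = t ^ (2 * r) * s₀ ^ (2 * r) := by rw [mul_pow, mul_comm]
    _ ≤ (1 + δ) * s₀ ^ (2 * r) := by
        apply mul_le_mul_of_nonneg_right _ (by positivity)
        linarith

end Claimed.Agent.R293
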