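/-
Row 293 (S0541), Reverse Minkowski, package GRAM, leaf RMG-DE-d (owner helper38):
block reduction `StRmgReduce`.
-/
import Claimed.Agent.R293.RM.GramMain

set_option autoImplicit false

namespace Claimed.Agent.R293

open MeasureTheory Matrix
open scoped ENNReal

theorem rmgRed_cm_mul {ι κ μ : Type*} [Fintype κ] (X : Matrix ι κ ℤ) (Y : Matrix κ μ ℤ) :
    rmgCM (X * Y) = rmgCM X * rmgCM Y := by
  unfold rmgCM
  exact Matrix.map_mul (f := Int.castRingHom ℝ)

theorem rmgRed_cm_det {ι : Type*} [Fintype ι] [DecidableEq ι] (X : Matrix ι ι ℤ) :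
    (rmgCM X).det = (X.det : ℝ) := by
  unfold rmgCM
  exact ((Int.castRingHom ℝ).map_det X).symm

theorem rmgRed_cm_det_ne_zero {ι : Type*} [Fintype ι] [DecidableEq ι] {U : Matrix ι ι ℤ}
    (hU : IsUnit U.det) : (rmgCM U).det ≠ 0 := by
  rw [rmgRed_cm_det]
  exact_mod_cast hU.ne_zero

/-- a unimodular (more generally: nonsingular) change of basis keeps positive definiteness. -/
theorem rmgRed_sub_posDef {ι : Type*} [Fintype ι] [DecidableEq ι] {G : Matrix ι ι ℝ} (hG : G.PosDef)
    {U : Matrix ι ι ℤ} (hU : U.det ≠ 0) : (rmgSub G U).PosDef := by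
  unfold rmgSub
  have h := hG.conjTranspose_mul_mul_same (B := rmgCM U)
    (mulVec_injective_of_isUnit ((isUnit_iff_isUnit_det _).mpr
      (isUnit_iff_ne_zero.mpr (by rw [rmgRed_cm_det]; exact_mod_cast hU))))
  rwa [conjTranspose_eq_transpose_of_trivial] at h

/-- (DE11). -/
theorem rmg_reduce (hSNF : StRmgSNF) (hTU : StRmgThetaUni) (hTR : StRmgThetaReindex)
    (hDU : StRmgDet1Uni) (hDR : StRmgDet1Reindex) : StRmgReduce := by
  intro n r G Z hG hZ
  obtain ⟨U, W, e, hU, hW, hZe⟩ := hSNF n r Z hZ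
  have hG1 : (rmgSub G U).PosDef := rmgRed_sub_posDef hG hU.ne_zero
  set G2 : Matrix (Fin r ⊕ Fin (n - r)) (Fin r ⊕ Fin (n - r)) ℝ := (rmgSub G U).submatrix e e
    with hG2def
  have hG2 : G2.PosDef := hG1.submatrix e.injective
  have hsymm : G2.toBlocks₂₁ = (G2.toBlocks₁₂)ᵀ := by
    ext i j
    have := congrFun (congrFun hG2.isHermitian.eq (Sum.inr i)) (Sum.inl j)
    simp only [conjTranspose_apply, star_trivial] at this
    simp only [toBlocks₂₁, toBlocks₁₂, transpose_apply, of_apply]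
    exact this.symm
  have hblocks : fromBlocks G2.toBlocks₁₁ G2.toBlocks₁₂ (G2.toBlocks₁₂)ᵀ G2.toBlocks₂₂ = G2 := by
    rw [← hsymm, fromBlocks_toBlocks]
  refine ⟨G2.toBlocks₁₁, G2.toBlocks₁₂, G2.toBlocks₂₂, ?_, ?_, ?_, ?_⟩
  · rw [hblocks]; exact hG2
  · -- the determinant
    have hA : G2.toBlocks₁₁ = rmgSub G (U.submatrix id (e ∘ Sum.inl)) := by
      ext i j
      simp only [toBlocks₁₁, of_apply, hG2def, submatrix_apply, rmgSub, rmgCM, mul_apply,
        transpose_apply, map_apply, id, Function.comp]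
    have hsub : rmgSub G Z = (rmgCM W)ᵀ * G2.toBlocks₁₁ * rmgCM W := by
      rw [hA, hZe]
      unfold rmgSub
      rw [rmgRed_cm_mul, transpose_mul]
      simp only [Matrix.mul_assoc]
    have hApsd : 0 ≤ G2.toBlocks₁₁.det := by
      rw [hA]
      unfold rmgSub
      have h := hG.posSemidef.conjTranspose_mul_mul_same (rmgCM (U.submatrix id (e ∘ Sum.inl)))
      rw [conjTranspose_eq_transpose_of_trivial] at h
      exact h.det_nonneg
    rw [hsub, det_mul, det_mul, det_transpose, rmgRed_cm_det]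
    have hW1 : (1 : ℝ) ≤ (W.det : ℝ) ^ 2 := by
      have : (1 : ℤ) ≤ W.det ^ 2 := by
        have := sq_nonneg W.det
        have h0 : W.det ^ 2 ≠ 0 := pow_ne_zero 2 hW
        omega
      exact_mod_cast this
    nlinarith
  · intro q
    rw [hblocks, hG2def, hTR _ _ e (rmgSub G U) q, hTU _ G hG U hU q]
  · intro h1
    rw [hblocks, hG2def]
    exact hDR _ _ e _ (hDU _ G U hU h1)

end Claimed.Agent.R293
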