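/-
Row 293 (S0541), Reverse Minkowski, package GRAM, leaf RMG-DE-b (owner helper38):
unimodular completion of the saturation of a sublattice (Smith normal form).
-/
import Claimed.Agent.R293.RM.GramStmts

set_option autoImplicit false

namespace Claimed.Agent.R293

open Matrix Module

/-- real independence of integer columns gives integral independence. -/
theorem rmgSNF_indepZ {ι κ : Type*} [Fintype κ] (Z : Matrix ι κ ℤ) (hZ : RmgIndep Z) :
    LinearIndependent ℤ (fun (j : κ) (i : ι) => Z i j) := by
  rw [Fintype.linearIndependent_iff]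
  intro c hc j
  have h1 := Fintype.linearIndependent_iff.mp hZ (fun j => (c j : ℝ)) ?_ j
  · exact_mod_cast h1
  · funext i
    have := congrFun hc i
    simp only [Finset.sum_apply, Pi.smul_apply, smul_eq_mul, Pi.zero_apply] at this ⊢
    simp only [rmgC]
    exact_mod_cast this

/-- an embedding `Fin r ↪ Fin n` extends to an equivalence `Fin r ⊕ Fin (n - r) ≃ Fin n`. -/
theorem rmgSNF_extend {n r : ℕ} (f : Fin r ↪ Fin n) :
    ∃ e : Fin r ⊕ Fin (n - r) ≃ Fin n, ∀ k, e (Sum.inl k) = f k := by
  classical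
  have hcard : Fintype.card ↥(Set.range f)ᶜ = n - r := by
    rw [Fintype.card_compl_set, Fintype.card_fin, Set.card_range_of_injective f.injective,
      Fintype.card_fin]
  let e2 : Fin (n - r) ≃ ↥(Set.range f)ᶜ := (Fintype.equivFinOfCardEq hcard).symm
  refine ⟨(Equiv.sumCongr (Equiv.ofInjective f f.injective) e2).trans
    (Equiv.Set.sumCompl (Set.range f)), fun k => ?_⟩
  simp

/-- (DE7). -/
theorem rmg_snf : StRmgSNF := by
  intro n r Z hZ
  classical
  have hcol := rmgSNF_indepZ Z hZ
  set col : Fin r → (Fin n → ℤ) := fun j i => Z i j with hcoldef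
  obtain ⟨m, snf⟩ := Submodule.smithNormalForm (Pi.basisFun ℤ (Fin n))
    (Submodule.span ℤ (Set.range col))
  obtain rfl : m = r := by
    simpa using Fintype.card_congr (snf.bN.indexEquiv (Basis.span hcol))
  obtain ⟨e, he⟩ := rmgSNF_extend snf.f
  have hmem : ∀ j, col j ∈ Submodule.span ℤ (Set.range col) :=
    fun j => Submodule.subset_span ⟨j, rfl⟩
  let U : Matrix (Fin n) (Fin n) ℤ := Matrix.of fun i j => snf.bM j i
  let W : Matrix (Fin m) (Fin m) ℤ := Matrix.of fun k j => snf.a k * snf.bN.repr ⟨col j, hmem j⟩ k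
  have hU : IsUnit U.det := by
    have h := (Pi.basisFun ℤ (Fin n)).isUnit_det snf.bM
    rw [Basis.det_apply] at h
    have hUe : U = (Pi.basisFun ℤ (Fin n)).toMatrix ⇑snf.bM := by
      ext i j
      simp [U, Basis.toMatrix_apply]
    rw [hUe]
    exact h
  have hZ' : Z = (U.submatrix id (e ∘ Sum.inl)) * W := by
    ext i j
    rw [Matrix.mul_apply]
    have h1 := snf.bN.sum_repr ⟨col j, hmem j⟩
    have h2 := congrArg (fun x : ↥(Submodule.span ℤ (Set.range col)) => (x : Fin n → ℤ) i) h1
    simp only [Submodule.coe_sum, Submodule.coe_smul, Finset.sum_apply, Pi.smul_apply,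
      smul_eq_mul] at h2
    rw [show Z i j = col j i from rfl, ← h2]
    refine Finset.sum_congr rfl fun k _ => ?_
    rw [snf.snf k]
    simp only [Matrix.submatrix_apply, id, Function.comp, he, U, W, Matrix.of_apply,
      Pi.smul_apply, smul_eq_mul]
    ring
  refine ⟨U, W, e, hU, ?_, hZ'⟩
  intro hW
  obtain ⟨v, hv0, hv⟩ := Matrix.exists_mulVec_eq_zero_iff.mpr hW
  apply hv0
  have h3 : Z *ᵥ v = 0 := by rw [hZ', ← Matrix.mulVec_mulVec, hv, Matrix.mulVec_zero]
  funext j
  refine Fintype.linearIndependent_iff.mp hcol v ?_ j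
  funext i
  have := congrFun h3 i
  simp only [Matrix.mulVec, dotProduct, Pi.zero_apply] at this
  simp only [Finset.sum_apply, Pi.smul_apply, smul_eq_mul, Pi.zero_apply]
  rw [← this]
  exact Finset.sum_congr rfl fun k _ => mul_comm _ _

end Claimed.Agent.R293
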