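/-
Row 293 (S0541), black box "Reverse Minkowski", package GRAM, leaf (CO6):
splitting of `Θ_q` along a primitive sublattice.  Owner: helper96.
-/
import Claimed.Agent.R293.RM.GramStmts

set_option autoImplicit false

namespace Claimed.Agent.R293

open MeasureTheory Matrix
open scoped ENNReal

/-- a seminorm on `ι → ℝ` is continuous. -/
theorem rmgSP_seminorm_continuous {ι : Type} [Fintype ι] (p : Seminorm ℝ (ι → ℝ)) :
    Continuous p :=
  (p.convexOn.locallyLipschitz).continuous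

theorem rmgSP_max_pow_le {a b : ℝ} (ha : 0 ≤ a) (hb : 0 ≤ b) (q : ℕ) :
    max a b ^ q ≤ a ^ q + b ^ q := by
  rcases le_total a b with h | h
  · rw [max_eq_right h]
    have := pow_nonneg ha q
    linarith
  · rw [max_eq_left h]
    have := pow_nonneg hb q
    linarith

/-- **(CO6)** splitting along a primitive sublattice. -/
theorem rmg_split (hFD : StRmgSplitFD) (hMB : StRmgMeasBlock) (hPD : StRmgBlockPD)
    (hCmp : StRmgCompare) (hN : StRmgGaugeSemi) (hProb : StRmgMeasProb) : StRmgSplit := by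
  intro ι₁ ι₂ _ _ _ _ A B D hG q _
  obtain ⟨hA, hS, -⟩ := hPD ι₁ ι₂ A B D hG
  obtain ⟨pA, hpA, -⟩ := hN ι₁ A hA
  obtain ⟨pS, hpS, -⟩ := hN ι₂ (rmgSchur A B D) hS
  have hfA : rmgGauge A = pA := funext fun x => (hpA x).symm
  have hfS : rmgGauge (rmgSchur A B D) = pS := funext fun x => (hpS x).symm
  have hcA : Continuous pA := rmgSP_seminorm_continuous pA
  have hcS : Continuous pS := rmgSP_seminorm_continuous pS
  have := hProb ι₁ A hA
  have := hProb ι₂ (rmgSchur A B D) hS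
  let Φ : (ι₁ ⊕ ι₂ → ℝ) → (ι₁ → ℝ) × (ι₂ → ℝ) := fun x =>
    ((fun i => x (Sum.inl i)) + (A⁻¹ * B) *ᵥ (fun j => x (Sum.inr j)), fun j => x (Sum.inr j))
  have hΦc : Continuous Φ := by
    refine Continuous.prodMk ?_ ?_
    · refine Continuous.add ?_ ?_
      · exact continuous_pi fun i => continuous_apply _
      · exact Continuous.matrix_mulVec continuous_const
          (continuous_pi fun i => continuous_apply _)
    · exact continuous_pi fun i => continuous_apply _
  have hΦs : ∀ (s : ℝ) (x : ι₁ ⊕ ι₂ → ℝ), Φ (s • x) = (s • (Φ x).1, s • (Φ x).2) := by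
    intro s x
    have e1 : (fun j => (s • x) (Sum.inr j)) = s • fun j => x (Sum.inr j) := rfl
    have e2 : (fun i => (s • x) (Sum.inl i)) = s • fun i => x (Sum.inl i) := rfl
    simp only [Φ, e1, e2, Matrix.mulVec_smul, smul_add]
  let F : (ι₁ → ℝ) × (ι₂ → ℝ) → ℝ := fun z => max (pA z.1) (pS z.2)
  have hFc : Continuous F := (hcA.comp continuous_fst).max (hcS.comp continuous_snd)
  let h : (ι₁ ⊕ ι₂ → ℝ) → ℝ := fun x => F (Φ x)
  have hhm : Measurable h := (hFc.comp hΦc).measurable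
  have hh0 : ∀ x, 0 ≤ h x := fun x => le_max_of_le_left (apply_nonneg pA _)
  have hhom : ∀ (s : ℝ) (x : ι₁ ⊕ ι₂ → ℝ), 0 < s → h (s • x) = s * h x := by
    intro s x hs
    simp only [h, F, hΦs, map_smul_eq_mul, Real.norm_eq_abs, abs_of_pos hs]
    rw [mul_max_of_nonneg _ _ hs.le]
  have hfd : RmgFD {x | h x ≤ 1} := by
    have := hFD ι₁ ι₂ A (rmgSchur A B D) (A⁻¹ * B) hA hS
    rw [hfA, hfS] at this
    exact this
  refine (hCmp (ι₁ ⊕ ι₂) (fromBlocks A B Bᵀ D) hG h hhm hh0 hhom hfd q).trans ?_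
  have hmF : Measurable fun z : (ι₁ → ℝ) × (ι₂ → ℝ) => ENNReal.ofReal (F z ^ q) :=
    (hFc.pow q).measurable.ennreal_ofReal
  have hmA : Measurable fun u : ι₁ → ℝ => ENNReal.ofReal (pA u ^ q) :=
    (hcA.pow q).measurable.ennreal_ofReal
  have hmS : Measurable fun u : ι₂ → ℝ => ENNReal.ofReal (pS u ^ q) :=
    (hcS.pow q).measurable.ennreal_ofReal
  have e1 : rmgMom q (fromBlocks A B Bᵀ D) h
      = ∫⁻ z, ENNReal.ofReal (F z ^ q) ∂((rmgMeas A).prod (rmgMeas (rmgSchur A B D))) := by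
    rw [← hMB ι₁ ι₂ A B D hG]
    exact (lintegral_map hmF hΦc.measurable).symm
  rw [e1]
  calc ∫⁻ z, ENNReal.ofReal (F z ^ q) ∂((rmgMeas A).prod (rmgMeas (rmgSchur A B D)))
      ≤ ∫⁻ z, (ENNReal.ofReal (pA z.1 ^ q) + ENNReal.ofReal (pS z.2 ^ q))
          ∂((rmgMeas A).prod (rmgMeas (rmgSchur A B D))) := by
        refine lintegral_mono fun z => ?_
        rw [← ENNReal.ofReal_add (pow_nonneg (apply_nonneg pA _) q)
          (pow_nonneg (apply_nonneg pS _) q)]
        exact ENNReal.ofReal_le_ofReal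
          (rmgSP_max_pow_le (apply_nonneg pA _) (apply_nonneg pS _) q)
    _ = ∫⁻ z, ENNReal.ofReal (pA z.1 ^ q) ∂((rmgMeas A).prod (rmgMeas (rmgSchur A B D)))
          + ∫⁻ z, ENNReal.ofReal (pS z.2 ^ q) ∂((rmgMeas A).prod (rmgMeas (rmgSchur A B D))) :=
        lintegral_add_left (hmA.comp measurable_fst) _
    _ = rmgTheta q A + rmgTheta q (rmgSchur A B D) := by
        congr 1
        · rw [rmgTheta, rmgMom, hfA]
          exact (measurePreserving_fst (μ := rmgMeas A)
            (ν := rmgMeas (rmgSchur A B D))).lintegral_comp hmA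
        · rw [rmgTheta, rmgMom, hfS]
          exact (measurePreserving_snd (μ := rmgMeas A)
            (ν := rmgMeas (rmgSchur A B D))).lintegral_comp hmS

end Claimed.Agent.R293
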