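/-
Row 293 (S0541), black box "Reverse Minkowski", package GRAM: the induction step via route I
(normalisation + maximiser over stable forms + interior case).  Owner: helper140.
-/
import Claimed.Agent.R293.RM.GramMain

set_option autoImplicit false

namespace Claimed.Agent.R293

open MeasureTheory Matrix
open scoped ENNReal

/-- a stable maximiser satisfies the bound. -/
theorem rmg_stepA_max (hRed : StRmgReduce) (hSplit : StRmgSplit) (hScale : StRmgThetaScale)
    (hB1 : StRmgDet1Block1) (hB2 : StRmgDet1Block2) (hPD : StRmgBlockPD)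
    (hInt : StRmgInterior) (hLP : StRmgLPos) (hSemi : StRmgGaugeSemi) (hVor : StRmgVorFD)
    (hVol : StRmgFDVol)
    {n q : ℕ} (hq : 1 ≤ q) (hn : 0 < n) (b : ℝ≥0∞)
    (hb : ENNReal.ofReal ((rmlpConst n * Real.sqrt q) ^ q) ≤ b)
    (IH : ∀ k : ℕ, k < n → ∀ G : Matrix (Fin k) (Fin k) ℝ, G.PosDef → RmgDet1 G →
      rmgTheta q G ≤ k * b)
    (G : Matrix (Fin n) (Fin n) ℝ) (hG : RmgStable G) (hmax : RmgMaximal q G) :
    rmgTheta q G ≤ n * b := by
  by_cases hA : RmgTight G
  · exact rmg_caseA hRed hSplit hScale hB1 hB2 hPD hq b IH G hG.1 hG.2.2 hA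
  · obtain ⟨δ, hδ, hmar⟩ := rmg_margin_of_not_tight hA
    obtain ⟨p, hp, hp0⟩ := hSemi _ G hG.1
    have hpe : (p : (Fin n → ℝ) → ℝ) = rmgGauge G := by funext x; exact hp x
    have hvol : 1 ≤ volume {x | p x ≤ 1} := by
      have h1 := hVol _ _ (hVor _ G hG.1)
      have : {x | p x ≤ 1} = {x | rmgGauge G x ≤ 1} := by
        ext x
        simp only [Set.mem_ofPred_eq, hp]
      rw [this, h1]
    obtain ⟨M, hM, hMq⟩ := hLP n hn p hp0 hvol
    have h1 := hInt n q hq G hG hmax δ hδ hmar M hM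
    have h2 := hMq q hq
    rw [hpe] at h2
    calc rmgTheta q G ≤ b := h1.trans (h2.trans hb)
      _ = 1 * b := (one_mul b).symm
      _ ≤ n * b := by
          gcongr
          exact_mod_cast hn

/-- **Route I**: the induction step. -/
theorem rmg_stepA (hRed : StRmgReduce) (hSplit : StRmgSplit) (hScale : StRmgThetaScale)
    (hB1 : StRmgDet1Block1) (hB2 : StRmgDet1Block2) (hPD : StRmgBlockPD)
    (hInt : StRmgInterior) (hLP : StRmgLPos) (hSemi : StRmgGaugeSemi) (hVor : StRmgVorFD)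
    (hVol : StRmgFDVol) (hNorm : StRmgNormalize) (hMax : StRmgMax) (hFull : StRmgFullRank) :
    StRmgStep := by
  intro n q hq hn b hb IH G hG h1
  obtain ⟨s, hs, hs1, hsδ⟩ := hNorm n G hn hG h1
  have hs0 : 0 < s := by linarith
  set G₁ := (s ^ 2)⁻¹ • G with hG₁
  have hG₁pd : G₁.PosDef := hG.smul (by positivity)
  -- `Θ G ≤ Θ G₁`
  have hle : rmgTheta q G ≤ rmgTheta q G₁ := by
    have e := hScale _ G₁ hG₁pd s q hs0
    have e2 : s ^ 2 • G₁ = G := by
      rw [hG₁, smul_smul, mul_inv_cancel₀ (by positivity), one_smul]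
    rw [e2] at e
    rw [e]
    have hsq : (1 : ℝ≥0∞) ≤ ENNReal.ofReal (s ^ q) := by
      rw [← ENNReal.ofReal_one]
      exact ENNReal.ofReal_le_ofReal (one_le_pow₀ hs)
    exact le_mul_of_one_le_left zero_le hsq
  refine hle.trans ?_
  by_cases hA : RmgTight G₁
  · exact rmg_caseA hRed hSplit hScale hB1 hB2 hPD hq b IH G₁ hG₁pd hs1 hA
  · obtain ⟨δ, hδ, hmar⟩ := rmg_margin_of_not_tight hA
    -- `det G₁ = 1`
    have hdet_le : G₁.det ≤ 1 := by
      refine le_of_forall_pos_le_add fun ε hε => ?_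
      obtain ⟨r, Z, hr, hZ, hdet⟩ := hsδ (min ε (δ / 2)) (lt_min hε (by linarith))
      obtain ⟨hrn, hfull⟩ := hFull n r G₁ Z hG₁pd hZ
      have hrn' : r = n := by
        by_contra hne
        have hlt : r < n := lt_of_le_of_ne hrn hne
        have := hmar r Z hr (by rw [Fintype.card_fin]; exact hlt) hZ
        have h3 : min ε (δ / 2) ≤ δ / 2 := min_le_right _ _
        linarith
      have h4 : min ε (δ / 2) ≤ ε := min_le_left _ _
      linarith [hfull hrn']
    have hdet_ge : 1 ≤ G₁.det := by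
      have h5 := hs1 n (1 : Matrix (Fin n) (Fin n) ℤ) ?_
      · simpa [rmgSub, rmgCM] using h5
      · unfold RmgIndep
        have : (fun j : Fin n => rmgC (fun i => (1 : Matrix (Fin n) (Fin n) ℤ) i j))
            = fun j => (Pi.basisFun ℝ (Fin n)) j := by
          funext j i
          simp [rmgC, Matrix.one_apply, Pi.single_apply]
        rw [this]
        exact (Pi.basisFun ℝ (Fin n)).linearIndependent
    have hst : RmgStable G₁ := ⟨hG₁pd, le_antisymm hdet_le hdet_ge, hs1⟩
    obtain ⟨Gm, hGm, hmaxm⟩ := hMax n q ⟨G₁, hst⟩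
    exact (hmaxm G₁ hst).trans
      (rmg_stepA_max hRed hSplit hScale hB1 hB2 hPD hInt hLP hSemi hVor hVol hq hn b hb IH Gm hGm
        hmaxm)

end Claimed.Agent.R293
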