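/-
Row 293 (S0541), black box "Reverse Minkowski", package GRAM, leaves (TH1)-(TH3):
invariances of `Θ_q`.  Owner: helper96.
-/
import Claimed.Agent.R293.RM.GramStmts

set_option autoImplicit false

namespace Claimed.Agent.R293

open MeasureTheory Matrix
open scoped ENNReal

/-- multiplication by an invertible matrix is a measurable embedding. -/
theorem rmgTH_embed {ι : Type} [Fintype ι] [DecidableEq ι] (A : Matrix ι ι ℝ) (hA : A.det ≠ 0) :
    MeasurableEmbedding (fun x : ι → ℝ => A *ᵥ x) := by
  have hu : IsUnit A.det := isUnit_iff_ne_zero.mpr hA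
  let H : (ι → ℝ) ≃ₜ (ι → ℝ) :=
    { toFun := fun x => A *ᵥ x
      invFun := fun x => A⁻¹ *ᵥ x
      left_inv := fun x => by
        simp only [Matrix.mulVec_mulVec, Matrix.nonsing_inv_mul A hu, Matrix.one_mulVec]
      right_inv := fun x => by
        simp only [Matrix.mulVec_mulVec, Matrix.mul_nonsing_inv A hu, Matrix.one_mulVec]
      continuous_toFun := by fun_prop
      continuous_invFun := by fun_prop }
  exact H.measurableEmbedding

/-- relabelling is a measurable embedding. -/
theorem rmgTH_embed_reindex {ι κ : Type} (e : κ ≃ ι) :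
    MeasurableEmbedding (fun x : κ → ℝ => x ∘ e.symm) := by
  let H : (κ → ℝ) ≃ᵐ (ι → ℝ) :=
    { toFun := fun x => x ∘ e.symm
      invFun := fun x => x ∘ e
      left_inv := fun x => by funext k; simp
      right_inv := fun x => by funext k; simp
      measurable_toFun := by
        refine measurable_pi_lambda _ fun i => ?_
        exact measurable_pi_apply (e.symm i)
      measurable_invFun := by
        refine measurable_pi_lambda _ fun i => ?_
        exact measurable_pi_apply (e i) }
  exact H.measurableEmbedding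

theorem rmgTH_det_cast {ι : Type} [Fintype ι] [DecidableEq ι] (U : Matrix ι ι ℤ) :
    (rmgCM U).det = (U.det : ℝ) := by
  have := (Int.castRingHom ℝ).map_det U
  simpa [rmgCM, RingHom.mapMatrix_apply] using this.symm

/-- **(TH1)** unimodular invariance. -/
theorem rmg_thetaUni (hG : StRmgGaugeUni) (hM : StRmgMeasMap) : StRmgThetaUni := by
  intro ι _ _ G hpd U hU q
  have hdet : (rmgCM U).det ≠ 0 := by
    rw [rmgTH_det_cast]
    exact_mod_cast hU.ne_zero
  have h1 := hM ι G (rmgCM U) hpd hdet
  unfold rmgTheta rmgMom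
  rw [← h1, (rmgTH_embed _ hdet).lintegral_map]
  refine lintegral_congr fun x => ?_
  rw [hG ι G U hU x]

/-- **(TH2)** relabelling. -/
theorem rmg_thetaReindex (hG : StRmgGaugeReindex) (hM : StRmgMeasReindex) : StRmgThetaReindex := by
  intro ι κ _ _ _ _ e G q
  have h1 := hM ι κ e G
  unfold rmgTheta rmgMom
  rw [← h1, (rmgTH_embed_reindex e).lintegral_map]
  refine lintegral_congr fun x => ?_
  rw [hG ι κ e G x]

/-- **(TH3)** scaling. -/
theorem rmg_thetaScale (hS : StRmgGaugeScale) (hN : StRmgGaugeSemi) (hM : StRmgMeasMap) :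
    StRmgThetaScale := by
  intro ι _ _ G hpd s q hs
  obtain ⟨p, hp, -⟩ := hN ι G hpd
  have hdet : (s • (1 : Matrix ι ι ℝ)).det ≠ 0 := by
    rw [Matrix.det_smul, Matrix.det_one, mul_one]
    exact pow_ne_zero _ hs.ne'
  have h1 := hM ι G (s • (1 : Matrix ι ι ℝ)) hpd hdet
  have e1 : (s • (1 : Matrix ι ι ℝ))ᵀ * G * (s • (1 : Matrix ι ι ℝ)) = s ^ 2 • G := by
    rw [Matrix.transpose_smul, Matrix.transpose_one, Matrix.smul_mul, Matrix.one_mul,
      Matrix.mul_smul, Matrix.mul_one, smul_smul, sq]
  rw [e1] at h1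
  unfold rmgTheta rmgMom
  rw [hS ι G (s ^ 2) (pow_ne_zero _ hs.ne')]
  conv_lhs => rw [← h1]
  rw [(rmgTH_embed _ hdet).lintegral_map, ← lintegral_const_mul' _ _ ENNReal.ofReal_ne_top]
  refine lintegral_congr fun x => ?_
  have e2 : (s • (1 : Matrix ι ι ℝ)) *ᵥ x = s • x := by
    rw [Matrix.smul_mulVec, Matrix.one_mulVec]
  rw [e2, ← hp, ← hp, map_smul_eq_mul, Real.norm_eq_abs, abs_of_pos hs, mul_pow,
    ENNReal.ofReal_mul (by positivity)]

end Claimed.Agent.R293
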