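/-
Row 293 (S0541), black box "Reverse Minkowski", package LPos: basic facts on seminorms of `ℝ^n`
and the standard Gaussian measure (continuity, bounds, integrability of all powers), and the
quantitative Fernique theorem of Mathlib transported to an arbitrary seminorm.
Owner: helper225.
-/
import Claimed.Agent.R293.RM.LPosDefs

set_option autoImplicit false

namespace Claimed.Agent.R293

open MeasureTheory ProbabilityTheory
open scoped RealInnerProductSpace ENNReal NNReal Real

/-- `ℝ^n` with the seminorm `N` as its norm. -/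
def RmlpX {n : ℕ} (_N : Seminorm ℝ (RmE n)) : Type := RmE n

namespace RmlpX

variable {n : ℕ} (N : Seminorm ℝ (RmE n))

/-- the identity map -/
def toX (x : RmE n) : RmlpX N := x
/-- the identity map -/
def ofX (x : RmlpX N) : RmE n := x

instance : AddCommGroup (RmlpX N) := inferInstanceAs (AddCommGroup (RmE n))
instance : Module ℝ (RmlpX N) := inferInstanceAs (Module ℝ (RmE n))

/-- the seminorm on the copy -/
noncomputable def sn : AddGroupSeminorm (RmlpX N) where
  toFun x := N (ofX N x)
  map_zero' := map_zero N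
  add_le' x y := map_add_le_add N (ofX N x) (ofX N y)
  neg' x := map_neg_eq_map N (ofX N x)

noncomputable instance : SeminormedAddCommGroup (RmlpX N) :=
  AddGroupSeminorm.toSeminormedAddCommGroup (sn N)

theorem norm_def (x : RmlpX N) : ‖x‖ = N (ofX N x) := rfl

noncomputable instance : NormedSpace ℝ (RmlpX N) :=
  ⟨fun c x => le_of_eq (map_smul_eq_mul N c (ofX N x))⟩

/-- the identity as a linear map -/
def toXl : RmE n →ₗ[ℝ] RmlpX N where
  toFun := toX N
  map_add' _ _ := rfl
  map_smul' _ _ := rfl

theorem continuous_toX : Continuous (toX N) :=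
  (toXl N).continuous_of_finiteDimensional

theorem surjective_toX : Function.Surjective (toX N) := fun x => ⟨x, rfl⟩

instance : SecondCountableTopology (RmlpX N) := by
  have : TopologicalSpace.SeparableSpace (RmlpX N) :=
    (surjective_toX N).denseRange.separableSpace (continuous_toX N)
  exact UniformSpace.secondCountable_of_separable _

noncomputable instance : MeasurableSpace (RmlpX N) := borel _
instance : BorelSpace (RmlpX N) := ⟨rfl⟩

theorem measurable_toX : Measurable (toX N) := (continuous_toX N).measurable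

/-- the Gaussian measure on the copy -/
noncomputable def gauss : Measure (RmlpX N) := (rmGauss n).map (toX N)

instance : IsProbabilityMeasure (gauss N) :=
  Measure.isProbabilityMeasure_map (measurable_toX N).aemeasurable

theorem rot_gauss :
    ((gauss N).prod (gauss N)).map (ContinuousLinearMap.rotation (-(π / 4)))
      = (gauss N).prod (gauss N) := by
  have h0 : ((rmGauss n).prod (rmGauss n)).map (ContinuousLinearMap.rotation (-(π / 4)))
      = (rmGauss n).prod (rmGauss n) :=
    IsGaussian.map_rotation_eq_self (by simp) _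
  have h1 : (gauss N).prod (gauss N)
      = ((rmGauss n).prod (rmGauss n)).map (Prod.map (toX N) (toX N)) :=
    (Measure.map_prod_map _ _ (measurable_toX N) (measurable_toX N))
  have hm : Measurable (Prod.map (toX N) (toX N)) :=
    (measurable_toX N).prodMap (measurable_toX N)
  rw [h1, Measure.map_map (by fun_prop) hm]
  conv_rhs => rw [← h0, Measure.map_map hm (by fun_prop)]
  rfl

end RmlpX

/-- Quantitative Fernique theorem for a seminorm on `ℝ^n`. -/
theorem rmlpF_exp {n : ℕ} (N : Seminorm ℝ (RmE n)) {a : ℝ} {c : ℝ≥0∞}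
    (hc : c ≤ rmGauss n {x | N x ≤ a}) (hc_gt : 2⁻¹ < c) :
    ∫⁻ x, .ofReal (Real.exp (Fernique.logRatio c * a⁻¹ ^ 2 * N x ^ 2)) ∂(rmGauss n)
      ≤ .ofReal (Real.exp (Fernique.logRatio c))
        + ∑' k : ℕ, .ofReal (Real.exp (-2⁻¹ * Real.log (c / (1 - c)).toReal * 2 ^ k)) := by
  have hset : MeasurableSet {x : RmlpX N | ‖x‖ ≤ a} := measurableSet_le (by fun_prop) (by fun_prop)
  have hc' : c ≤ RmlpX.gauss N {x | ‖x‖ ≤ a} := by
    rw [RmlpX.gauss, Measure.map_apply (RmlpX.measurable_toX N) hset]
    exact hc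
  have := lintegral_exp_mul_sq_norm_le_of_map_rotation_eq_self (RmlpX.rot_gauss N) hc' hc_gt
  rw [RmlpX.gauss, lintegral_map (by fun_prop) (RmlpX.measurable_toX N)] at this
  exact this

/-! ### Basic facts -/

theorem rmlp_continuous {n : ℕ} (N : Seminorm ℝ (RmE n)) : Continuous N :=
  continuous_norm.comp (RmlpX.continuous_toX N)

theorem rmlp_measurable {n : ℕ} (N : Seminorm ℝ (RmE n)) : Measurable N :=
  (rmlp_continuous N).measurable

theorem rmlp_exists_bound {n : ℕ} (N : Seminorm ℝ (RmE n)) : ∃ C : ℝ, 0 ≤ C ∧ ∀ x, N x ≤ C * ‖x‖ :=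
  ⟨‖LinearMap.toContinuousLinearMap (RmlpX.toXl N)‖, norm_nonneg _, fun x =>
    (LinearMap.toContinuousLinearMap (RmlpX.toXl N)).le_opNorm x⟩

theorem rmlp_integrable_norm_pow (n q : ℕ) : Integrable (fun x : RmE n => ‖x‖ ^ q) (rmGauss n) := by
  rcases Nat.eq_zero_or_pos q with rfl | hq
  · simp
  have h := IsGaussian.memLp_id (rmGauss n) (q : ℝ≥0∞) (by simp)
  have := h.integrable_norm_pow (by omega)
  simpa using this

theorem rmlp_integrable_pow {n : ℕ} (N : Seminorm ℝ (RmE n)) (q : ℕ) :
    Integrable (fun x => N x ^ q) (rmGauss n) := by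
  obtain ⟨C, hC, hb⟩ := rmlp_exists_bound N
  refine ((rmlp_integrable_norm_pow n q).const_mul (C ^ q)).mono'
    ((rmlp_measurable N).pow_const q).aestronglyMeasurable (Filter.Eventually.of_forall fun x => ?_)
  rw [Real.norm_of_nonneg (pow_nonneg (apply_nonneg N x) q), ← mul_pow]
  exact pow_le_pow_left₀ (apply_nonneg N x) (hb x) q

theorem rmlpEll_sq {n : ℕ} (N : Seminorm ℝ (RmE n)) :
    rmlpEll N ^ 2 = ∫ x, N x ^ 2 ∂(rmGauss n) :=
  Real.sq_sqrt (integral_nonneg fun _ => sq_nonneg _)

end Claimed.Agent.R293
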