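/-
Row 293 (S0541), black box "Reverse Minkowski", package GRAM, leaf RMG-LP: bridge from the package
LPos (Euclidean space, standard Gaussian) to the Gram form (`Fin n → ℝ`, density `exp(-π|z|²)`),
and the elementary facts on the constants.  Owner: helper225.
-/
import Claimed.Agent.R293.RM.GramStmts
import Claimed.Agent.R293.RM.LPosBasic

set_option autoImplicit false

namespace Claimed.Agent.R293

open MeasureTheory ProbabilityTheory Matrix
open scoped ENNReal Real

/-- the scaling factor between the two Gaussian normalisations -/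
noncomputable def rmgLPr : ℝ := (Real.sqrt (2 * π))⁻¹

theorem rmgLPr_pos : 0 < rmgLPr := by unfold rmgLPr; positivity

theorem rmgLPr_le_one : rmgLPr ≤ 1 := by
  unfold rmgLPr
  apply inv_le_one_of_one_le₀
  rw [Real.one_le_sqrt]
  have := Real.pi_gt_three
  linarith

theorem rmgLPr_sq : rmgLPr ^ 2 = 1 / (2 * π) := by
  unfold rmgLPr
  rw [inv_pow, Real.sq_sqrt (by positivity), one_div]

theorem rmgLP_Q_one {n : ℕ} (x : Fin n → ℝ) :
    rmgQ (1 : Matrix (Fin n) (Fin n) ℝ) x = ‖(WithLp.toLp 2 x : RmE n)‖ ^ 2 := by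
  unfold rmgQ rmgB
  rw [Matrix.one_mulVec, EuclideanSpace.norm_sq_eq]
  simp only [dotProduct, Real.norm_eq_abs, sq_abs]
  exact Finset.sum_congr rfl fun i _ => by ring

/-- the Gaussian measure of the form `1` is the law of `g / √(2π)`. -/
theorem rmgLP_lintegral (h2 : RmlpDensityStmt) {n : ℕ} (F : (Fin n → ℝ) → ℝ≥0∞)
    (hF : Measurable F) :
    ∫⁻ z, F z ∂(rmgMeas (1 : Matrix (Fin n) (Fin n) ℝ))
      = ∫⁻ x : RmE n, F (rmgLPr • x.ofLp) ∂(rmGauss n) := by
  set D : (Fin n → ℝ) → ℝ≥0∞ := fun x => ENNReal.ofReal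
    (Real.sqrt (1 : Matrix (Fin n) (Fin n) ℝ).det *
      Real.exp (-(π * rmgQ (1 : Matrix (Fin n) (Fin n) ℝ) x))) with hD
  have hQm : Measurable (fun x : Fin n → ℝ => rmgQ (1 : Matrix (Fin n) (Fin n) ℝ) x) := by
    have : (fun x : Fin n → ℝ => rmgQ (1 : Matrix (Fin n) (Fin n) ℝ) x)
        = fun x => ∑ i, x i * x i := by
      funext x
      unfold rmgQ rmgB
      rw [Matrix.one_mulVec]
      rfl
    rw [this]
    fun_prop
  have hDm : Measurable D := by
    rw [hD]
    fun_prop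
  set d : RmE n → ℝ≥0∞ := fun x => ENNReal.ofReal
    ((Real.sqrt (2 * π))⁻¹ ^ n * Real.exp (-‖x‖ ^ 2 / 2)) with hd
  have hdm : Measurable d := by
    rw [hd]
    fun_prop
  have hofLp : Measurable (WithLp.ofLp : RmE n → Fin n → ℝ) :=
    (PiLp.volume_preserving_ofLp (Fin n)).measurable
  have htoLp : Measurable (WithLp.toLp 2 : (Fin n → ℝ) → RmE n) :=
    (PiLp.volume_preserving_toLp (Fin n)).measurable
  have hr0 : rmgLPr ≠ 0 := rmgLPr_pos.ne'
  -- left-hand side
  have hL : ∫⁻ z, F z ∂(rmgMeas (1 : Matrix (Fin n) (Fin n) ℝ)) = ∫⁻ z, (D * F) z := by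
    unfold rmgMeas
    exact lintegral_withDensity_eq_lintegral_mul _ hDm hF
  -- right-hand side
  have hR1 : ∫⁻ x : RmE n, F (rmgLPr • x.ofLp) ∂(rmGauss n)
      = ∫⁻ x : RmE n, (d * fun x : RmE n => F (rmgLPr • x.ofLp)) x := by
    rw [h2 n]
    exact lintegral_withDensity_eq_lintegral_mul _ hdm (by fun_prop)
  have hR2 : ∫⁻ x : RmE n, (d * fun x : RmE n => F (rmgLPr • x.ofLp)) x
      = ∫⁻ y : Fin n → ℝ, d (WithLp.toLp 2 y) * F (rmgLPr • y) := by
    rw [← (PiLp.volume_preserving_toLp (Fin n)).lintegral_comp (by fun_prop)]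
    rfl
  have hpt : ∀ y : Fin n → ℝ, d (WithLp.toLp 2 y) * F (rmgLPr • y)
      = ENNReal.ofReal (rmgLPr ^ n) * (D * F) (rmgLPr • y) := by
    intro y
    have e1 : d (WithLp.toLp 2 y) = ENNReal.ofReal (rmgLPr ^ n) * D (rmgLPr • y) := by
      rw [hd, hD]
      simp only
      rw [← ENNReal.ofReal_mul (by have := rmgLPr_pos; positivity)]
      congr 1
      rw [Matrix.det_one, Real.sqrt_one, one_mul, rmgLP_Q_one, WithLp.toLp_smul, norm_smul,
        Real.norm_of_nonneg rmgLPr_pos.le, mul_pow, rmgLPr_sq]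
      have : -(π * (1 / (2 * π) * ‖(WithLp.toLp 2 y : RmE n)‖ ^ 2))
          = -‖(WithLp.toLp 2 y : RmE n)‖ ^ 2 / 2 := by
        have := Real.pi_pos
        field_simp
      rw [this]
      rfl
    rw [e1, Pi.mul_apply, mul_assoc]
  have hsc : ∫⁻ y : Fin n → ℝ, (D * F) (rmgLPr • y)
      = ENNReal.ofReal |(rmgLPr ^ n)⁻¹| * ∫⁻ z, (D * F) z := by
    have hmap := Measure.map_addHaar_smul (volume : Measure (Fin n → ℝ)) hr0
    rw [Module.finrank_fin_fun] at hmap
    have hm : Measurable (D * F) := hDm.mul hF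
    calc ∫⁻ y : Fin n → ℝ, (D * F) (rmgLPr • y)
        = ∫⁻ z, (D * F) z ∂(Measure.map (fun y : Fin n → ℝ => rmgLPr • y) volume) :=
          (lintegral_map hm (by fun_prop)).symm
      _ = _ := by rw [hmap, lintegral_smul_measure]; rfl
  rw [hL, hR1, hR2]
  simp_rw [hpt]
  have hmc : Measurable (fun y : Fin n → ℝ => (D * F) (rmgLPr • y)) :=
    (hDm.mul hF).comp (by fun_prop)
  rw [lintegral_const_mul _ hmc, hsc, ← mul_assoc,
    ← ENNReal.ofReal_mul (by have := rmgLPr_pos; positivity)]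
  have : rmgLPr ^ n * |(rmgLPr ^ n)⁻¹| = 1 := by
    have h := rmgLPr_pos
    rw [abs_of_pos (by positivity)]
    field_simp
  rw [this, ENNReal.ofReal_one, one_mul]

/-- **(LP)** the bridge. -/
theorem rmg_lpos (h1 : RmlpMainStmt) (h2 : RmlpDensityStmt) : StRmgLPos := by
  intro n hn p hp hvol
  let e : RmE n ≃ₗ[ℝ] (Fin n → ℝ) := WithLp.linearEquiv 2 ℝ (Fin n → ℝ)
  have he : ∀ x : RmE n, e x = x.ofLp := fun _ => rfl
  have hes : ∀ y : Fin n → ℝ, e.symm y = WithLp.toLp 2 y := fun _ => rfl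
  let N : Seminorm ℝ (RmE n) := p.comp e.toLinearMap
  have hNx : ∀ x, N x = p x.ofLp := fun _ => rfl
  have hN : RmlpIsNorm N := by
    intro x hx
    have := hp _ hx
    exact e.injective (by rw [map_zero]; exact this)
  have htoLp : Continuous (WithLp.toLp 2 : (Fin n → ℝ) → RmE n) := by fun_prop
  have hpc : Continuous p := by
    have : (p : (Fin n → ℝ) → ℝ) = fun y => N (WithLp.toLp 2 y) := by
      funext y; rfl
    rw [this]
    exact (rmlp_continuous N).comp htoLp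
  have hset : MeasurableSet {y : Fin n → ℝ | p y ≤ 1} :=
    measurableSet_le hpc.measurable measurable_const
  have hvolN : 1 ≤ volume {x | N x ≤ 1} := by
    have : {x | N x ≤ 1} = (WithLp.ofLp : RmE n → Fin n → ℝ) ⁻¹' {y | p y ≤ 1} := rfl
    rw [this, (PiLp.volume_preserving_ofLp (Fin n)).measure_preimage hset.nullMeasurableSet]
    exact hvol
  obtain ⟨B, hdet, hB⟩ := h1 n hn N hN hvolN
  let f : (Fin n → ℝ) →ₗ[ℝ] (Fin n → ℝ) := e.toLinearMap ∘ₗ B ∘ₗ e.symm.toLinearMap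
  refine ⟨LinearMap.toMatrix' f, ?_, ?_⟩
  · rw [LinearMap.det_toMatrix']
    have : f = (e : RmE n ≃ₗ[ℝ] (Fin n → ℝ)) ∘ₗ B ∘ₗ (e.symm : (Fin n → ℝ) →ₗ[ℝ] RmE n) := rfl
    rw [this, LinearMap.det_conj, hdet]
  intro q hq
  have hmul : ∀ z : Fin n → ℝ, LinearMap.toMatrix' f *ᵥ z = f z := fun z => by
    rw [← LinearMap.toMatrix'_mulVec]
  have hFm : Measurable (fun z : Fin n → ℝ =>
      ENNReal.ofReal (p (LinearMap.toMatrix' f *ᵥ z) ^ q)) := by
    have hc : Continuous (fun z : Fin n → ℝ => LinearMap.toMatrix' f *ᵥ z) := by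
      simp_rw [hmul]
      exact f.continuous_of_finiteDimensional
    exact ((hpc.comp hc).measurable.pow_const q).ennreal_ofReal
  unfold rmgPsi rmgMom
  rw [rmgLP_lintegral h2 _ hFm]
  have hpt : ∀ x : RmE n, p (LinearMap.toMatrix' f *ᵥ (rmgLPr • x.ofLp)) ^ q
      = rmgLPr ^ q * N (B x) ^ q := by
    intro x
    rw [hmul, map_smul, map_smul_eq_mul, Real.norm_of_nonneg rmgLPr_pos.le, mul_pow]
    rfl
  simp_rw [hpt]
  have hint : Integrable (fun x => rmgLPr ^ q * N (B x) ^ q) (rmGauss n) :=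
    (rmlp_integrable_pow (N.comp B) q).const_mul _
  rw [← ofReal_integral_eq_lintegral_ofReal hint (Filter.Eventually.of_forall fun x => by
    have := rmgLPr_pos
    have := apply_nonneg N (B x)
    positivity)]
  apply ENNReal.ofReal_le_ofReal
  rw [integral_const_mul]
  have h0 : 0 ≤ ∫ x, N (B x) ^ q ∂(rmGauss n) :=
    integral_nonneg fun x => pow_nonneg (apply_nonneg N _) q
  calc rmgLPr ^ q * ∫ x, N (B x) ^ q ∂(rmGauss n) ≤ 1 * ∫ x, N (B x) ^ q ∂(rmGauss n) := by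
        gcongr
        exact pow_le_one₀ rmgLPr_pos.le rmgLPr_le_one
    _ = ∫ x, N (B x) ^ q ∂(rmGauss n) := one_mul _
    _ ≤ _ := hB q hq

/-! ### The constants -/

theorem rmgLP_M_mono {k n : ℕ} (h : k ≤ n) : rmlpM k ≤ rmlpM n := by
  unfold rmlpM
  exact Nat.add_le_add_right (Nat.clog_mono_right 2 h) 1

theorem rmgLP_K_mono {k n : ℕ} (hk : 1 ≤ k) (h : k ≤ n) : rmlpK k ≤ rmlpK n := by
  unfold rmlpK
  have h1 : (rmlpM k : ℝ) ≤ rmlpM n := by exact_mod_cast rmgLP_M_mono h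
  have hk0 : (1 : ℝ) ≤ k := by exact_mod_cast hk
  have hkn : (k : ℝ) ≤ n := by exact_mod_cast h
  have h2 : Real.log (2 * k) ≤ Real.log (2 * n) := Real.log_le_log (by linarith) (by linarith)
  have h3 : 0 ≤ Real.log (2 * k) := Real.log_nonneg (by linarith)
  gcongr

/-- **(LP')** monotonicity of the constant. -/
theorem rmlpConst_mono : StRmlpConstMono := by
  intro k n hk h
  unfold rmlpConst
  have := rmgLP_K_mono hk h
  linarith

theorem rmgLP_M_le {n : ℕ} (hn : 1 ≤ n) : (rmlpM n : ℝ) ≤ 4 * Real.log (n + 2) := by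
  have hn1 : (1 : ℝ) ≤ n := by exact_mod_cast hn
  have hlog2 : 0 < Real.log 2 := Real.log_pos (by norm_num)
  have hL : 1 ≤ Real.log (n + 2) := by
    rw [Real.le_log_iff_exp_le (by linarith)]
    have := Real.exp_one_lt_d9
    linarith
  have hln : Real.log n ≤ Real.log (n + 2) := Real.log_le_log (by linarith) (by linarith)
  have hln0 : 0 ≤ Real.log n := Real.log_nonneg hn1
  -- `clog 2 n ≤ ⌈log n / log 2⌉`
  have h1 : Nat.clog 2 n ≤ ⌈Real.log n / Real.log 2⌉₊ := by
    apply Nat.clog_le_of_le_pow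
    have : (n : ℝ) ≤ 2 ^ ⌈Real.log n / Real.log 2⌉₊ := by
      have e1 : (2 : ℝ) ^ ⌈Real.log n / Real.log 2⌉₊
          = Real.exp (⌈Real.log n / Real.log 2⌉₊ * Real.log 2) := by
        rw [Real.exp_nat_mul, Real.exp_log (by norm_num)]
      rw [e1, ← Real.log_le_iff_le_exp (by linarith)]
      have := Nat.le_ceil (Real.log n / Real.log 2)
      rwa [div_le_iff₀ hlog2] at this
    exact_mod_cast this
  have h2 : (⌈Real.log n / Real.log 2⌉₊ : ℝ) < Real.log n / Real.log 2 + 1 :=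
    Nat.ceil_lt_add_one (by positivity)
  have h3 : Real.log n / Real.log 2 ≤ 2 * Real.log n := by
    rw [div_le_iff₀ hlog2]
    have := Real.log_two_gt_d9
    nlinarith
  have h4 : (Nat.clog 2 n : ℝ) ≤ ⌈Real.log n / Real.log 2⌉₊ := by exact_mod_cast h1
  unfold rmlpM
  push_cast
  linarith

theorem rmgLP_K_le {n : ℕ} (hn : 1 ≤ n) : rmlpK n ≤ 480 * Real.log (n + 2) ^ 3 := by
  have hn1 : (1 : ℝ) ≤ n := by exact_mod_cast hn
  have hL : 1 ≤ Real.log (n + 2) := by
    rw [Real.le_log_iff_exp_le (by linarith)]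
    have := Real.exp_one_lt_d9
    linarith
  set L := Real.log (n + 2) with hLdef
  have hM := rmgLP_M_le hn
  have hM0 : (0 : ℝ) ≤ rmlpM n := Nat.cast_nonneg _
  have h2 : Real.log (2 * n) ≤ 2 * L := by
    have e : Real.log (2 * n) = Real.log 2 + Real.log n := Real.log_mul (by norm_num) (by linarith)
    have h3 : Real.log n ≤ L := Real.log_le_log (by linarith) (by linarith)
    have h4 : Real.log 2 ≤ L := Real.log_le_log (by norm_num) (by linarith)
    linarith
  have h20 : 0 ≤ Real.log (2 * n) := Real.log_nonneg (by linarith)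
  unfold rmlpK
  calc 3 * (rmlpM n : ℝ) * ((rmlpM n : ℝ) + 1) * (4 * Real.log (2 * n))
      ≤ 3 * (4 * L) * (5 * L) * (4 * (2 * L)) := by
        gcongr
        linarith
    _ = 480 * L ^ 3 := by ring

theorem rmgLP_K_ge {n : ℕ} (hn : 1 ≤ n) : 1 ≤ rmlpK n := by
  have hn1 : (1 : ℝ) ≤ n := by exact_mod_cast hn
  have hM : (1 : ℝ) ≤ rmlpM n := by
    have : 1 ≤ rmlpM n := by unfold rmlpM; omega
    exact_mod_cast this
  have h2 : Real.log 2 ≤ Real.log (2 * n) := Real.log_le_log (by norm_num) (by linarith)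
  have h3 := Real.log_two_gt_d9
  unfold rmlpK
  have h4 : (1 : ℝ) ≤ 4 * Real.log (2 * n) := by linarith
  have h5 : (1 : ℝ) ≤ 3 * (rmlpM n : ℝ) * ((rmlpM n : ℝ) + 1) := by nlinarith
  calc (1 : ℝ) = 1 * 1 := (one_mul 1).symm
    _ ≤ _ := mul_le_mul h5 h4 (by norm_num) (by linarith)

/-- the scale of the Reverse Minkowski theorem is polylogarithmic. -/
theorem rmg_tauBound : StRmgTauBound := by
  refine ⟨3 * (30 * (300 * 480)) * 2, by norm_num, ?_⟩
  intro n hn
  have hn1 : (1 : ℝ) ≤ n := by exact_mod_cast hn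
  have hL : 1 ≤ Real.log (n + 2) := by
    rw [Real.le_log_iff_exp_le (by linarith)]
    have := Real.exp_one_lt_d9
    linarith
  set L := Real.log (n + 2) with hLdef
  have hK1 := rmgLP_K_ge hn
  have hK2 := rmgLP_K_le hn
  have he1 : 1 ≤ Real.exp 1 := Real.one_le_exp (by norm_num)
  have he2 : Real.exp 1 ≤ 3 := by have := Real.exp_one_lt_d9; linarith
  have hE1 : (1 : ℝ) ≤ rmgExp n := by
    have : 1 ≤ rmgExp n := by unfold rmgExp; omega
    exact_mod_cast this
  have hE2 : (rmgExp n : ℝ) ≤ 4 * L := by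
    unfold rmgExp
    push_cast
    have h1 : (⌈Real.log ((n : ℝ) + 1)⌉₊ : ℝ) < Real.log ((n : ℝ) + 1) + 1 :=
      Nat.ceil_lt_add_one (Real.log_nonneg (by linarith))
    have h2 : Real.log ((n : ℝ) + 1) ≤ L := Real.log_le_log (by linarith) (by linarith)
    linarith
  have hs1 : 1 ≤ Real.sqrt (rmgExp n) := Real.one_le_sqrt.mpr hE1
  have hs2 : Real.sqrt (rmgExp n) ≤ 2 * L := by
    rw [Real.sqrt_le_left (by linarith)]
    nlinarith
  have hC1 : 1 ≤ rmlpConst n := by unfold rmlpConst; linarith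
  have hC2 : rmlpConst n ≤ 30 * (300 * 480) * L ^ 3 := by unfold rmlpConst; linarith
  unfold rmgTau
  constructor
  · calc (1 : ℝ) = 1 * (1 * 1) := by norm_num
      _ ≤ Real.exp 1 * (rmlpConst n * Real.sqrt (rmgExp n)) := by gcongr
  · calc Real.exp 1 * (rmlpConst n * Real.sqrt (rmgExp n))
        ≤ 3 * (30 * (300 * 480) * L ^ 3 * (2 * L)) := by gcongr
      _ = 3 * (30 * (300 * 480)) * 2 * L ^ 4 := by ring

end Claimed.Agent.R293
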