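/-
Row 293 (S0541), Reverse Minkowski, package GRAM, leaf RMG-TR (owner helper38):
transfer of the Gram form `StRmGram` to Euclidean lattices (`LatDefs.lean`).
-/
import Claimed.Agent.R293.RM.GramMain
import Claimed.Agent.R293.LatBasic

set_option autoImplicit false

namespace Claimed.Agent.R293

open Matrix Submodule
open scoped RealInnerProductSpace

section
variable {E : Type*} [NormedAddCommGroup E] [InnerProductSpace ℝ E]

/-- the quadratic form of a Gram matrix. -/
theorem rmgTR_Q_gram {ι : Type*} [Fintype ι] (b : ι → E) (x : ι → ℝ) :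
    rmgQ (Matrix.gram ℝ b) x = ‖∑ i, x i • b i‖ ^ 2 := by
  unfold rmgQ rmgB
  have h := Matrix.star_dotProduct_gram_mulVec (𝕜 := ℝ) b x x
  rw [star_trivial, real_inner_self_eq_norm_sq] at h
  exact h

theorem rmgTR_Q_smul {ι : Type*} [Fintype ι] (c : ℝ) (G : Matrix ι ι ℝ) (x : ι → ℝ) :
    rmgQ (c • G) x = c * rmgQ G x := by
  unfold rmgQ rmgB
  rw [smul_mulVec, dotProduct_smul, smul_eq_mul]

/-- the sublattice Gram matrix of a Gram matrix is the Gram matrix of the integer combinations. -/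
theorem rmgTR_sub_gram {ι κ : Type*} [Fintype ι] (b : ι → E) (Z : Matrix ι κ ℤ) :
    rmgSub (Matrix.gram ℝ b) Z = Matrix.gram ℝ (fun j : κ => ∑ i, (Z i j : ℝ) • b i) := by
  have h := lat_gram_combo (rmgCM Z)ᵀ b
  unfold rmgSub
  rw [transpose_transpose] at h
  rw [← h]
  rfl

theorem rmgTR_sub_smul {ι κ : Type*} [Fintype ι] (c : ℝ) (G : Matrix ι ι ℝ) (Z : Matrix ι κ ℤ) :
    rmgSub (c • G) Z = c • rmgSub G Z := by
  unfold rmgSub
  rw [Matrix.mul_smul, Matrix.smul_mul]

/-- integer combinations with independent coefficient columns of an independent family are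
independent. -/
theorem rmgTR_indep {ι κ : Type*} [Fintype ι] [Fintype κ] {b : ι → E}
    (hb : LinearIndependent ℝ b) {Z : Matrix ι κ ℤ} (hZ : RmgIndep Z) :
    LinearIndependent ℝ (fun j : κ => ∑ i, (Z i j : ℝ) • b i) := by
  rw [Fintype.linearIndependent_iff]
  intro g hg
  have h1 : ∑ i, (∑ j, g j * (Z i j : ℝ)) • b i = 0 := by
    rw [← hg]
    simp only [Finset.smul_sum, Finset.sum_smul, smul_smul]
    exact Finset.sum_comm
  have h2 := Fintype.linearIndependent_iff.mp hb _ h1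
  refine Fintype.linearIndependent_iff.mp hZ g ?_
  funext i
  simpa [rmgC, Finset.sum_apply] using h2 i

/-- **Reverse Minkowski**, form without lattice vocabulary. -/
theorem rm_family (h : StRmGram) {r : ℕ} (b : Fin r → E) (hb : LinearIndependent ℝ b) (T : ℝ)
    (hT : 0 < T)
    (hdet : ∀ (k : ℕ) (c : Fin k → E), (∀ i, c i ∈ span ℤ (Set.range b)) → LinearIndependent ℝ c →
      T ^ (2 * k) ≤ gramDet c) :
    ∑' z : Fin r → ℤ, Real.exp (-(Real.pi * ‖∑ i, (z i : ℝ) • b i‖ ^ 2 / (T / rmgTau r) ^ 2))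
      ≤ 3 / 2 := by
  have hT2 : 0 < (T ^ 2)⁻¹ := by positivity
  have hPD : ((T ^ 2)⁻¹ • Matrix.gram ℝ b).PosDef :=
    (Matrix.posDef_gram_of_linearIndependent hb).smul hT2
  have hD1 : RmgDet1 ((T ^ 2)⁻¹ • Matrix.gram ℝ b) := by
    intro k Z hZ
    rw [rmgTR_sub_smul, rmgTR_sub_gram, det_smul, Fintype.card_fin]
    have h1 := hdet k (fun j => ∑ i, (Z i j : ℝ) • b i) (fun j => by
      simp only [Int.cast_smul_eq_zsmul]
      exact Submodule.sum_mem _ fun i _ => Submodule.smul_mem _ _ (subset_span ⟨i, rfl⟩))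
      (rmgTR_indep hb hZ)
    unfold gramDet at h1
    rw [inv_pow, ← pow_mul]
    rw [← div_eq_inv_mul, le_div_iff₀ (by positivity), one_mul]
    exact h1
  have h2 := h r _ hPD hD1
  unfold rmgRho at h2
  refine le_of_eq_of_le ?_ h2
  refine tsum_congr fun z => ?_
  rw [rmgTR_Q_smul, rmgTR_Q_gram]
  congr 2
  simp only [rmgC, div_pow]
  rw [div_div_eq_mul_div]
  ring

/-- the parametrisation of a lattice by integer coordinates. -/
noncomputable def rmgTR_equiv {r : ℕ} {b : Fin r → E} {L : Submodule ℤ E} (hb : IsLatBasis b L) :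
    (Fin r → ℤ) ≃ L :=
  Equiv.ofBijective (fun z => ⟨∑ i, (z i : ℝ) • b i, lat_combo_mem (lat_basis_mem hb) z⟩) (by
    constructor
    · intro z w hzw
      have h1 : ∑ i, (z i : ℝ) • b i = ∑ i, (w i : ℝ) • b i := congrArg Subtype.val hzw
      have h2 : ∑ i, ((z i : ℝ) - (w i : ℝ)) • b i = 0 := by
        simp only [sub_smul, Finset.sum_sub_distrib, h1, sub_self]
      funext i
      have h3 := Fintype.linearIndependent_iff.mp hb.1 _ h2 i
      exact_mod_cast sub_eq_zero.mp h3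
    · rintro ⟨x, hx⟩
      obtain ⟨a, ha⟩ := lat_exists_coeff hb hx
      exact ⟨a, Subtype.ext ha.symm⟩)

theorem rmgTR_equiv_coe {r : ℕ} {b : Fin r → E} {L : Submodule ℤ E} (hb : IsLatBasis b L)
    (z : Fin r → ℤ) : ((rmgTR_equiv hb z : L) : E) = ∑ i, (z i : ℝ) • b i := rfl

/-- Gaussian mass in integer coordinates. -/
theorem rmgTR_gaussMass {r : ℕ} {b : Fin r → E} {L : Submodule ℤ E} (hb : IsLatBasis b L) (s : ℝ) :
    gaussMass s L
      = ∑' z : Fin r → ℤ, Real.exp (-(Real.pi * ‖∑ i, (z i : ℝ) • b i‖ ^ 2 / s ^ 2)) := by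
  unfold gaussMass
  rw [← (rmgTR_equiv hb).tsum_eq]
  rfl

/-- **Reverse Minkowski** for Euclidean lattices. -/
theorem rm_lat (h : StRmGram) (L : Submodule ℤ E) (T : ℝ) (hL : IsLat L) (hT : 0 < T)
    (hdet : DetLB T L) : gaussMass (T / rmgTau (latRank L)) L ≤ 3 / 2 := by
  obtain ⟨r, b, hb⟩ := hL
  rw [lat_rank_eq hb, rmgTR_gaussMass hb]
  refine rm_family h b hb.1 T hT fun k c hc hli => ?_
  have hcb := lat_isLatBasis_span hli
  have hle : span ℤ (Set.range c) ≤ L := by
    rw [span_le]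
    rintro _ ⟨i, rfl⟩
    have := hc i
    rwa [hb.2] at this
  have h1 := hdet _ hle
  rw [lat_rank_eq hcb] at h1
  rw [← lat_det_sq hcb, mul_comm, pow_mul]
  exact pow_le_pow_left₀ (pow_nonneg hT.le k) h1 2

end

end Claimed.Agent.R293
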