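/-
Row 293 (S0541), Reverse Minkowski: the forms consumed by COV / INT / LAT.  Owner: helper140.
`rmTau` = monotone version of the loss, `CovTauOK rmTau`, ball count `StRMBall rmTau`.
-/
import Claimed.Agent.R293.RM.GramTransfer
import Claimed.Agent.R293.RM.GramLPos
import Claimed.Agent.R293.RM.GramMass
import Claimed.Agent.R293.CovIface

set_option autoImplicit false

namespace Claimed.Agent.R293

open Matrix Submodule
open scoped RealInnerProductSpace

/-- the loss in Reverse Minkowski, made `≥ 1` also in rank zero. -/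
noncomputable def rmTau (j : ℕ) : ℝ := rmgTau (max j 1)

theorem rmTau_of_pos {j : ℕ} (hj : 1 ≤ j) : rmTau j = rmgTau j := by
  unfold rmTau
  rw [max_eq_left hj]

theorem rmgExp_mono {k n : ℕ} (h : k ≤ n) : rmgExp k ≤ rmgExp n := by
  unfold rmgExp
  have h1 : Real.log ((k : ℝ) + 1) ≤ Real.log ((n : ℝ) + 1) := by
    apply Real.log_le_log (by positivity)
    have : (k : ℝ) ≤ n := by exact_mod_cast h
    linarith
  have := Nat.ceil_mono h1
  omega

theorem rmgTau_mono {k n : ℕ} (hk : 1 ≤ k) (h : k ≤ n) : rmgTau k ≤ rmgTau n := by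
  unfold rmgTau
  have h1 := rmlpConst_mono k n hk h
  have h2 : Real.sqrt (rmgExp k) ≤ Real.sqrt (rmgExp n) :=
    Real.sqrt_le_sqrt (by exact_mod_cast rmgExp_mono h)
  have h3 := rmlpConst_nonneg hk
  have h4 := rmlpConst_nonneg (hk.trans h)
  have : rmlpConst k * Real.sqrt (rmgExp k) ≤ rmlpConst n * Real.sqrt (rmgExp n) :=
    mul_le_mul h1 h2 (Real.sqrt_nonneg _) h4
  exact mul_le_mul_of_nonneg_left this (Real.exp_pos 1).le

theorem rmTau_mono : Monotone rmTau := by
  intro k n h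
  unfold rmTau
  exact rmgTau_mono (le_max_right _ _) (max_le_max h le_rfl)

theorem rmTau_one_le (j : ℕ) : 1 ≤ rmTau j := by
  obtain ⟨C, -, hC⟩ := rmg_tauBound
  exact (hC (max j 1) (le_max_right _ _)).1

/-- the loss is monotone, `≥ 1` and polylogarithmic. -/
theorem rmTau_ok : CovTauOK rmTau := by
  refine ⟨rmTau_mono, rmTau_one_le, ?_⟩
  obtain ⟨C, hC0, hC⟩ := rmg_tauBound
  refine ⟨C * 2 ^ 4, 4, fun j => ?_⟩
  have h1 := (hC (max j 1) (le_max_right _ _)).2
  unfold rmTau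
  refine h1.trans ?_
  have h2 : Real.log (((max j 1 : ℕ) : ℝ) + 2) ≤ 2 * Real.log ((j : ℝ) + 2) := by
    have h3 : (((max j 1 : ℕ) : ℝ) + 2) ≤ ((j : ℝ) + 2) ^ 2 := by
      have : ((max j 1 : ℕ) : ℝ) ≤ (j : ℝ) + 1 := by
        have : max j 1 ≤ j + 1 := by omega
        exact_mod_cast this
      have hj : (0 : ℝ) ≤ j := Nat.cast_nonneg j
      nlinarith
    calc Real.log (((max j 1 : ℕ) : ℝ) + 2) ≤ Real.log (((j : ℝ) + 2) ^ 2) :=
          Real.log_le_log (by positivity) h3
      _ = 2 * Real.log ((j : ℝ) + 2) := by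
          rw [Real.log_pow]
          norm_num
  have h4 : 0 ≤ Real.log (((max j 1 : ℕ) : ℝ) + 2) := Real.log_nonneg (by
    have : (0 : ℝ) ≤ ((max j 1 : ℕ) : ℝ) := Nat.cast_nonneg _
    linarith)
  calc C * Real.log (((max j 1 : ℕ) : ℝ) + 2) ^ 4 ≤ C * (2 * Real.log ((j : ℝ) + 2)) ^ 4 := by
        gcongr
    _ = C * 2 ^ 4 * Real.log ((j : ℝ) + 2) ^ 4 := by ring

section
variable {E : Type*} [NormedAddCommGroup E] [InnerProductSpace ℝ E]

/-- summability of the Gaussian sum over a lattice. -/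
theorem rm_summable_gauss {L : Submodule ℤ E} (hL : IsLat L) {s : ℝ} (hs : 0 < s) :
    Summable fun x : L => Real.exp (-(Real.pi * ‖(x : E)‖ ^ 2 / s ^ 2)) := by
  obtain ⟨r, b, hb⟩ := hL
  rw [← (rmgTR_equiv hb).summable_iff]
  have hG : (Matrix.gram ℝ b).PosDef := Matrix.posDef_gram_of_linearIndependent hb.1
  have h := rmg_summable (Fin r) (Matrix.gram ℝ b) hG s⁻¹ (by positivity)
  refine h.congr fun z => ?_
  simp only [Function.comp_apply, rmgTR_equiv_coe]
  rw [rmgTR_Q_gram]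
  congr 2
  simp only [rmgC]
  field_simp

/-- **Reverse Minkowski, Gaussian mass form with the monotone loss.** -/
theorem rm_lat_tau (h : StRmGram) (L : Submodule ℤ E) (T : ℝ) (hL : IsLat L) (hT : 0 < T)
    (hdet : DetLB T L) (hr : 1 ≤ latRank L) : gaussMass (T / rmTau (latRank L)) L ≤ 3 / 2 := by
  rw [rmTau_of_pos hr]
  exact rm_lat h L T hL hT hdet

/-- **Reverse Minkowski, ball count**, any real inner product space. -/
theorem rm_ball_count (h : StRmGram) (L : Submodule ℤ E) (T R : ℝ) (hL : IsLat L) (hT : 0 < T)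
    (hdet : DetLB T L) (_hR : 0 ≤ R) :
    cardLE {x | x ∈ L ∧ ‖x‖ ≤ R}
      ((3 / 2) * Real.exp (Real.pi * R ^ 2 * rmTau (latRank L) ^ 2 / T ^ 2)) := by
  intro S hS
  have hτ : 0 < rmTau (latRank L) := lt_of_lt_of_le one_pos (rmTau_one_le _)
  set s := T / rmTau (latRank L) with hs_def
  have hs : 0 < s := div_pos hT hτ
  have hmass : gaussMass s L ≤ 3 / 2 := by
    rcases Nat.eq_zero_or_pos (latRank L) with h0 | hpos
    · -- rank zero: the lattice is trivial
      obtain ⟨r, b, hb⟩ := hL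
      have hr : r = 0 := by rw [← lat_rank_eq hb, h0]
      subst hr
      rw [rmgTR_gaussMass hb, tsum_fintype]
      simp
      norm_num
    · exact rm_lat_tau h L T hL hT hdet hpos
  have hsum := rm_summable_gauss hL hs
  -- the finite set as a finite set of lattice points
  have hmem : ∀ x ∈ S, x ∈ L := fun x hx => (hS hx).1
  let S' : Finset L := S.attach.map ⟨fun x => ⟨x.1, hmem x.1 x.2⟩, fun x y hxy => by
    apply Subtype.ext
    exact congrArg (fun z : L => (z : E)) hxy⟩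
  have hcard : S'.card = S.card := by simp [S']
  have h1 : ∑ x ∈ S', Real.exp (-(Real.pi * ‖(x : E)‖ ^ 2 / s ^ 2)) ≤ gaussMass s L :=
    hsum.sum_le_tsum S' (fun x _ => (Real.exp_pos _).le)
  have h2 : (S'.card : ℝ) * Real.exp (-(Real.pi * R ^ 2 / s ^ 2))
      ≤ ∑ x ∈ S', Real.exp (-(Real.pi * ‖(x : E)‖ ^ 2 / s ^ 2)) := by
    rw [← nsmul_eq_mul]
    apply Finset.card_nsmul_le_sum
    intro x hx
    simp only [S', Finset.mem_map, Finset.mem_attach, true_and] at hx
    obtain ⟨y, rfl⟩ := hx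
    have hy : ‖(y : E)‖ ≤ R := (hS y.2).2
    apply Real.exp_le_exp.mpr
    have hpi := Real.pi_pos
    simp only [neg_le_neg_iff]
    gcongr
    exact hy
  have h3 : (S.card : ℝ) * Real.exp (-(Real.pi * R ^ 2 / s ^ 2)) ≤ 3 / 2 := by
    rw [← hcard]
    exact h2.trans (h1.trans hmass)
  have h4 : Real.pi * R ^ 2 * rmTau (latRank L) ^ 2 / T ^ 2 = Real.pi * R ^ 2 / s ^ 2 := by
    rw [hs_def]
    field_simp
  rw [h4]
  have h5 : (S.card : ℝ) = (S.card : ℝ) * Real.exp (-(Real.pi * R ^ 2 / s ^ 2))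
      * Real.exp (Real.pi * R ^ 2 / s ^ 2) := by
    rw [mul_assoc, ← Real.exp_add]
    simp
  rw [h5]
  exact mul_le_mul_of_nonneg_right h3 (Real.exp_pos _).le

end

/-- the form used by COV. -/
theorem rm_ball (h : StRmGram) : StRMBall rmTau :=
  fun _ L T R hL hT hdet hR => rm_ball_count h L T R hL hT hdet hR

end Claimed.Agent.R293
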