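/-
Row 293 (S0541): **Reverse Minkowski theorem (polylogarithmic loss), unconditional.**
Assembly of all leaves of the packages GRAM and LPos via route I.  Owner: helper140.
-/
import Claimed.Agent.R293.RM.GramStepA
import Claimed.Agent.R293.RM.GramNormalize
import Claimed.Agent.R293.RM.GramGaugeA
import Claimed.Agent.R293.RM.GramGaugeB
import Claimed.Agent.R293.RM.GramFDA
import Claimed.Agent.R293.RM.GramFDB
import Claimed.Agent.R293.RM.GramMeasA
import Claimed.Agent.R293.RM.GramMeasB
import Claimed.Agent.R293.RM.GramMeasC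
import Claimed.Agent.R293.RM.GramMass
import Claimed.Agent.R293.RM.GramCompare
import Claimed.Agent.R293.RM.GramSplit
import Claimed.Agent.R293.RM.GramTheta
import Claimed.Agent.R293.RM.GramDetA
import Claimed.Agent.R293.RM.GramDetC
import Claimed.Agent.R293.RM.GramSNF
import Claimed.Agent.R293.RM.GramReduce
import Claimed.Agent.R293.RM.GramHermite
import Claimed.Agent.R293.RM.GramMaxA
import Claimed.Agent.R293.RM.GramMaxB
import Claimed.Agent.R293.RM.GramInA
import Claimed.Agent.R293.RM.GramInterior
import Claimed.Agent.R293.RM.GramLPosFinal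
import Claimed.Agent.R293.RM.RmBall

set_option autoImplicit false

namespace Claimed.Agent.R293

theorem rmgF_vorFD : StRmgVorFD := rmg_vorFD rmg_coercive rmg_vor

theorem rmgF_vorMax : StRmgVorMax := rmg_vorMax rmgF_vorFD rmg_vor

theorem rmgF_compare : StRmgCompare :=
  rmg_compare rmgF_vorMax rmg_measMap rmg_measProb rmg_gaugeScale rmg_gaugeSemi

theorem rmgF_splitFD : StRmgSplitFD := rmg_splitFD rmgF_vorFD

theorem rmgF_split : StRmgSplit :=
  rmg_split rmgF_splitFD rmg_measBlock rmg_blockPD rmgF_compare rmg_gaugeSemi rmg_measProb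

theorem rmgF_thetaUni : StRmgThetaUni := rmg_thetaUni rmg_gaugeUni rmg_measMap

theorem rmgF_thetaReindex : StRmgThetaReindex := rmg_thetaReindex rmg_gaugeReindex rmg_measReindex

theorem rmgF_thetaScale : StRmgThetaScale := rmg_thetaScale rmg_gaugeScale rmg_gaugeSemi rmg_measMap

theorem rmgF_reduce : StRmgReduce :=
  rmg_reduce rmg_snf rmgF_thetaUni rmgF_thetaReindex rmg_det1Uni rmg_det1Reindex

theorem rmgF_stableNear : StRmgStableNear := rmg_stableNear rmg_detMono rmg_fullRank

theorem rmgF_interior : StRmgInterior :=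
  rmg_interior rmg_gaugeSemi rmg_gaugePert rmgF_vorFD rmg_momFinite rmgF_compare rmg_momFactor
    rmg_polar rmg_detSeg rmg_psiConvex rmg_psiRot rmgF_stableNear

theorem rmgF_hermite : StRmgHermite := rmg_hermite rmg_snf rmg_blockPD

theorem rmgF_usc : StRmgUSC :=
  rmg_usc rmg_momFinite rmg_coercive rmg_gaugeSemi rmg_gaugePert rmg_momFactor

theorem rmgF_max : StRmgMax := rmg_max rmgF_hermite rmgF_thetaUni rmg_det1Uni rmgF_usc rmg_compact

theorem rmgF_step : StRmgStep :=
  rmg_stepA rmgF_reduce rmgF_split rmgF_thetaScale rmg_det1Block1 rmg_det1Block2 rmg_blockPD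
    rmgF_interior rmg_lpos_final rmg_gaugeSemi rmgF_vorFD rmg_fdVol (rmg_normalize rmg_fullRank)
    rmgF_max rmg_fullRank

theorem rmgF_moment : StRmgMoment := rmg_moment rmgF_step rmlpConst_mono

theorem rmgF_mass : StRmgMass := rmg_mass rmgF_vorFD rmg_measMap rmg_gaugeScale rmg_gaugeSemi

/-- **Reverse Minkowski, Gram form**: if `G` is positive definite and `det (Zᵀ G Z) ≥ 1` for every
integer matrix `Z` with independent columns, then `∑_z exp(-π τ_n² zᵀ G z) ≤ 3/2`,
`τ_n = rmgTau n ≤ C log(n+2)^4`. -/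
theorem rm_gram : StRmGram := rm_gram_of_moment rmgF_moment rmgF_mass rmg_measProb rmg_gaugeSemi

/-- **Reverse Minkowski, ball count** in the form used by COV. -/
theorem rm_ball_final : StRMBall rmTau := rm_ball rm_gram

end Claimed.Agent.R293
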