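/-
Row 293 (S0541), Reverse Minkowski, package LPos, leaf (B2): the contraction principle.
Owner of this file: helper246.
-/
import Claimed.Agent.R293.RM.LPosDefs

set_option autoImplicit false

namespace Claimed.Agent.R293

open Finset

/-- The quadratic Rademacher average as a function of the coefficient vector. -/
noncomputable def rmlpB2_g {k d : ℕ} (N : Seminorm ℝ (RmE d)) (v : Fin k → RmE d)
    (c : Fin k → ℝ) : ℝ :=
  ∑ σ : Fin k → Bool, N (∑ i, (rmlpSgn (σ i) * c i) • v i) ^ 2

theorem rmlpB2_sgn_not (b : Bool) : rmlpSgn (!b) = - rmlpSgn b := by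
  cases b <;> simp [rmlpSgn]

/-- Flipping the `i`-th bit. -/
def rmlpB2_flip {k : ℕ} (i : Fin k) (σ : Fin k → Bool) : Fin k → Bool :=
  Function.update σ i (!σ i)

theorem rmlpB2_flip_invol {k : ℕ} (i : Fin k) : Function.Involutive (rmlpB2_flip i) := by
  intro σ
  funext j
  by_cases h : j = i
  · subst h; simp [rmlpB2_flip]
  · simp [rmlpB2_flip, h]

theorem rmlpB2_g_flip {k d : ℕ} (N : Seminorm ℝ (RmE d)) (v : Fin k → RmE d)
    (c : Fin k → ℝ) (i : Fin k) :
    rmlpB2_g N v (Function.update c i (-c i)) = rmlpB2_g N v c := by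
  unfold rmlpB2_g
  refine Fintype.sum_equiv (rmlpB2_flip_invol i).toPerm _ _ ?_
  intro σ
  congr 2
  refine Finset.sum_congr rfl ?_
  intro j _
  by_cases h : j = i
  · subst h
    simp [rmlpB2_flip, rmlpB2_sgn_not]
  · simp [rmlpB2_flip, h]

theorem rmlpB2_sq_convex (a b t : ℝ) (h0 : 0 ≤ t) (h1 : t ≤ 1) :
    (t * a + (1 - t) * b) ^ 2 ≤ t * a ^ 2 + (1 - t) * b ^ 2 := by
  nlinarith [mul_nonneg (mul_nonneg h0 (sub_nonneg.2 h1)) (sq_nonneg (a - b))]

theorem rmlpB2_g_convex {k d : ℕ} (N : Seminorm ℝ (RmE d)) (v : Fin k → RmE d)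
    (x y : Fin k → ℝ) (t : ℝ) (h0 : 0 ≤ t) (h1 : t ≤ 1) :
    rmlpB2_g N v (fun j => t * x j + (1 - t) * y j)
      ≤ t * rmlpB2_g N v x + (1 - t) * rmlpB2_g N v y := by
  unfold rmlpB2_g
  rw [Finset.mul_sum, Finset.mul_sum, ← Finset.sum_add_distrib]
  refine Finset.sum_le_sum ?_
  intro σ _
  have hsplit : (∑ i, (rmlpSgn (σ i) * (t * x i + (1 - t) * y i)) • v i)
      = t • (∑ i, (rmlpSgn (σ i) * x i) • v i) + (1 - t) • (∑ i, (rmlpSgn (σ i) * y i) • v i) := by
    rw [Finset.smul_sum, Finset.smul_sum, ← Finset.sum_add_distrib]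
    refine Finset.sum_congr rfl ?_
    intro i _
    rw [smul_smul, smul_smul, ← add_smul]
    congr 1
    ring
  rw [hsplit]
  have hN : N (t • (∑ i, (rmlpSgn (σ i) * x i) • v i)
        + (1 - t) • (∑ i, (rmlpSgn (σ i) * y i) • v i))
      ≤ t * N (∑ i, (rmlpSgn (σ i) * x i) • v i)
        + (1 - t) * N (∑ i, (rmlpSgn (σ i) * y i) • v i) := by
    refine (map_add_le_add N _ _).trans ?_
    rw [map_smul_eq_mul, map_smul_eq_mul, Real.norm_of_nonneg h0,
      Real.norm_of_nonneg (sub_nonneg.2 h1)]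
  have hnn : 0 ≤ N (t • (∑ i, (rmlpSgn (σ i) * x i) • v i)
        + (1 - t) • (∑ i, (rmlpSgn (σ i) * y i) • v i)) := apply_nonneg N _
  calc _ ≤ (t * N (∑ i, (rmlpSgn (σ i) * x i) • v i)
        + (1 - t) * N (∑ i, (rmlpSgn (σ i) * y i) • v i)) ^ 2 :=
        pow_le_pow_left₀ hnn hN 2
    _ ≤ _ := rmlpB2_sq_convex _ _ t h0 h1

/-- One coordinate: replacing `c i` by the bound `b` does not decrease the average. -/
theorem rmlpB2_g_step {k d : ℕ} (N : Seminorm ℝ (RmE d)) (v : Fin k → RmE d)
    (c : Fin k → ℝ) (b : ℝ) (i : Fin k) (hi : |c i| ≤ b) :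
    rmlpB2_g N v c ≤ rmlpB2_g N v (Function.update c i b) := by
  have hb : 0 ≤ b := (abs_nonneg _).trans hi
  rcases hb.eq_or_lt with hb0 | hbpos
  · have : c i = b := by
      have : |c i| ≤ 0 := by rw [hb0]; exact hi
      have h0 : c i = 0 := abs_eq_zero.1 (le_antisymm this (abs_nonneg _))
      rw [h0, hb0]
    rw [← this, Function.update_eq_self]
  · obtain ⟨hlo, hhi⟩ := abs_le.1 hi
    set c' := Function.update c i b with hc'
    set t : ℝ := (c i + b) / (2 * b) with ht
    have ht0 : 0 ≤ t := div_nonneg (by linarith) (by linarith)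
    have ht1 : t ≤ 1 := by
      rw [ht, div_le_one (by linarith)]
      linarith
    have hc : c = fun j => t * c' j + (1 - t) * (Function.update c' i (-c' i)) j := by
      funext j
      by_cases h : j = i
      · subst h
        simp only [hc', Function.update_self]
        rw [ht]
        field_simp
        ring
      · simp only [hc', Function.update_of_ne h]
        ring
    calc rmlpB2_g N v c
        = rmlpB2_g N v (fun j => t * c' j + (1 - t) * (Function.update c' i (-c' i)) j) := by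
          rw [← hc]
      _ ≤ t * rmlpB2_g N v c' + (1 - t) * rmlpB2_g N v (Function.update c' i (-c' i)) :=
          rmlpB2_g_convex N v _ _ t ht0 ht1
      _ = rmlpB2_g N v c' := by rw [rmlpB2_g_flip]; ring

theorem rmlpB2_g_le {k d : ℕ} (N : Seminorm ℝ (RmE d)) (v : Fin k → RmE d)
    (c : Fin k → ℝ) (b : ℝ) (hc : ∀ i, |c i| ≤ b) (S : Finset (Fin k)) :
    rmlpB2_g N v c ≤ rmlpB2_g N v (fun i => if i ∈ S then b else c i) := by
  induction S using Finset.induction_on with
  | empty => simp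
  | insert a S ha ih =>
    refine ih.trans ?_
    have hstep := rmlpB2_g_step N v (fun i => if i ∈ S then b else c i) b a
      (by simp only [ha, if_false]; exact hc a)
    refine hstep.trans (le_of_eq ?_)
    congr 1
    funext j
    by_cases h : j = a
    · subst h; simp
    · simp [h]

/-- **(B2) Contraction principle.** -/
theorem rmlp_contraction : RmlpContractionStmt := by
  intro k d N c b v hc
  have h := rmlpB2_g_le N v c b hc Finset.univ
  simp only [Finset.mem_univ, if_true] at h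
  unfold rmlpB2_g at h
  refine h.trans (le_of_eq ?_)
  rw [Finset.mul_sum]
  refine Finset.sum_congr rfl ?_
  intro σ _
  have : (∑ i, (rmlpSgn (σ i) * b) • v i) = b • ∑ i, rmlpSgn (σ i) • v i := by
    rw [Finset.smul_sum]
    refine Finset.sum_congr rfl ?_
    intro i _
    rw [smul_smul, mul_comm]
  rw [this, map_smul_eq_mul, mul_pow, Real.norm_eq_abs, sq_abs]

end Claimed.Agent.R293
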