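/-
Row 293 (S0541), Reverse Minkowski, package LPos, leaf (C): in Lewis position the norm is
`n`-equivalent to the Euclidean norm.   Owner: helper207.   Prefix `rmlpC_`.
Also contains basic facts on seminorms on `RmE n` and their Gaussian integrals.
-/
import Claimed.Agent.R293.RM.LPosDefs

set_option autoImplicit false

namespace Claimed.Agent.R293

open MeasureTheory ProbabilityTheory
open scoped RealInnerProductSpace ENNReal

/-- every seminorm on `ℝ^n` is bounded by a multiple of the Euclidean norm. -/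
theorem rmlpC_bound {n : ℕ} (N : Seminorm ℝ (RmE n)) : ∃ C : ℝ, 0 ≤ C ∧ ∀ x, N x ≤ C * ‖x‖ := by
  classical
  set b := EuclideanSpace.basisFun (Fin n) ℝ with hb
  refine ⟨∑ i, N (b i), Finset.sum_nonneg fun i _ => apply_nonneg N _, fun x => ?_⟩
  have hx : x = ∑ i, b.repr x i • b i := (b.sum_repr x).symm
  have h1 : N (∑ i, b.repr x i • b i) ≤ ∑ i, N (b.repr x i • b i) := by
    have : ∀ s : Finset (Fin n), N (∑ i ∈ s, b.repr x i • b i) ≤ ∑ i ∈ s, N (b.repr x i • b i) := by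
      intro s
      induction s using Finset.induction_on with
      | empty => simp
      | insert a s ha ih =>
        rw [Finset.sum_insert ha, Finset.sum_insert ha]
        exact (map_add_le_add N _ _).trans (by linarith)
    exact this _
  calc N x = N (∑ i, b.repr x i • b i) := by rw [← hx]
    _ ≤ ∑ i, N (b.repr x i • b i) := h1
    _ = ∑ i, ‖b.repr x i‖ * N (b i) := by simp only [map_smul_eq_mul]
    _ ≤ ∑ i, ‖x‖ * N (b i) := by
        refine Finset.sum_le_sum fun i _ => mul_le_mul_of_nonneg_right ?_ (apply_nonneg N _)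
        have h2 : ‖b.repr x i‖ ≤ ‖b.repr x‖ := PiLp.norm_apply_le (b.repr x) i
        simpa using h2
    _ = (∑ i, N (b i)) * ‖x‖ := by rw [Finset.sum_mul]; simp only [mul_comm]

theorem rmlpC_continuous {n : ℕ} (N : Seminorm ℝ (RmE n)) : Continuous N := by
  obtain ⟨C, hC, hN⟩ := rmlpC_bound N
  have : LipschitzWith (Real.toNNReal C) N := by
    refine LipschitzWith.of_dist_le_mul fun x y => ?_
    rw [Real.dist_eq, dist_eq_norm, Real.coe_toNNReal _ hC]
    exact (abs_sub_map_le_sub N x y).trans (hN _)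
  exact this.continuous

theorem rmlpC_measurable {n : ℕ} (N : Seminorm ℝ (RmE n)) : Measurable N :=
  (rmlpC_continuous N).measurable

theorem rmlpC_integrable_norm_sq (n : ℕ) : Integrable (fun x : RmE n => ‖x‖ ^ 2) (rmGauss n) := by
  have h := (IsGaussian.memLp_two_id (μ := rmGauss n)).integrable_norm_pow (p := 2) (by norm_num)
  simpa using h

theorem rmlpC_integrable_norm (n : ℕ) : Integrable (fun x : RmE n => ‖x‖) (rmGauss n) :=
  (IsGaussian.integrable_id (μ := rmGauss n)).norm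

theorem rmlpC_integrable_sq {n : ℕ} (N : Seminorm ℝ (RmE n)) :
    Integrable (fun x => N x ^ 2) (rmGauss n) := by
  obtain ⟨C, hC, hN⟩ := rmlpC_bound N
  refine Integrable.mono' ((rmlpC_integrable_norm_sq n).const_mul (C ^ 2))
    ((rmlpC_measurable N).pow_const 2).aestronglyMeasurable (ae_of_all _ fun x => ?_)
  rw [Real.norm_eq_abs, abs_of_nonneg (by positivity), ← mul_pow]
  exact pow_le_pow_left₀ (apply_nonneg N x) (hN x) 2

theorem rmlpC_integrable {n : ℕ} (N : Seminorm ℝ (RmE n)) : Integrable (fun x => N x) (rmGauss n) := by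
  obtain ⟨C, hC, hN⟩ := rmlpC_bound N
  refine Integrable.mono' ((rmlpC_integrable_norm n).const_mul C)
    (rmlpC_measurable N).aestronglyMeasurable (ae_of_all _ fun x => ?_)
  rw [Real.norm_eq_abs, abs_of_nonneg (apply_nonneg N x)]
  exact hN x

theorem rmlpC_ell_nonneg {n : ℕ} (N : Seminorm ℝ (RmE n)) : 0 ≤ rmlpEll N := Real.sqrt_nonneg _

theorem rmlpC_ell_sq {n : ℕ} (N : Seminorm ℝ (RmE n)) :
    rmlpEll N ^ 2 = ∫ x, N x ^ 2 ∂(rmGauss n) :=
  Real.sq_sqrt (integral_nonneg fun x => by positivity)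

/-- second moment of a linear form. -/
theorem rmlpC_integral_inner_sq {n : ℕ} (x : RmE n) :
    ∫ g, ⟪x, g⟫ ^ 2 ∂(rmGauss n) = ‖x‖ ^ 2 := by
  have h1 := variance_dual_stdGaussian (E := RmE n) (innerSL ℝ x)
  rw [variance_of_integral_eq_zero (innerSL ℝ x).continuous.aemeasurable
    (integral_strongDual_stdGaussian _)] at h1
  simpa [innerSL_apply_apply] using h1

theorem rmlpC_integrable_inner_sq {n : ℕ} (x : RmE n) :
    Integrable (fun g : RmE n => ⟪x, g⟫ ^ 2) (rmGauss n) := by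
  have h := (IsGaussian.memLp_dual (rmGauss n) (innerSL ℝ x) 2 (by norm_num)).integrable_sq
  simpa [innerSL_apply_apply] using h

/-- invariance of Gaussian integrals under linear isometries. -/
theorem rmlpC_integral_comp_isometry {n : ℕ} (R : RmE n ≃ₗᵢ[ℝ] RmE n) (f : RmE n → ℝ)
    (hf : Measurable f) : ∫ g, f (R g) ∂(rmGauss n) = ∫ g, f g ∂(rmGauss n) := by
  have h := stdGaussian_map (E := RmE n) R
  conv_rhs => rw [rmGauss, ← h]
  rw [integral_map R.continuous.aemeasurable hf.aestronglyMeasurable]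

/-- upper bound (no Lewis position needed). -/
theorem rmlpC_upper {n : ℕ} (N : Seminorm ℝ (RmE n)) (x : RmE n) : N x ≤ rmlpEll N * ‖x‖ := by
  by_cases hx : x = 0
  · simp [hx]
  have hx0 : 0 < ‖x‖ := norm_pos_iff.2 hx
  set R : RmE n ≃ₗᵢ[ℝ] RmE n := (ℝ ∙ x).reflection with hR
  have hpt : ∀ g, 4 * N x ^ 2 * ⟪x, g⟫ ^ 2 ≤ ‖x‖ ^ 4 * (2 * N g ^ 2 + 2 * N (R g) ^ 2) := by
    intro g
    have h1 : g + R g = (2 * (⟪x, g⟫ / ‖x‖ ^ 2)) • x := by
      rw [hR, Submodule.reflection_singleton_apply]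
      simp only [RCLike.ofReal_real_eq_id, id_eq]
      rw [two_smul ℕ, ← add_smul]
      rw [add_sub_cancel]
      congr 1; ring
    have h2 : N ((2 * (⟪x, g⟫ / ‖x‖ ^ 2)) • x) ≤ N g + N (R g) := by
      rw [← h1]; exact map_add_le_add N _ _
    rw [map_smul_eq_mul, Real.norm_eq_abs, abs_mul, abs_div, abs_of_pos (by positivity : (0:ℝ) < ‖x‖ ^ 2),
      abs_of_pos (by norm_num : (0:ℝ) < 2)] at h2
    have h3 : 2 * |⟪x, g⟫| * N x ≤ ‖x‖ ^ 2 * (N g + N (R g)) := by
      have : 2 * (|⟪x, g⟫| / ‖x‖ ^ 2) * N x = (2 * |⟪x, g⟫| * N x) / ‖x‖ ^ 2 := by ring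
      rw [this, div_le_iff₀ (by positivity)] at h2
      linarith
    have h4 : (2 * |⟪x, g⟫| * N x) ^ 2 ≤ (‖x‖ ^ 2 * (N g + N (R g))) ^ 2 :=
      pow_le_pow_left₀ (by have := apply_nonneg N x; positivity) h3 2
    have h5 : (2 * |⟪x, g⟫| * N x) ^ 2 = 4 * N x ^ 2 * ⟪x, g⟫ ^ 2 := by
      rw [mul_pow, mul_pow, sq_abs]; ring
    have h6 : (N g + N (R g)) ^ 2 ≤ 2 * N g ^ 2 + 2 * N (R g) ^ 2 := by
      nlinarith [sq_nonneg (N g - N (R g))]
    rw [h5] at h4
    calc 4 * N x ^ 2 * ⟪x, g⟫ ^ 2 ≤ (‖x‖ ^ 2 * (N g + N (R g))) ^ 2 := h4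
      _ = ‖x‖ ^ 4 * (N g + N (R g)) ^ 2 := by ring
      _ ≤ _ := mul_le_mul_of_nonneg_left h6 (by positivity)
  have hNR : ∫ g, N (R g) ^ 2 ∂(rmGauss n) = ∫ g, N g ^ 2 ∂(rmGauss n) :=
    rmlpC_integral_comp_isometry R (fun g => N g ^ 2) ((rmlpC_measurable N).pow_const 2)
  have hNRi : Integrable (fun g => N (R g) ^ 2) (rmGauss n) :=
    rmlpC_integrable_sq (N.comp R.toLinearEquiv.toLinearMap)
  have hint := integral_mono ((rmlpC_integrable_inner_sq x).const_mul (4 * N x ^ 2))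
    ((((rmlpC_integrable_sq N).const_mul 2).add (hNRi.const_mul 2)).const_mul (‖x‖ ^ 4)) hpt
  rw [integral_const_mul, integral_const_mul, rmlpC_integral_inner_sq,
    integral_add' ((rmlpC_integrable_sq N).const_mul 2) (hNRi.const_mul 2), integral_const_mul,
    integral_const_mul, hNR, ← rmlpC_ell_sq] at hint
  have h7 : N x ^ 2 ≤ (rmlpEll N * ‖x‖) ^ 2 := by
    have h8 : ‖x‖ ^ 2 * N x ^ 2 ≤ ‖x‖ ^ 2 * (rmlpEll N * ‖x‖) ^ 2 := by nlinarith
    exact le_of_mul_le_mul_left h8 (by positivity)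
  exact le_of_pow_le_pow_left₀ (by norm_num) (mul_nonneg (rmlpC_ell_nonneg N) hx0.le) h7

/-- `ℓ` of the rank one operator `y ↦ ⟪x, y⟫ x`. -/
theorem rmlpC_ell_rankOne {n : ℕ} (N : Seminorm ℝ (RmE n)) (x : RmE n) :
    rmlpEll (N.comp ((innerₛₗ ℝ x).smulRight x)) = ‖x‖ * N x := by
  unfold rmlpEll
  have h : ∀ g, (N.comp ((innerₛₗ ℝ x).smulRight x)) g ^ 2 = N x ^ 2 * ⟪x, g⟫ ^ 2 := by
    intro g
    simp only [Seminorm.comp_apply, LinearMap.smulRight_apply, innerₛₗ_apply_apply, map_smul_eq_mul,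
      Real.norm_eq_abs, mul_pow, sq_abs]
    ring
  simp only [h]
  rw [integral_const_mul, rmlpC_integral_inner_sq, ← mul_pow,
    Real.sqrt_sq (mul_nonneg (apply_nonneg N x) (norm_nonneg x)), mul_comm]

theorem rmlp_dist : RmlpDistStmt := by
  intro n hn N hN hL
  have hpos : 0 < rmlpEll N := by
    rcases (rmlpC_ell_nonneg N).lt_or_eq with h | h
    · exact h
    · exfalso
      set e : RmE n := EuclideanSpace.single ⟨0, hn⟩ 1 with he
      have h1 : N e ≤ 0 := by
        have := rmlpC_upper N e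
        rwa [← h, zero_mul] at this
      have h2 : e = 0 := hN e (le_antisymm h1 (apply_nonneg N e))
      have h3 : ‖e‖ = 1 := by simp [he]
      rw [h2, norm_zero] at h3
      exact zero_ne_one h3
  refine ⟨hpos, fun x => ⟨?_, rmlpC_upper N x⟩⟩
  by_cases hx : x = 0
  · simp [hx]
  have hx0 : 0 < ‖x‖ := norm_pos_iff.2 hx
  have h := hL ((innerₛₗ ℝ x).smulRight x)
  rw [LinearMap.trace_smulRight, rmlpC_ell_rankOne, innerₛₗ_apply_apply, real_inner_self_eq_norm_sq] at h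
  have h2 : ‖x‖ * (rmlpEll N * ‖x‖) ≤ ‖x‖ * (n * N x) := by nlinarith
  exact le_of_mul_le_mul_left h2 hx0

end Claimed.Agent.R293
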