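/-
Row 293 (S0541), Reverse Minkowski, package LPos, leaf (E): dual norm (support function),
measurable almost norming selection, trace formula.   Owner: helper207.   Prefix `rmlpE_`.
-/
import Claimed.Agent.R293.RM.LPosDist

set_option autoImplicit false

namespace Claimed.Agent.R293

open MeasureTheory ProbabilityTheory
open scoped RealInnerProductSpace ENNReal

/-- a norm on `ℝ^n` dominates a positive multiple of the Euclidean norm. -/
theorem rmlpE_lower {n : ℕ} (N : Seminorm ℝ (RmE n)) (hN : RmlpIsNorm N) :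
    ∃ c : ℝ, 0 < c ∧ ∀ x, c * ‖x‖ ≤ N x := by
  rcases subsingleton_or_nontrivial (RmE n) with hs | hs
  · refine ⟨1, one_pos, fun x => ?_⟩
    rw [Subsingleton.elim x 0]; simp
  · obtain ⟨u, hu⟩ : (Metric.sphere (0 : RmE n) 1).Nonempty := NormedSpace.sphere_nonempty.2 zero_le_one
    obtain ⟨v, hv, hmin⟩ := (isCompact_sphere (0 : RmE n) 1).exists_isMinOn ⟨u, hu⟩
      (rmlpC_continuous N).continuousOn
    have hv1 : ‖v‖ = 1 := by simpa using hv
    have hv0 : v ≠ 0 := by intro h; rw [h, norm_zero] at hv1; exact zero_ne_one hv1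
    have hNv : 0 < N v := lt_of_le_of_ne (apply_nonneg N v) fun h => hv0 (hN v h.symm)
    refine ⟨N v, hNv, fun x => ?_⟩
    by_cases hx : x = 0
    · simp [hx]
    have hx0 : 0 < ‖x‖ := norm_pos_iff.2 hx
    have h1 : (‖x‖⁻¹ • x) ∈ Metric.sphere (0 : RmE n) 1 := by
      simp [norm_smul, hx0.ne']
    have h2 : N v ≤ N (‖x‖⁻¹ • x) := hmin h1
    rw [map_smul_eq_mul, norm_inv, norm_norm, inv_mul_eq_div, le_div_iff₀ hx0] at h2
    exact h2

theorem rmlpE_bddAbove {n : ℕ} (N : Seminorm ℝ (RmE n)) (hN : RmlpIsNorm N) (y : RmE n) :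
    BddAbove ((fun x => ⟪x, y⟫) '' {x | N x ≤ 1}) := by
  obtain ⟨c, hc, hle⟩ := rmlpE_lower N hN
  refine ⟨‖y‖ / c, ?_⟩
  rintro _ ⟨x, hx, rfl⟩
  have h1 : ‖x‖ ≤ 1 / c := by
    rw [le_div_iff₀ hc, mul_comm]; exact (hle x).trans hx
  calc ⟪x, y⟫ ≤ ‖x‖ * ‖y‖ := real_inner_le_norm x y
    _ ≤ 1 / c * ‖y‖ := mul_le_mul_of_nonneg_right h1 (norm_nonneg y)
    _ = ‖y‖ / c := by ring

theorem rmlpE_le_supp {n : ℕ} (N : Seminorm ℝ (RmE n)) (hN : RmlpIsNorm N) {x : RmE n}
    (hx : N x ≤ 1) (y : RmE n) : ⟪x, y⟫ ≤ rmlpSupp N y :=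
  le_csSup (rmlpE_bddAbove N hN y) ⟨x, hx, rfl⟩

theorem rmlpE_abs_le_supp {n : ℕ} (N : Seminorm ℝ (RmE n)) (hN : RmlpIsNorm N) {x : RmE n}
    (hx : N x ≤ 1) (y : RmE n) : |⟪x, y⟫| ≤ rmlpSupp N y := by
  refine abs_le.2 ⟨?_, rmlpE_le_supp N hN hx y⟩
  have h := rmlpE_le_supp N hN (x := -x) (by rwa [map_neg_eq_map]) y
  rw [inner_neg_left] at h
  linarith

theorem rmlpE_supp_le {n : ℕ} (N : Seminorm ℝ (RmE n)) (y : RmE n) {a : ℝ}
    (h : ∀ x, N x ≤ 1 → ⟪x, y⟫ ≤ a) : rmlpSupp N y ≤ a := by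
  refine csSup_le ⟨_, ⟨0, by simp, rfl⟩⟩ ?_
  rintro _ ⟨x, hx, rfl⟩
  exact h x hx

theorem rmlpE_supp_nonneg {n : ℕ} (N : Seminorm ℝ (RmE n)) (hN : RmlpIsNorm N) (y : RmE n) :
    0 ≤ rmlpSupp N y := by
  have h := rmlpE_le_supp N hN (x := 0) (by simp) y
  simpa using h

/-- the support function as a seminorm. -/
noncomputable def rmlpE_dual {n : ℕ} (N : Seminorm ℝ (RmE n)) (hN : RmlpIsNorm N) :
    Seminorm ℝ (RmE n) :=
  Seminorm.ofSMulLE (rmlpSupp N)
    (le_antisymm (rmlpE_supp_le N 0 fun x _ => by simp) (rmlpE_supp_nonneg N hN 0))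
    (fun y z => rmlpE_supp_le N _ fun x hx => by
      rw [inner_add_right]
      exact add_le_add (rmlpE_le_supp N hN hx y) (rmlpE_le_supp N hN hx z))
    (fun a y => rmlpE_supp_le N _ fun x hx => by
      rw [inner_smul_right, Real.norm_eq_abs]
      calc a * ⟪x, y⟫ ≤ |a * ⟪x, y⟫| := le_abs_self _
        _ = |a| * |⟪x, y⟫| := abs_mul _ _
        _ ≤ |a| * rmlpSupp N y :=
          mul_le_mul_of_nonneg_left (rmlpE_abs_le_supp N hN hx y) (abs_nonneg a))

theorem rmlpE_dual_apply {n : ℕ} (N : Seminorm ℝ (RmE n)) (hN : RmlpIsNorm N) (y : RmE n) :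
    rmlpE_dual N hN y = rmlpSupp N y := rfl

theorem rmlpE_inner_le {n : ℕ} (N : Seminorm ℝ (RmE n)) (hN : RmlpIsNorm N) (x y : RmE n) :
    ⟪x, y⟫ ≤ N x * rmlpSupp N y := by
  by_cases hx : N x = 0
  · rw [hN x hx]; simp
  have hx0 : 0 < N x := lt_of_le_of_ne (apply_nonneg N x) (Ne.symm hx)
  have h1 : N ((N x)⁻¹ • x) ≤ 1 := by
    rw [map_smul_eq_mul, norm_inv, Real.norm_eq_abs, abs_of_pos hx0, inv_mul_cancel₀ hx]
  have h2 := rmlpE_le_supp N hN h1 y
  rw [inner_smul_left, RCLike.conj_to_real, inv_mul_eq_div, div_le_iff₀ hx0] at h2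
  linarith

theorem rmlp_supp : RmlpSuppStmt := fun _ N hN =>
  ⟨rmlpE_dual N hN, rmlpE_dual_apply N hN, rmlpE_inner_le N hN⟩

theorem rmlpE_supp_measurable {n : ℕ} (N : Seminorm ℝ (RmE n)) (hN : RmlpIsNorm N) :
    Measurable (rmlpSupp N) := rmlpC_measurable (rmlpE_dual N hN)

/-- radial retraction onto the unit ball of `N`. -/
noncomputable def rmlpE_retr {n : ℕ} (N : Seminorm ℝ (RmE n)) (x : RmE n) : RmE n :=
  (max 1 (N x))⁻¹ • x

theorem rmlpE_retr_continuous {n : ℕ} (N : Seminorm ℝ (RmE n)) : Continuous (rmlpE_retr N) := by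
  unfold rmlpE_retr
  refine Continuous.smul (Continuous.inv₀ (continuous_const.max (rmlpC_continuous N)) fun x => ?_)
    continuous_id
  exact (lt_of_lt_of_le one_pos (le_max_left _ _)).ne'

theorem rmlpE_retr_le {n : ℕ} (N : Seminorm ℝ (RmE n)) (x : RmE n) : N (rmlpE_retr N x) ≤ 1 := by
  have h0 : (0 : ℝ) < max 1 (N x) := lt_of_lt_of_le one_pos (le_max_left _ _)
  unfold rmlpE_retr
  rw [map_smul_eq_mul, norm_inv, Real.norm_eq_abs, abs_of_pos h0, inv_mul_eq_div, div_le_one h0]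
  exact le_max_right _ _

theorem rmlpE_retr_of_le {n : ℕ} (N : Seminorm ℝ (RmE n)) {x : RmE n} (hx : N x ≤ 1) :
    rmlpE_retr N x = x := by
  unfold rmlpE_retr
  rw [max_eq_left hx, inv_one, one_smul]

theorem rmlp_select : RmlpSelectStmt := by
  classical
  intro n N hN η hη
  set u : ℕ → RmE n := TopologicalSpace.denseSeq (RmE n) with hu
  set d : ℕ → RmE n := fun k => rmlpE_retr N (u k) with hd
  have hex : ∀ g : RmE n, ∃ k, rmlpSupp N g - η ≤ ⟪g, d k⟫ := by
    intro g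
    obtain ⟨_, ⟨x, hx, rfl⟩, hlt⟩ := exists_lt_of_lt_csSup
      (s := (fun x => ⟪x, g⟫) '' {x | N x ≤ 1}) ⟨_, ⟨0, by simp, rfl⟩⟩
      (show rmlpSupp N g - η < rmlpSupp N g by linarith)
    have hopen : IsOpen {z : RmE n | rmlpSupp N g - η < ⟪g, rmlpE_retr N z⟫} :=
      isOpen_lt continuous_const (continuous_const.inner (rmlpE_retr_continuous N))
    have hne : {z : RmE n | rmlpSupp N g - η < ⟪g, rmlpE_retr N z⟫}.Nonempty := by
      refine ⟨x, ?_⟩
      change rmlpSupp N g - η < ⟪g, rmlpE_retr N x⟫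
      rw [rmlpE_retr_of_le N hx, real_inner_comm]
      exact hlt
    obtain ⟨k, hk⟩ := (TopologicalSpace.denseRange_denseSeq (RmE n)).exists_mem_open hopen hne
    exact ⟨k, le_of_lt hk⟩
  have hmeas : Measurable fun g => Nat.find (hex g) := by
    refine measurable_find hex fun k => ?_
    exact measurableSet_le ((rmlpE_supp_measurable N hN).sub_const η)
      (measurable_id.inner measurable_const)
  refine ⟨fun g => d (Nat.find (hex g)), (measurable_from_nat (f := d)).comp hmeas,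
    fun g => rmlpE_retr_le N _, fun g => Nat.find_spec (hex g)⟩

theorem rmlpE_integrable_smul {n : ℕ} (F : RmE n → RmE n) (b : ℝ) (hF : Measurable F)
    (hb : ∀ g, ‖F g‖ ≤ b) (x : RmE n) : Integrable (fun g => ⟪g, x⟫ • F g) (rmGauss n) := by
  refine Integrable.mono' ((rmlpC_integrable_norm n).mul_const (‖x‖ * b))
    (Measurable.smul (f := fun g : RmE n => ⟪g, x⟫) (measurable_id.inner measurable_const)
      hF).aestronglyMeasurable (ae_of_all _ fun g => ?_)
  rw [norm_smul, Real.norm_eq_abs]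
  calc |⟪g, x⟫| * ‖F g‖ ≤ (‖g‖ * ‖x‖) * b :=
        mul_le_mul (abs_real_inner_le_norm g x) (hb g) (norm_nonneg _) (by positivity)
    _ = ‖g‖ * (‖x‖ * b) := by ring

theorem rmlp_trace : RmlpTraceStmt := by
  intro n F b hF hb
  have hi := rmlpE_integrable_smul F b hF hb
  let T : RmE n →ₗ[ℝ] RmE n :=
    { toFun := rmlpTF F
      map_add' := fun x y => by
        unfold rmlpTF
        rw [← integral_add (hi x) (hi y)]
        refine integral_congr_ae (ae_of_all _ fun g => ?_)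
        simp only [inner_add_right, add_smul]
      map_smul' := fun a x => by
        unfold rmlpTF
        simp only [RingHom.id_apply]
        rw [← integral_smul]
        refine integral_congr_ae (ae_of_all _ fun g => ?_)
        simp only [inner_smul_right, mul_smul] }
  refine ⟨T, fun x => rfl, ?_⟩
  set e := EuclideanSpace.basisFun (Fin n) ℝ with he
  rw [LinearMap.trace_eq_sum_inner T e]
  have h1 : ∀ i, ⟪e i, T (e i)⟫ = ∫ g, ⟪g, e i⟫ * ⟪e i, F g⟫ ∂(rmGauss n) := by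
    intro i
    change ⟪e i, rmlpTF F (e i)⟫ = _
    unfold rmlpTF
    rw [← integral_inner (hi (e i))]
    refine integral_congr_ae (ae_of_all _ fun g => ?_)
    simp only [inner_smul_right]
  simp only [h1]
  rw [← integral_finsetSum]
  · refine integral_congr_ae (ae_of_all _ fun g => ?_)
    exact e.sum_inner_mul_inner g (F g)
  · intro i _
    have h2 := Integrable.const_inner (𝕜 := ℝ) (e i) (hi (e i))
    refine h2.congr (ae_of_all _ fun g => ?_)
    simp only [inner_smul_right]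

end Claimed.Agent.R293
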