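/-
Row 293 (S0541), black box "Reverse Minkowski", package LPos, leaf (G): Gaussian Kahane inequality
(all moments of a seminorm are controlled by the second one), from the quantitative Fernique
theorem.  Owner: helper225.
-/
import Claimed.Agent.R293.RM.LPosBasic

set_option autoImplicit false

namespace Claimed.Agent.R293

open MeasureTheory ProbabilityTheory
open scoped RealInnerProductSpace ENNReal NNReal Real


/-- pointwise bound of a power by a Gaussian exponential -/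
theorem rmlpF_pow_le {t b : ℝ} (ht : 0 ≤ t) (hb : 0 < b) {q : ℕ} (hq : 1 ≤ q) :
    t ^ q ≤ (b * Real.sqrt q) ^ q * Real.exp (t ^ 2 / (2 * b ^ 2)) := by
  have hq0 : (0 : ℝ) < q := by exact_mod_cast hq
  set u : ℝ := t ^ 2 / (b ^ 2 * q) with hu
  have hu0 : 0 ≤ u := by positivity
  have h1 : u ≤ Real.exp u := by linarith [Real.add_one_le_exp u]
  have h2 : t ^ 2 ≤ (b * Real.sqrt q * Real.exp (u / 2)) ^ 2 := by
    have e1 : (b * Real.sqrt q * Real.exp (u / 2)) ^ 2 = b ^ 2 * q * Real.exp u := by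
      rw [mul_pow, mul_pow, Real.sq_sqrt hq0.le, ← Real.exp_nat_mul]
      congr 2
      push_cast
      ring
    have e2 : t ^ 2 = b ^ 2 * q * u := by
      rw [hu]; field_simp
    rw [e1, e2]
    gcongr
  have h3 : t ≤ b * Real.sqrt q * Real.exp (u / 2) :=
    (pow_le_pow_iff_left₀ ht (by positivity) (by norm_num)).mp h2
  calc t ^ q ≤ (b * Real.sqrt q * Real.exp (u / 2)) ^ q := pow_le_pow_left₀ ht h3 q
    _ = (b * Real.sqrt q) ^ q * Real.exp (t ^ 2 / (2 * b ^ 2)) := by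
        rw [mul_pow, ← Real.exp_nat_mul]
        congr 2
        rw [hu]; field_simp

theorem rmlpF_one_sub_c : (1 - 3 / 4 : ℝ≥0∞) = 1 / 4 := by
  apply ENNReal.sub_eq_of_eq_add (by
    exact ENNReal.div_ne_top (by norm_num) (by norm_num))
  rw [ENNReal.div_add_div_same]
  norm_num
  exact (ENNReal.div_self (by norm_num) (by norm_num)).symm

theorem rmlpF_ratio : ((3 / 4 : ℝ≥0∞) / (1 - 3 / 4)).toReal = 3 := by
  rw [rmlpF_one_sub_c]
  simp [ENNReal.toReal_div]

theorem rmlpF_logRatio : Fernique.logRatio (3 / 4) = Real.log 3 / (8 * (1 + √2) ^ 2) := by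
  unfold Fernique.logRatio
  rw [rmlpF_one_sub_c]
  simp [ENNReal.toReal_div]

theorem rmlpF_log3_ge : 1 ≤ Real.log 3 := by
  rw [Real.le_log_iff_exp_le (by norm_num)]
  linarith [Real.exp_one_lt_d9]

theorem rmlpF_log3_le : Real.log 3 ≤ 2 := by
  have := Real.log_le_sub_one_of_pos (show (0 : ℝ) < 3 by norm_num)
  linarith

theorem rmlpF_sqrt2 : √2 ≤ 3 / 2 ∧ 1 ≤ √2 := by
  constructor
  · rw [Real.sqrt_le_left (by norm_num)]; norm_num
  · rw [Real.one_le_sqrt]; norm_num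

theorem rmlpF_logRatio_ge : 1 / 50 ≤ Fernique.logRatio (3 / 4) := by
  rw [rmlpF_logRatio, le_div_iff₀ (by positivity)]
  have h1 := rmlpF_sqrt2.1
  have h0 : 0 ≤ √2 := Real.sqrt_nonneg _
  have h2 : (1 + √2) ^ 2 ≤ (5 / 2) ^ 2 := pow_le_pow_left₀ (by positivity) (by linarith) 2
  have := rmlpF_log3_ge
  nlinarith

theorem rmlpF_logRatio_le : Fernique.logRatio (3 / 4) ≤ 1 / 16 := by
  rw [rmlpF_logRatio, div_le_iff₀ (by positivity)]
  have h1 := rmlpF_sqrt2.2
  have h2 : (2 : ℝ) ^ 2 ≤ (1 + √2) ^ 2 := pow_le_pow_left₀ (by positivity) (by linarith) 2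
  have := rmlpF_log3_le
  nlinarith

theorem rmlpF_r_le : Real.exp (-2⁻¹ * Real.log 3) ≤ 3 / 5 := by
  have h : Real.exp (-2⁻¹ * Real.log 3) ^ 2 ≤ (3 / 5 : ℝ) ^ 2 := by
    rw [← Real.exp_nat_mul]
    have : ((2 : ℕ) : ℝ) * (-2⁻¹ * Real.log 3) = - Real.log 3 := by push_cast; ring
    rw [this, Real.exp_neg, Real.exp_log (by norm_num)]
    norm_num
  exact (pow_le_pow_iff_left₀ (Real.exp_pos _).le (by norm_num) (by norm_num)).mp h

theorem rmlpF_term_le (k : ℕ) :
    Real.exp (-2⁻¹ * Real.log 3 * 2 ^ k) ≤ (3 / 5 : ℝ) ^ (k + 1) := by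
  have e : Real.exp (-2⁻¹ * Real.log 3 * 2 ^ k) = Real.exp (-2⁻¹ * Real.log 3) ^ (2 ^ k) := by
    rw [← Real.exp_nat_mul]
    congr 1
    push_cast
    ring
  rw [e]
  have h1 : Real.exp (-2⁻¹ * Real.log 3) ≤ 1 := rmlpF_r_le.trans (by norm_num)
  calc Real.exp (-2⁻¹ * Real.log 3) ^ (2 ^ k) ≤ Real.exp (-2⁻¹ * Real.log 3) ^ (k + 1) :=
        pow_le_pow_of_le_one (Real.exp_pos _).le h1 (Nat.lt_two_pow_self)
    _ ≤ (3 / 5 : ℝ) ^ (k + 1) := pow_le_pow_left₀ (Real.exp_pos _).le rmlpF_r_le _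

theorem rmlpF_rhs_le :
    ENNReal.ofReal (Real.exp (Fernique.logRatio (3 / 4)))
      + ∑' k : ℕ, ENNReal.ofReal
          (Real.exp (-2⁻¹ * Real.log ((3 / 4 : ℝ≥0∞) / (1 - 3 / 4)).toReal * 2 ^ k))
      ≤ ENNReal.ofReal (13 / 5) := by
  rw [rmlpF_ratio]
  have h1 : Real.exp (Fernique.logRatio (3 / 4)) ≤ 11 / 10 := by
    calc Real.exp (Fernique.logRatio (3 / 4)) ≤ Real.exp (1 / 16) :=
          Real.exp_le_exp.mpr rmlpF_logRatio_le
      _ ≤ 1 / (1 - 1 / 16) := Real.exp_bound_div_one_sub_of_interval (by norm_num) (by norm_num)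
      _ ≤ 11 / 10 := by norm_num
  have hs : Summable (fun k : ℕ => (3 / 5 : ℝ) ^ (k + 1)) :=
    (summable_nat_add_iff 1).mpr (summable_geometric_of_lt_one (by norm_num) (by norm_num))
  have h2 : ∑' k : ℕ, ENNReal.ofReal (Real.exp (-2⁻¹ * Real.log 3 * 2 ^ k))
      ≤ ENNReal.ofReal (3 / 2) := by
    calc ∑' k : ℕ, ENNReal.ofReal (Real.exp (-2⁻¹ * Real.log 3 * 2 ^ k))
        ≤ ∑' k : ℕ, ENNReal.ofReal ((3 / 5 : ℝ) ^ (k + 1)) :=
          ENNReal.tsum_le_tsum fun k => ENNReal.ofReal_le_ofReal (rmlpF_term_le k)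
      _ = ENNReal.ofReal (∑' k : ℕ, (3 / 5 : ℝ) ^ (k + 1)) :=
          (ENNReal.ofReal_tsum_of_nonneg (fun k => by positivity) hs).symm
      _ = ENNReal.ofReal (3 / 2) := by
          congr 1
          simp_rw [pow_succ]
          rw [tsum_mul_right, tsum_geometric_of_lt_one (by norm_num) (by norm_num)]
          norm_num
  calc _ ≤ ENNReal.ofReal (11 / 10) + ENNReal.ofReal (3 / 2) :=
        add_le_add (ENNReal.ofReal_le_ofReal h1) h2
    _ = ENNReal.ofReal (13 / 5) := by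
        rw [← ENNReal.ofReal_add (by norm_num) (by norm_num)]
        norm_num

theorem rmlp_fernique : RmlpFerniqueStmt := by
  intro n N q hq
  have hint := rmlp_integrable_pow N 2
  have hell0 : 0 ≤ rmlpEll N := Real.sqrt_nonneg _
  rcases eq_or_lt_of_le hell0 with h0 | hpos
  · -- degenerate case
    have hz : ∫ x, N x ^ 2 ∂(rmGauss n) = 0 := by rw [← rmlpEll_sq, ← h0]; simp
    have hae := (integral_eq_zero_iff_of_nonneg (fun x => sq_nonneg (N x)) hint).mp hz
    have : ∫ x, N x ^ q ∂(rmGauss n) = 0 := by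
      apply integral_eq_zero_of_ae
      filter_upwards [hae] with x hx
      have hx' : N x = 0 := by simpa using hx
      simp only [hx', Pi.zero_apply]
      exact zero_pow (by omega)
    rw [this]
    positivity
  set ell := rmlpEll N with hell
  set a : ℝ := 2 * ell with ha
  have ha0 : 0 < a := by positivity
  -- Chebyshev
  have hmk : a ^ 2 * (rmGauss n).real {x | a ^ 2 ≤ N x ^ 2} ≤ ∫ x, N x ^ 2 ∂(rmGauss n) :=
    mul_meas_ge_le_integral_of_nonneg (Filter.Eventually.of_forall fun x => sq_nonneg (N x)) hint _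
  rw [← rmlpEll_sq, ← hell] at hmk
  have hq4 : (rmGauss n).real {x | a ^ 2 ≤ N x ^ 2} ≤ 1 / 4 := by
    have : a ^ 2 * (rmGauss n).real {x | a ^ 2 ≤ N x ^ 2} ≤ a ^ 2 * (1 / 4) := by
      calc _ ≤ ell ^ 2 := hmk
        _ = a ^ 2 * (1 / 4) := by rw [ha]; ring
    exact le_of_mul_le_mul_left this (by positivity)
  have hS : MeasurableSet {x | N x ≤ a} := measurableSet_le (rmlp_measurable N) measurable_const
  have hsub : {x | N x ≤ a}ᶜ ⊆ {x | a ^ 2 ≤ N x ^ 2} := by
    intro x hx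
    simp only [Set.mem_compl_iff, Set.mem_ofPred_eq, not_le] at hx
    exact pow_le_pow_left₀ ha0.le hx.le 2
  have hreal : 3 / 4 ≤ (rmGauss n).real {x | N x ≤ a} := by
    have h1 : (rmGauss n).real {x | N x ≤ a}ᶜ ≤ 1 / 4 := (measureReal_mono hsub).trans hq4
    rw [probReal_compl_eq_one_sub hS] at h1
    linarith
  have hc : (3 / 4 : ℝ≥0∞) ≤ rmGauss n {x | N x ≤ a} := by
    rw [← ENNReal.toReal_le_toReal (ENNReal.div_ne_top (by norm_num) (by norm_num))
      (measure_ne_top _ _)]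
    have : (3 / 4 : ℝ≥0∞).toReal = 3 / 4 := by simp [ENNReal.toReal_div]
    rw [this]
    exact hreal
  have hgt : (2⁻¹ : ℝ≥0∞) < 3 / 4 := by
    rw [← ENNReal.toReal_lt_toReal (by simp) (ENNReal.div_ne_top (by norm_num) (by norm_num))]
    simp [ENNReal.toReal_div]
    norm_num
  have hexp := (rmlpF_exp N hc hgt).trans rmlpF_rhs_le
  -- pointwise bound
  set b : ℝ := 10 * ell with hb
  have hb0 : 0 < b := by positivity
  have hpt : ∀ x, N x ^ q ≤ (b * Real.sqrt q) ^ q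
      * Real.exp (Fernique.logRatio (3 / 4) * a⁻¹ ^ 2 * N x ^ 2) := by
    intro x
    refine (rmlpF_pow_le (apply_nonneg N x) hb0 hq).trans ?_
    gcongr
    have e : N x ^ 2 / (2 * b ^ 2) = 1 / 50 * a⁻¹ ^ 2 * N x ^ 2 := by
      rw [hb, ha]; field_simp; ring
    rw [e]
    have := rmlpF_logRatio_ge
    gcongr
  have hA0 : 0 ≤ (b * Real.sqrt q) ^ q := by positivity
  have hl : ∫⁻ x, ENNReal.ofReal (N x ^ q) ∂(rmGauss n)
      ≤ ENNReal.ofReal ((b * Real.sqrt q) ^ q) * ENNReal.ofReal (13 / 5) := by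
    calc ∫⁻ x, ENNReal.ofReal (N x ^ q) ∂(rmGauss n)
        ≤ ∫⁻ x, ENNReal.ofReal ((b * Real.sqrt q) ^ q) * ENNReal.ofReal
            (Real.exp (Fernique.logRatio (3 / 4) * a⁻¹ ^ 2 * N x ^ 2)) ∂(rmGauss n) := by
          apply lintegral_mono
          intro x
          simp only []
          rw [← ENNReal.ofReal_mul hA0]
          exact ENNReal.ofReal_le_ofReal (hpt x)
      _ = ENNReal.ofReal ((b * Real.sqrt q) ^ q) * ∫⁻ x, ENNReal.ofReal
            (Real.exp (Fernique.logRatio (3 / 4) * a⁻¹ ^ 2 * N x ^ 2)) ∂(rmGauss n) := by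
          apply lintegral_const_mul
          have := rmlp_measurable N
          fun_prop
      _ ≤ _ := by gcongr
  have hI : ∫ x, N x ^ q ∂(rmGauss n) ≤ (b * Real.sqrt q) ^ q * (13 / 5) := by
    rw [integral_eq_lintegral_of_nonneg_ae
      (Filter.Eventually.of_forall fun x => pow_nonneg (apply_nonneg N x) q)
      ((rmlp_measurable N).pow_const q).aestronglyMeasurable]
    rw [← ENNReal.ofReal_mul hA0] at hl
    exact ENNReal.toReal_le_of_le_ofReal (by positivity) hl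
  calc ∫ x, N x ^ q ∂(rmGauss n) ≤ (b * Real.sqrt q) ^ q * (13 / 5) := hI
    _ ≤ (b * Real.sqrt q) ^ q * (13 / 5) ^ q := by
        gcongr
        exact le_self_pow₀ (by norm_num) (by omega)
    _ = (b * Real.sqrt q * (13 / 5)) ^ q := (mul_pow _ _ _).symm
    _ ≤ (30 * Real.sqrt q * ell) ^ q := by
        apply pow_le_pow_left₀ (by positivity)
        rw [hb]
        have : 0 ≤ Real.sqrt q * ell := by positivity
        nlinarith

end Claimed.Agent.R293
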