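/-
Row 293 (S0541), Reverse Minkowski, leaf RM-KRAD (owner helper74), file 2: "lazy Bernstein".

For `m ≥ 0`, `M = 2 m + 1`, the nodes `x_j = sin (2 π j / M)` and the weights
`c_j = (2 / M) ∑_{l ≤ m} l sin (2 π j l / M)`, `j < M`, satisfy
`∑_j c_j x_j ^ k = [k = 1]` for all `k ≤ m`, `|x_j| ≤ 1`, `∑_j |c_j| ≤ m (m + 1)`.
-/
import Mathlib

set_option autoImplicit false

namespace Claimed.Agent.R293

open Finset

noncomputable section

/-- `sin (2 π t / (2 m + 1))` -/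
def rmkS (m : ℕ) (t : ℤ) : ℝ := Real.sin (2 * Real.pi * t / ((2 * m + 1 : ℕ) : ℝ))

/-- the nodes -/
def rmkNode (m j : ℕ) : ℝ := rmkS m j

/-- the weights -/
def rmkWt (m j : ℕ) : ℝ :=
  2 / ((2 * m + 1 : ℕ) : ℝ) * ∑ l ∈ range (m + 1), (l : ℝ) * rmkS m ((l : ℤ) * j)

/-- the root of unity `exp (2 π i / (2 m + 1))` -/
def rmkZeta (m : ℕ) : ℂ :=
  Complex.exp (2 * Real.pi * Complex.I / ((2 * m + 1 : ℕ) : ℂ))

theorem rmkZeta_prim (m : ℕ) : IsPrimitiveRoot (rmkZeta m) (2 * m + 1) :=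
  Complex.isPrimitiveRoot_exp _ (by omega)

theorem rmkZeta_ne_zero (m : ℕ) : rmkZeta m ≠ 0 := Complex.exp_ne_zero _

/-- orthogonality of the characters of `ℤ / (2 m + 1)` -/
theorem rmk_sum_zeta (m : ℕ) (r : ℤ) :
    ∑ j ∈ range (2 * m + 1), rmkZeta m ^ (r * (j : ℤ)) =
      if ((2 * m + 1 : ℕ) : ℤ) ∣ r then ((2 * m + 1 : ℕ) : ℂ) else 0 := by
  have h1 : ∀ j : ℕ, rmkZeta m ^ (r * (j : ℤ)) = (rmkZeta m ^ r) ^ j := by
    intro j
    rw [zpow_mul, zpow_natCast]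
  simp only [h1]
  split_ifs with h
  · rw [((rmkZeta_prim m).zpow_eq_one_iff_dvd r).2 h]
    simp
  · have hx : rmkZeta m ^ r ≠ 1 := fun hx => h (((rmkZeta_prim m).zpow_eq_one_iff_dvd r).1 hx)
    have hxM : (rmkZeta m ^ r) ^ (2 * m + 1) = 1 := by
      rw [← zpow_natCast, ← zpow_mul, mul_comm, zpow_mul, zpow_natCast, (rmkZeta_prim m).pow_eq_one,
        one_zpow]
    rw [geom_sum_eq hx, hxM, sub_self, zero_div]

/-- the sines in terms of the root of unity -/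
theorem rmkS_eq (m : ℕ) (t : ℤ) :
    ((rmkS m t : ℝ) : ℂ) = (rmkZeta m ^ t - rmkZeta m ^ (-t)) / (2 * Complex.I) := by
  have h1 : ∀ u : ℤ, rmkZeta m ^ u =
      Complex.exp ((u : ℂ) * (2 * Real.pi * Complex.I / ((2 * m + 1 : ℕ) : ℂ))) := by
    intro u
    rw [Complex.exp_int_mul]
    rfl
  unfold rmkS
  rw [Complex.ofReal_sin, Complex.sin, h1, h1]
  have e1 : -((2 * Real.pi * (t : ℝ) / ((2 * m + 1 : ℕ) : ℝ) : ℝ) : ℂ) * Complex.I =
      ((-t : ℤ) : ℂ) * (2 * Real.pi * Complex.I / ((2 * m + 1 : ℕ) : ℂ)) := by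
    push_cast
    ring
  have e2 : ((2 * Real.pi * (t : ℝ) / ((2 * m + 1 : ℕ) : ℝ) : ℝ) : ℂ) * Complex.I =
      ((t : ℤ) : ℂ) * (2 * Real.pi * Complex.I / ((2 * m + 1 : ℕ) : ℂ)) := by
    push_cast
    ring
  rw [e1, e2]
  have hI : Complex.I ≠ 0 := Complex.I_ne_zero
  field_simp
  rw [Complex.I_sq]
  ring

/-- an auxiliary sum of indicators -/
theorem rmk_sum_ind (m : ℕ) (r : ℤ) (hr : |r| ≤ m) :
    ∑ l ∈ range (m + 1), (l : ℂ) *
      ((if ((2 * m + 1 : ℕ) : ℤ) ∣ (l : ℤ) + r then ((2 * m + 1 : ℕ) : ℂ) else 0) -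
        (if ((2 * m + 1 : ℕ) : ℤ) ∣ r - (l : ℤ) then ((2 * m + 1 : ℕ) : ℂ) else 0)) =
      -(((2 * m + 1 : ℕ) : ℂ) * r) := by
  obtain ⟨hr1, hr2⟩ := abs_le.1 hr
  have hd : ∀ x : ℤ, |x| ≤ 2 * m → (((2 * m + 1 : ℕ) : ℤ) ∣ x ↔ x = 0) := by
    intro x hx
    constructor
    · intro h
      refine Int.eq_zero_of_abs_lt_dvd h ?_
      push_cast
      omega
    · rintro rfl
      exact dvd_zero _
  have h1 : ∀ l ∈ range (m + 1), (l : ℂ) *
      ((if ((2 * m + 1 : ℕ) : ℤ) ∣ (l : ℤ) + r then ((2 * m + 1 : ℕ) : ℂ) else 0) -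
        (if ((2 * m + 1 : ℕ) : ℤ) ∣ r - (l : ℤ) then ((2 * m + 1 : ℕ) : ℂ) else 0)) =
      ((2 * m + 1 : ℕ) : ℂ) * ((if (l : ℤ) = -r then (l : ℂ) else 0) -
        (if (l : ℤ) = r then (l : ℂ) else 0)) := by
    intro l hl
    have hl' : l ≤ m := Nat.lt_succ_iff.1 (mem_range.1 hl)
    have a1 : (((2 * m + 1 : ℕ) : ℤ) ∣ (l : ℤ) + r) ↔ (l : ℤ) = -r := by
      rw [hd _ (by rw [abs_le]; constructor <;> omega)]
      constructor <;> intro h <;> omega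
    have a2 : (((2 * m + 1 : ℕ) : ℤ) ∣ r - (l : ℤ)) ↔ (l : ℤ) = r := by
      rw [hd _ (by rw [abs_le]; constructor <;> omega)]
      constructor <;> intro h <;> omega
    simp only [a1, a2]
    split_ifs <;> ring
  rw [sum_congr rfl h1, ← mul_sum, sum_sub_distrib, ← mul_neg]
  congr 1
  obtain ⟨n, rfl | rfl⟩ := r.eq_nat_or_neg
  · have hn : n ≤ m := by omega
    have b1 : ∀ l ∈ range (m + 1), (if (l : ℤ) = -(n : ℤ) then (l : ℂ) else 0) = 0 := by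
      intro l _
      split_ifs with h
      · have : l = 0 := by omega
        simp [this]
      · rfl
    have b2 : ∀ l ∈ range (m + 1), (if (l : ℤ) = (n : ℤ) then (l : ℂ) else 0) =
        if l = n then (l : ℂ) else 0 := by
      intro l _
      simp only [Nat.cast_inj]
    rw [sum_congr rfl b1, sum_congr rfl b2, sum_const_zero, sum_ite_eq' (range (m + 1)) n,
      if_pos (mem_range.2 (by omega))]
    simp
  · have hn : n ≤ m := by omega
    have b1 : ∀ l ∈ range (m + 1), (if (l : ℤ) = -(-(n : ℤ)) then (l : ℂ) else 0) =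
        if l = n then (l : ℂ) else 0 := by
      intro l _
      simp only [neg_neg, Nat.cast_inj]
    have b2 : ∀ l ∈ range (m + 1), (if (l : ℤ) = -(n : ℤ) then (l : ℂ) else 0) = 0 := by
      intro l _
      split_ifs with h
      · have : l = 0 := by omega
        simp [this]
      · rfl
    rw [sum_congr rfl b1, sum_congr rfl b2, sum_const_zero, sum_ite_eq' (range (m + 1)) n,
      if_pos (mem_range.2 (by omega))]
    simp

/-- the functional `f ↦ ∑_j c_j f(j)` differentiates the characters of degree at most `m` -/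
theorem rmk_wt_char (m : ℕ) (r : ℤ) (hr : |r| ≤ m) :
    ∑ j ∈ range (2 * m + 1), ((rmkWt m j : ℝ) : ℂ) * rmkZeta m ^ (r * (j : ℤ)) =
      Complex.I * r := by
  have hz := rmkZeta_ne_zero m
  have hM : (((2 * m + 1 : ℕ) : ℂ)) ≠ 0 := by
    exact_mod_cast (by omega : (2 * m + 1 : ℕ) ≠ 0)
  have hI : Complex.I ≠ 0 := Complex.I_ne_zero
  have h1 : ∀ j ∈ range (2 * m + 1), ((rmkWt m j : ℝ) : ℂ) * rmkZeta m ^ (r * (j : ℤ)) =
      (((2 * m + 1 : ℕ) : ℂ) * Complex.I)⁻¹ * ∑ l ∈ range (m + 1), (l : ℂ) *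
        (rmkZeta m ^ (((l : ℤ) + r) * (j : ℤ)) - rmkZeta m ^ ((r - (l : ℤ)) * (j : ℤ))) := by
    intro j _
    unfold rmkWt
    push_cast
    simp only [rmkS_eq]
    rw [mul_assoc, sum_mul, mul_sum, mul_sum]
    refine sum_congr rfl fun l _ => ?_
    have e1 : rmkZeta m ^ (((l : ℤ) + r) * (j : ℤ)) =
        rmkZeta m ^ ((l : ℤ) * (j : ℤ)) * rmkZeta m ^ (r * (j : ℤ)) := by
      rw [← zpow_add₀ hz]; congr 1; ring
    have e2 : rmkZeta m ^ ((r - (l : ℤ)) * (j : ℤ)) =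
        rmkZeta m ^ (-((l : ℤ) * (j : ℤ))) * rmkZeta m ^ (r * (j : ℤ)) := by
      rw [← zpow_add₀ hz]; congr 1; ring
    rw [e1, e2]
    push_cast at hM ⊢
    field_simp
  rw [sum_congr rfl h1, ← mul_sum, sum_comm]
  have h2 : ∀ l ∈ range (m + 1), ∑ j ∈ range (2 * m + 1), (l : ℂ) *
        (rmkZeta m ^ (((l : ℤ) + r) * (j : ℤ)) - rmkZeta m ^ ((r - (l : ℤ)) * (j : ℤ))) =
      (l : ℂ) *
      ((if ((2 * m + 1 : ℕ) : ℤ) ∣ (l : ℤ) + r then ((2 * m + 1 : ℕ) : ℂ) else 0) -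
        (if ((2 * m + 1 : ℕ) : ℤ) ∣ r - (l : ℤ) then ((2 * m + 1 : ℕ) : ℂ) else 0)) := by
    intro l _
    rw [← mul_sum, sum_sub_distrib, rmk_sum_zeta, rmk_sum_zeta]
  rw [sum_congr rfl h2, rmk_sum_ind m r hr]
  field_simp
  rw [Complex.I_sq]
  ring

/-- powers of the nodes as character sums -/
theorem rmkNode_pow (m j k : ℕ) :
    ((rmkNode m j : ℝ) : ℂ) ^ k = ((2 * Complex.I) ^ k)⁻¹ *
      ∑ a ∈ range (k + 1), ((-1 : ℂ) ^ (k - a) * (k.choose a : ℂ)) *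
        rmkZeta m ^ ((2 * (a : ℤ) - k) * (j : ℤ)) := by
  have hz := rmkZeta_ne_zero m
  unfold rmkNode
  rw [rmkS_eq, div_pow, div_eq_mul_inv, mul_comm, sub_eq_add_neg, add_pow]
  congr 1
  refine sum_congr rfl fun a ha => ?_
  have ha' : a ≤ k := Nat.lt_succ_iff.1 (mem_range.1 ha)
  have e1 : (rmkZeta m ^ ((j : ℕ) : ℤ)) ^ a = rmkZeta m ^ ((j : ℤ) * a) := by
    rw [zpow_mul, zpow_natCast (_ ^ _)]
  have e2 : (-rmkZeta m ^ (-((j : ℕ) : ℤ))) ^ (k - a) =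
      (-1 : ℂ) ^ (k - a) * rmkZeta m ^ (-(j : ℤ) * ((k : ℤ) - a)) := by
    rw [neg_pow, zpow_mul]
    congr 1
    rw [← Nat.cast_sub ha', zpow_natCast (_ ^ _)]
  have e3 : rmkZeta m ^ ((2 * (a : ℤ) - k) * (j : ℤ)) =
      rmkZeta m ^ ((j : ℤ) * a) * rmkZeta m ^ (-(j : ℤ) * ((k : ℤ) - a)) := by
    rw [← zpow_add₀ hz]; congr 1; ring
  rw [e1, e2, e3]
  ring

/-- `∑_a (-1)^a a C(k,a) = -[k = 1]` -/
theorem rmk_alt_sum_mul_choose (k : ℕ) :
    ∑ a ∈ range (k + 1), ((-1 : ℤ) ^ a * (k.choose a : ℤ)) * (a : ℤ) = if k = 1 then -1 else 0 := by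
  cases k with
  | zero => simp
  | succ k =>
    rw [sum_range_succ']
    simp only [Nat.cast_zero, mul_zero, add_zero]
    have h1 : ∀ a ∈ range (k + 1),
        ((-1 : ℤ) ^ (a + 1) * ((k + 1).choose (a + 1) : ℤ)) * ((a + 1 : ℕ) : ℤ) =
          -((k : ℤ) + 1) * ((-1 : ℤ) ^ a * (k.choose a : ℤ)) := by
      intro a _
      have := Nat.add_one_mul_choose_eq k a
      have h2 : ((k + 1).choose (a + 1) : ℤ) * ((a + 1 : ℕ) : ℤ) = ((k : ℤ) + 1) * (k.choose a : ℤ) := by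
        exact_mod_cast this.symm
      rw [mul_assoc, h2, pow_succ]
      ring
    rw [sum_congr rfl h1, ← mul_sum, Int.alternating_sum_range_choose]
    by_cases hk : k = 0
    · simp [hk]
    · simp [hk]

/-- `∑_a (-1)^(k-a) C(k,a) (2a-k) = 2 [k = 1]` -/
theorem rmk_alt_sum (k : ℕ) :
    ∑ a ∈ range (k + 1), ((-1 : ℤ) ^ (k - a) * (k.choose a : ℤ)) * (2 * (a : ℤ) - k) =
      if k = 1 then 2 else 0 := by
  have h1 : ∀ a ∈ range (k + 1), ((-1 : ℤ) ^ (k - a) * (k.choose a : ℤ)) * (2 * (a : ℤ) - k) =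
      (-1 : ℤ) ^ k * (2 * (((-1 : ℤ) ^ a * (k.choose a : ℤ)) * (a : ℤ)) -
        k * ((-1 : ℤ) ^ a * (k.choose a : ℤ))) := by
    intro a ha
    have ha' : a ≤ k := Nat.lt_succ_iff.1 (mem_range.1 ha)
    have e : (-1 : ℤ) ^ (k - a) = (-1 : ℤ) ^ k * (-1 : ℤ) ^ a := by
      have : (-1 : ℤ) ^ k = (-1 : ℤ) ^ (k - a) * (-1 : ℤ) ^ a := by
        rw [← pow_add, Nat.sub_add_cancel ha']
      rw [this, mul_assoc, ← pow_add, ← two_mul, pow_mul]
      simp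
    rw [e]
    ring
  rw [sum_congr rfl h1, ← mul_sum, sum_sub_distrib, ← mul_sum, ← mul_sum,
    rmk_alt_sum_mul_choose, Int.alternating_sum_range_choose]
  by_cases h1 : k = 1
  · subst h1; simp
  · by_cases h0 : k = 0
    · subst h0; simp
    · simp [h1, h0]

/-- **Lazy Bernstein**: the moment identities. -/
theorem rmk_nodes_moment (m k : ℕ) (hk : k ≤ m) :
    ∑ j ∈ range (2 * m + 1), rmkWt m j * rmkNode m j ^ k = if k = 1 then 1 else 0 := by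
  have hI : Complex.I ≠ 0 := Complex.I_ne_zero
  have key : ((∑ j ∈ range (2 * m + 1), rmkWt m j * rmkNode m j ^ k : ℝ) : ℂ) =
      ((if k = 1 then 1 else 0 : ℝ) : ℂ) := by
    push_cast
    simp only [rmkNode_pow]
    have h1 : ∀ j ∈ range (2 * m + 1), ((rmkWt m j : ℝ) : ℂ) * (((2 * Complex.I) ^ k)⁻¹ *
        ∑ a ∈ range (k + 1), ((-1 : ℂ) ^ (k - a) * (k.choose a : ℂ)) *
          rmkZeta m ^ ((2 * (a : ℤ) - k) * (j : ℤ))) =
        ((2 * Complex.I) ^ k)⁻¹ * ∑ a ∈ range (k + 1), ((-1 : ℂ) ^ (k - a) * (k.choose a : ℂ)) *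
          (((rmkWt m j : ℝ) : ℂ) * rmkZeta m ^ ((2 * (a : ℤ) - k) * (j : ℤ))) := by
      intro j _
      rw [mul_left_comm, mul_sum]
      congr 1
      refine sum_congr rfl fun a _ => ?_
      ring
    rw [sum_congr rfl h1, ← mul_sum, sum_comm]
    have h2 : ∀ a ∈ range (k + 1), ∑ j ∈ range (2 * m + 1),
        ((-1 : ℂ) ^ (k - a) * (k.choose a : ℂ)) *
          (((rmkWt m j : ℝ) : ℂ) * rmkZeta m ^ ((2 * (a : ℤ) - k) * (j : ℤ))) =
        Complex.I * ((((-1 : ℤ) ^ (k - a) * (k.choose a : ℤ)) * (2 * (a : ℤ) - k) : ℤ) : ℂ) := by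
      intro a ha
      have ha' : a ≤ k := Nat.lt_succ_iff.1 (mem_range.1 ha)
      rw [← mul_sum, rmk_wt_char m _ (by rw [abs_le]; constructor <;> omega)]
      push_cast
      ring
    rw [sum_congr rfl h2, ← mul_sum, ← Int.cast_sum, rmk_alt_sum]
    by_cases h1 : k = 1
    · subst h1
      simp
      field_simp
      rw [Complex.I_sq]
      norm_num
    · simp [h1]
  exact_mod_cast key

theorem rmkNode_abs_le (m j : ℕ) : |rmkNode m j| ≤ 1 := Real.abs_sin_le_one _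

theorem rmkWt_abs_le (m j : ℕ) :
    |rmkWt m j| ≤ (m * (m + 1) : ℝ) / ((2 * m + 1 : ℕ) : ℝ) := by
  have hM : (0 : ℝ) < ((2 * m + 1 : ℕ) : ℝ) := by positivity
  unfold rmkWt
  rw [abs_mul, abs_of_pos (div_pos two_pos hM)]
  have h1 : |∑ l ∈ range (m + 1), (l : ℝ) * rmkS m ((l : ℤ) * j)| ≤ ∑ l ∈ range (m + 1), (l : ℝ) := by
    refine (abs_sum_le_sum_abs _ _).trans (sum_le_sum fun l _ => ?_)
    rw [abs_mul, abs_of_nonneg (Nat.cast_nonneg l)]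
    exact mul_le_of_le_one_right (Nat.cast_nonneg l) (Real.abs_sin_le_one _)
  have h2 : ∑ l ∈ range (m + 1), (l : ℝ) = (m * (m + 1) : ℝ) / 2 := by
    have := Finset.sum_range_id_mul_two (m + 1)
    have h3 : ((∑ l ∈ range (m + 1), l : ℕ) : ℝ) * 2 = ((m + 1 : ℕ) : ℝ) * ((m + 1 - 1 : ℕ) : ℝ) := by
      exact_mod_cast this
    rw [Nat.cast_sum] at h3
    simp only [Nat.add_sub_cancel] at h3
    push_cast at h3
    linarith
  rw [h2] at h1
  calc 2 / ((2 * m + 1 : ℕ) : ℝ) * |∑ l ∈ range (m + 1), (l : ℝ) * rmkS m ((l : ℤ) * j)|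
      ≤ 2 / ((2 * m + 1 : ℕ) : ℝ) * ((m * (m + 1) : ℝ) / 2) :=
        mul_le_mul_of_nonneg_left h1 (div_pos two_pos hM).le
    _ = _ := by field_simp

/-- total mass of the weights -/
theorem rmk_sum_abs_wt_le (m : ℕ) :
    ∑ j ∈ range (2 * m + 1), |rmkWt m j| ≤ (m * (m + 1) : ℝ) := by
  have hM : (0 : ℝ) < ((2 * m + 1 : ℕ) : ℝ) := by positivity
  calc ∑ j ∈ range (2 * m + 1), |rmkWt m j|
      ≤ ∑ _j ∈ range (2 * m + 1), (m * (m + 1) : ℝ) / ((2 * m + 1 : ℕ) : ℝ) :=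
        sum_le_sum fun j _ => rmkWt_abs_le m j
    _ = (m * (m + 1) : ℝ) := by
        rw [sum_const, card_range, nsmul_eq_mul]
        field_simp

end

end Claimed.Agent.R293
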