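/-
Row 293 (S0541), Reverse Minkowski, leaf RM-KRAD (owner helper74), file 3:
the Rademacher projection on the finite cube (Pisier's K-convexity bound, elementary form).

`rmk_rad`: if `|x| ≤ N x ≤ d |x|` on a real inner product space, `d ≤ 2 ^ m`, `1 ≤ m`, then for every
`F : (ι → Bool) → E` the level one part `∑_i σ_i a_i`, `a_i = avg_t σ_i(t) F(t)`, satisfies
`∑_s N(∑_i σ_i(s) a_i)^2 ≤ (3 m (m+1))^2 ∑_s N(F s)^2`.
-/
import Claimed.Agent.R293.RM.KRadCube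
import Claimed.Agent.R293.RM.KRadNodes

set_option autoImplicit false
set_option linter.unusedSectionVars false

namespace Claimed.Agent.R293

open Finset

section l2

variable {κ : Type*} [Fintype κ] {E : Type*} [AddCommGroup E] [Module ℝ E]

/-- quadratic mean (not normalised) of a seminorm along a finite family -/
noncomputable def rmkL2 (N : Seminorm ℝ E) (F : κ → E) : ℝ := Real.sqrt (∑ s, N (F s) ^ 2)

theorem rmkL2_nonneg (N : Seminorm ℝ E) (F : κ → E) : 0 ≤ rmkL2 N F := Real.sqrt_nonneg _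

theorem rmkL2_sq (N : Seminorm ℝ E) (F : κ → E) : rmkL2 N F ^ 2 = ∑ s, N (F s) ^ 2 :=
  Real.sq_sqrt (sum_nonneg fun _ _ => sq_nonneg _)

theorem rmkL2_le_of_sq_le (N : Seminorm ℝ E) (F : κ → E) {c : ℝ} (hc : 0 ≤ c)
    (h : ∑ s, N (F s) ^ 2 ≤ c ^ 2) : rmkL2 N F ≤ c :=
  Real.sqrt_le_iff.2 ⟨hc, h⟩

theorem rmkL2_add_le (N : Seminorm ℝ E) (F G : κ → E) :
    rmkL2 N (fun s => F s + G s) ≤ rmkL2 N F + rmkL2 N G := by
  refine rmkL2_le_of_sq_le N _ (add_nonneg (rmkL2_nonneg N F) (rmkL2_nonneg N G)) ?_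
  have h1 : ∀ s, N (F s + G s) ^ 2 ≤ N (F s) ^ 2 + 2 * (N (F s) * N (G s)) + N (G s) ^ 2 := by
    intro s
    have a1 := map_add_le_add N (F s) (G s)
    have a2 : 0 ≤ N (F s + G s) := apply_nonneg N _
    nlinarith
  have h2 : ∑ s, N (F s) * N (G s) ≤ rmkL2 N F * rmkL2 N G :=
    Real.sum_mul_le_sqrt_mul_sqrt _ _ _
  calc ∑ s, N (F s + G s) ^ 2
      ≤ ∑ s, (N (F s) ^ 2 + 2 * (N (F s) * N (G s)) + N (G s) ^ 2) := sum_le_sum fun s _ => h1 s
    _ = rmkL2 N F ^ 2 + 2 * ∑ s, N (F s) * N (G s) + rmkL2 N G ^ 2 := by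
        rw [sum_add_distrib, sum_add_distrib, ← mul_sum, rmkL2_sq, rmkL2_sq]
    _ ≤ rmkL2 N F ^ 2 + 2 * (rmkL2 N F * rmkL2 N G) + rmkL2 N G ^ 2 := by linarith
    _ = (rmkL2 N F + rmkL2 N G) ^ 2 := by ring

theorem rmkL2_smul (N : Seminorm ℝ E) (c : ℝ) (F : κ → E) :
    rmkL2 N (fun s => c • F s) = |c| * rmkL2 N F := by
  unfold rmkL2
  simp only [map_smul_eq_mul, Real.norm_eq_abs, mul_pow]
  rw [← mul_sum, Real.sqrt_mul (sq_nonneg _), Real.sqrt_sq (abs_nonneg c)]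

theorem rmkL2_zero (N : Seminorm ℝ E) : rmkL2 N (fun _ : κ => (0 : E)) = 0 := by
  simp [rmkL2]

theorem rmkL2_sum_le {J : Type*} (N : Seminorm ℝ E) (A : Finset J) (G : J → κ → E) :
    rmkL2 N (fun s => ∑ j ∈ A, G j s) ≤ ∑ j ∈ A, rmkL2 N (G j) := by
  classical
  induction A using Finset.induction_on with
  | empty => simp [rmkL2_zero]
  | insert j A hj ih =>
    simp only [sum_insert hj]
    exact (rmkL2_add_le N _ _).trans (add_le_add_right ih _)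

theorem rmkL2_sub_le (N : Seminorm ℝ E) (F G : κ → E) :
    rmkL2 N (fun s => F s - G s) ≤ rmkL2 N F + rmkL2 N G := by
  have h := rmkL2_add_le N F (fun s => (-1 : ℝ) • G s)
  rw [rmkL2_smul] at h
  simpa [sub_eq_add_neg] using h

end l2

variable {ι : Type*} [Fintype ι] [DecidableEq ι]
variable {E : Type*} [NormedAddCommGroup E] [InnerProductSpace ℝ E]

/-- the multiplier `k ↦ ∑_j 2 c_j (x_j / 2)^k` -/
noncomputable def rmkGam (m k : ℕ) : ℝ :=
  ∑ j ∈ range (2 * m + 1), (2 * rmkWt m j) * (rmkNode m j / 2) ^ k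

theorem rmkGam_of_le (m k : ℕ) (hk : k ≤ m) : rmkGam m k = if k = 1 then 1 else 0 := by
  have h1 : rmkGam m k = 2 / 2 ^ k * ∑ j ∈ range (2 * m + 1), rmkWt m j * rmkNode m j ^ k := by
    unfold rmkGam
    rw [mul_sum]
    refine sum_congr rfl fun j _ => ?_
    rw [div_pow]
    ring
  rw [h1, rmk_nodes_moment m k hk]
  by_cases h : k = 1
  · subst h; norm_num
  · simp [h]

theorem rmkGam_abs_le (m k : ℕ) : |rmkGam m k| ≤ 2 * (m * (m + 1) : ℝ) / 2 ^ k := by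
  unfold rmkGam
  refine (abs_sum_le_sum_abs _ _).trans ?_
  have h1 : ∀ j ∈ range (2 * m + 1), |(2 * rmkWt m j) * (rmkNode m j / 2) ^ k| ≤
      2 / 2 ^ k * |rmkWt m j| := by
    intro j _
    rw [abs_mul, abs_mul, abs_pow, abs_div, div_pow]
    have a1 : |rmkNode m j| ^ k ≤ 1 := pow_le_one₀ (abs_nonneg _) (rmkNode_abs_le m j)
    have a2 : (0 : ℝ) < |(2 : ℝ)| ^ k := by positivity
    have a3 : |(2 : ℝ)| = 2 := abs_of_pos two_pos
    rw [a3] at a2 ⊢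
    have a4 : |rmkNode m j| ^ k / 2 ^ k ≤ 1 / 2 ^ k := div_le_div_of_nonneg_right a1 a2.le
    calc 2 * |rmkWt m j| * (|rmkNode m j| ^ k / 2 ^ k) ≤ 2 * |rmkWt m j| * (1 / 2 ^ k) :=
          mul_le_mul_of_nonneg_left a4 (by positivity)
      _ = 2 / 2 ^ k * |rmkWt m j| := by ring
  refine (sum_le_sum h1).trans ?_
  rw [← mul_sum]
  calc 2 / 2 ^ k * ∑ j ∈ range (2 * m + 1), |rmkWt m j| ≤ 2 / 2 ^ k * (m * (m + 1) : ℝ) :=
        mul_le_mul_of_nonneg_left (rmk_sum_abs_wt_le m) (by positivity)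
    _ = _ := by ring

/-- the error multiplier is uniformly small -/
theorem rmkGam_sub_abs_le (m k : ℕ) (hm : 1 ≤ m) :
    |rmkGam m k - (if k = 1 then 1 else 0)| ≤ (m * (m + 1) : ℝ) / 2 ^ m := by
  by_cases hk : k ≤ m
  · rw [rmkGam_of_le m k hk, sub_self, abs_zero]
    positivity
  · have hk1 : k ≠ 1 := by omega
    rw [if_neg hk1, sub_zero]
    refine (rmkGam_abs_le m k).trans ?_
    have h1 : (2 : ℝ) ^ (m + 1) ≤ 2 ^ k := pow_le_pow_right₀ (by norm_num) (by omega)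
    have h2 : (0 : ℝ) < 2 ^ m := by positivity
    rw [div_le_div_iff₀ (by positivity) h2]
    have h3 : (0 : ℝ) ≤ (m * (m + 1) : ℝ) := by positivity
    calc 2 * (m * (m + 1) : ℝ) * 2 ^ m = (m * (m + 1) : ℝ) * 2 ^ (m + 1) := by ring
      _ ≤ (m * (m + 1) : ℝ) * 2 ^ k := mul_le_mul_of_nonneg_left h1 h3

/-- **Rademacher K-convexity on the finite cube**, `L2` form with square roots. -/
theorem rmk_rad_L2 (N : Seminorm ℝ E) (d : ℝ) (hd : 0 ≤ d) (h1 : ∀ x, ‖x‖ ≤ N x)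
    (h2 : ∀ x, N x ≤ d * ‖x‖) (m : ℕ) (hm1 : 1 ≤ m) (hm : d ≤ 2 ^ m) (F : (ι → Bool) → E) :
    rmkL2 N (fun s : ι → Bool => ∑ i, rmkSg (s i) • rmkHat F {i}) ≤
      3 * m * (m + 1) * rmkL2 N F := by
  set η : ℝ := (m * (m + 1) : ℝ) / 2 ^ m with hη
  have hη0 : 0 ≤ η := by positivity
  set δ : ℕ → ℝ := fun k => rmkGam m k - (if k = 1 then 1 else 0) with hδ
  -- decomposition
  have hdec : ∀ s, ∑ i, rmkSg (s i) • rmkHat F {i} =
      (∑ j ∈ range (2 * m + 1), (2 * rmkWt m j) • rmkMul (fun k => (rmkNode m j / 2) ^ k) F s) -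
        rmkMul δ F s := by
    intro s
    rw [← rmkMul_one, ← rmkMul_sum, ← rmkMul_sub]
    congr 1
    funext k
    simp only [hδ, rmkGam]
    ring
  simp only [hdec]
  refine (rmkL2_sub_le N _ _).trans ?_
  -- main part
  have hA : rmkL2 N (fun s => ∑ j ∈ range (2 * m + 1),
      (2 * rmkWt m j) • rmkMul (fun k => (rmkNode m j / 2) ^ k) F s) ≤
      2 * (m * (m + 1)) * rmkL2 N F := by
    refine (rmkL2_sum_le N _ _).trans ?_
    have a1 : ∀ j ∈ range (2 * m + 1),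
        rmkL2 N (fun s => (2 * rmkWt m j) • rmkMul (fun k => (rmkNode m j / 2) ^ k) F s) ≤
          2 * |rmkWt m j| * rmkL2 N F := by
      intro j _
      rw [rmkL2_smul, abs_mul, abs_of_pos (two_pos : (0 : ℝ) < 2)]
      refine mul_le_mul_of_nonneg_left ?_ (by positivity)
      refine rmkL2_le_of_sq_le N _ (rmkL2_nonneg N F) ?_
      rw [rmkL2_sq]
      refine rmk_noise_contraction N ?_ F
      rw [abs_div, abs_of_pos (two_pos : (0 : ℝ) < 2)]
      have := rmkNode_abs_le m j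
      linarith
    refine (sum_le_sum a1).trans ?_
    rw [← sum_mul, ← mul_sum]
    refine mul_le_mul_of_nonneg_right ?_ (rmkL2_nonneg N F)
    exact mul_le_mul_of_nonneg_left (rmk_sum_abs_wt_le m) two_pos.le
  -- error part
  have hB : rmkL2 N (rmkMul δ F) ≤ (m * (m + 1)) * rmkL2 N F := by
    have b0 : d * η ≤ (m * (m + 1) : ℝ) := by
      have h2m : (0 : ℝ) < 2 ^ m := by positivity
      rw [hη, ← mul_div_assoc, div_le_iff₀ h2m, mul_comm]
      exact mul_le_mul_of_nonneg_left hm (by positivity)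
    have b1 : rmkL2 N (rmkMul δ F) ≤ d * η * rmkL2 N F := by
      refine rmkL2_le_of_sq_le N _ (by have := rmkL2_nonneg N F; positivity) ?_
      have c1 : ∀ s, N (rmkMul δ F s) ^ 2 ≤ d ^ 2 * ‖rmkMul δ F s‖ ^ 2 := by
        intro s
        rw [← mul_pow]
        exact pow_le_pow_left₀ (apply_nonneg N _) (h2 _) 2
      have c2 := rmk_sum_norm_sq_mul_le δ η (fun k => rmkGam_sub_abs_le m k hm1) F
      have c3 : ∑ t, ‖F t‖ ^ 2 ≤ ∑ t, N (F t) ^ 2 :=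
        sum_le_sum fun t _ => pow_le_pow_left₀ (norm_nonneg _) (h1 _) 2
      calc ∑ s, N (rmkMul δ F s) ^ 2 ≤ ∑ s, d ^ 2 * ‖rmkMul δ F s‖ ^ 2 :=
            sum_le_sum fun s _ => c1 s
        _ = d ^ 2 * ∑ s, ‖rmkMul δ F s‖ ^ 2 := by rw [mul_sum]
        _ ≤ d ^ 2 * (η ^ 2 * ∑ t, N (F t) ^ 2) :=
            mul_le_mul_of_nonneg_left
              (c2.trans (mul_le_mul_of_nonneg_left c3 (sq_nonneg _))) (sq_nonneg _)
        _ = (d * η * rmkL2 N F) ^ 2 := by rw [mul_pow, mul_pow, rmkL2_sq]; ring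
    exact b1.trans (mul_le_mul_of_nonneg_right b0 (rmkL2_nonneg N F))
  calc _ ≤ 2 * (m * (m + 1)) * rmkL2 N F + (m * (m + 1)) * rmkL2 N F := add_le_add hA hB
    _ = 3 * m * (m + 1) * rmkL2 N F := by ring

/-- **Rademacher K-convexity on the finite cube.** -/
theorem rmk_rad (N : Seminorm ℝ E) (d : ℝ) (hd : 0 ≤ d) (h1 : ∀ x, ‖x‖ ≤ N x)
    (h2 : ∀ x, N x ≤ d * ‖x‖) (m : ℕ) (hm1 : 1 ≤ m) (hm : d ≤ 2 ^ m) (F : (ι → Bool) → E) :
    ∑ s : ι → Bool, N (∑ i, rmkSg (s i) • rmkHat F {i}) ^ 2 ≤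
      (3 * m * (m + 1)) ^ 2 * ∑ s, N (F s) ^ 2 := by
  have h := rmk_rad_L2 N d hd h1 h2 m hm1 hm F
  have h' := pow_le_pow_left₀ (rmkL2_nonneg N _) h 2
  rw [mul_pow, rmkL2_sq, rmkL2_sq] at h'
  exact h'

end Claimed.Agent.R293
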