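/-
Row 293 (S0541), black box "Reverse Minkowski", package LPos, leaf (A):
Rademacher K-convexity on the cube, `RmlpKradStmt`.  Owner of this file: helper246.

The statement is obtained directly from helper74's `rmk_rad` (file `KRad.lean`); the two files use
opposite sign conventions for the bits, which cancel in the Rademacher projection.  Hence the
leaves (A1) nodes and (A2) Walsh analysis of the package LPos are not needed.
-/
import Claimed.Agent.R293.RM.LPosDefs
import Claimed.Agent.R293.RM.KRad

set_option autoImplicit false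

namespace Claimed.Agent.R293

open Finset

theorem rmlpA_sgn_eq (b : Bool) : rmlpSgn b = -rmkSg b := by
  cases b <;> simp [rmlpSgn]

theorem rmlpA_W1_eq {k d : ℕ} (F : (Fin k → Bool) → RmE d) (i : Fin k) :
    rmlpW1 F i = -rmkHat F {i} := by
  unfold rmlpW1 rmkHat
  simp only [rmkW_singleton, rmlpA_sgn_eq, neg_smul, sum_neg_distrib, smul_neg, Fintype.card_fin]

theorem rmlpA_rad_eq {k d : ℕ} (F : (Fin k → Bool) → RmE d) (σ : Fin k → Bool) :
    rmlpRad F σ = ∑ i, rmkSg (σ i) • rmkHat F {i} := by
  unfold rmlpRad
  refine sum_congr rfl fun i _ => ?_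
  rw [rmlpA_W1_eq, rmlpA_sgn_eq, neg_smul, smul_neg, neg_neg]

/-- **(A) Rademacher K-convexity with a `log² d` bound.** -/
theorem rmlp_krad : RmlpKradStmt := by
  intro k d m hm N h1 h2 F
  have h := rmk_rad (ι := Fin k) N ((2 : ℝ) ^ m) (by positivity) h1 h2 m hm le_rfl F
  simpa only [rmlpA_rad_eq] using h

end Claimed.Agent.R293
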