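/-
Row 293 (S0541), package LPos, leaf (D): Lewis' lemma.  Owner: helper250.  Prefix `rmlw_`.
-/
import Mathlib
import Claimed.Agent.R293.RM.LPosDefs

set_option autoImplicit false

namespace Claimed.Agent.R293

open MeasureTheory ProbabilityTheory Filter Topology
open scoped RealInnerProductSpace ENNReal

section basics

variable {n : ℕ}

/-- Every seminorm on `ℝ^n` is bounded by a multiple of the Euclidean norm. -/
theorem rmlw_bound (N : Seminorm ℝ (RmE n)) : ∃ C : ℝ, 0 ≤ C ∧ ∀ x, N x ≤ C * ‖x‖ := by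
  refine ⟨∑ i, N (EuclideanSpace.single i 1),
    Finset.sum_nonneg (fun i _ => apply_nonneg N _), fun x => ?_⟩
  have hx : x = ∑ i, x i • EuclideanSpace.single i (1 : ℝ) := by
    ext j
    simp [Finset.sum_apply, Pi.single_apply]
  calc N x = N (∑ i, x i • EuclideanSpace.single i (1 : ℝ)) := by rw [← hx]
    _ ≤ ∑ i, N (x i • EuclideanSpace.single i (1 : ℝ)) := Finset.le_sum_of_subadditive N (map_zero N).le (map_add_le_add N) _ _
    _ = ∑ i, |x i| * N (EuclideanSpace.single i (1 : ℝ)) := by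
        simp [map_smul_eq_mul]
    _ ≤ ∑ i, ‖x‖ * N (EuclideanSpace.single i (1 : ℝ)) := by
        refine Finset.sum_le_sum fun i _ => ?_
        refine mul_le_mul_of_nonneg_right ?_ (apply_nonneg N _)
        simpa using PiLp.norm_apply_le x i
    _ = (∑ i, N (EuclideanSpace.single i 1)) * ‖x‖ := by
        rw [Finset.sum_mul]; exact Finset.sum_congr rfl fun i _ => mul_comm _ _

theorem rmlw_continuous (N : Seminorm ℝ (RmE n)) : Continuous N := by
  obtain ⟨C, hC, hN⟩ := rmlw_bound N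
  refine (LipschitzWith.of_le_add_mul' C fun x y => ?_).continuous
  have h1 : N x ≤ N y + N (x - y) := by
    have := map_add_le_add N y (x - y)
    simpa using this
  have h2 := hN (x - y)
  rw [dist_eq_norm]
  linarith

theorem rmlw_memLp (N : Seminorm ℝ (RmE n)) : MemLp (fun x => N x) 2 (rmGauss n) := by
  obtain ⟨C, hC, hN⟩ := rmlw_bound N
  have h1 : MemLp (fun x : RmE n => C * ‖x‖) 2 (rmGauss n) :=
    ((IsGaussian.memLp_two_id (μ := rmGauss n)).norm).const_mul C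
  refine h1.mono (rmlw_continuous N).aestronglyMeasurable (Eventually.of_forall fun x => ?_)
  rw [Real.norm_of_nonneg (apply_nonneg N x), Real.norm_of_nonneg (by positivity)]
  exact hN x

theorem rmlw_sqrt_eq {α : Type*} [MeasurableSpace α] {μ : Measure α} {u : α → ℝ}
    (hu : MemLp u 2 μ) : Real.sqrt (∫ x, u x ^ 2 ∂μ) = (eLpNorm u 2 μ).toReal := by
  rw [hu.eLpNorm_eq_integral_rpow_norm (by norm_num) (by norm_num)]
  rw [ENNReal.toReal_ofReal (by positivity)]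
  simp [Real.sqrt_eq_rpow]

theorem rmlw_ell_eq (N : Seminorm ℝ (RmE n)) :
    rmlpEll N = (eLpNorm (fun x => N x) 2 (rmGauss n)).toReal :=
  rmlw_sqrt_eq (rmlw_memLp N)

theorem rmlw_ell_nonneg (N : Seminorm ℝ (RmE n)) : 0 ≤ rmlpEll N := Real.sqrt_nonneg _

/-- monotonicity + triangle inequality -/
theorem rmlw_ell_le_add (N N₁ N₂ : Seminorm ℝ (RmE n)) (h : ∀ x, N x ≤ N₁ x + N₂ x) :
    rmlpEll N ≤ rmlpEll N₁ + rmlpEll N₂ := by
  rw [rmlw_ell_eq, rmlw_ell_eq, rmlw_ell_eq,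
    ← ENNReal.toReal_add (rmlw_memLp N₁).eLpNorm_ne_top (rmlw_memLp N₂).eLpNorm_ne_top]
  refine ENNReal.toReal_mono
    (ENNReal.add_ne_top.2 ⟨(rmlw_memLp N₁).eLpNorm_ne_top, (rmlw_memLp N₂).eLpNorm_ne_top⟩) ?_
  refine le_trans ?_ (eLpNorm_add_le (rmlw_memLp N₁).aestronglyMeasurable
    (rmlw_memLp N₂).aestronglyMeasurable (by norm_num))
  refine eLpNorm_mono fun x => ?_
  simp only [Pi.add_apply]
  rw [Real.norm_of_nonneg (apply_nonneg N x),
    Real.norm_of_nonneg (add_nonneg (apply_nonneg N₁ x) (apply_nonneg N₂ x))]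
  exact h x

theorem rmlw_ell_smul (N N₁ : Seminorm ℝ (RmE n)) (c : ℝ) (hc : 0 ≤ c) (h : ∀ x, N x = c * N₁ x) :
    rmlpEll N = c * rmlpEll N₁ := by
  unfold rmlpEll
  have : ∀ x, N x ^ 2 = c ^ 2 * N₁ x ^ 2 := fun x => by rw [h x]; ring
  simp_rw [this]
  rw [integral_const_mul, Real.sqrt_mul (by positivity), Real.sqrt_sq hc]

theorem rmlw_ell_mono (N N₁ : Seminorm ℝ (RmE n)) (h : ∀ x, N x ≤ N₁ x) :
    rmlpEll N ≤ rmlpEll N₁ := by
  have := rmlw_ell_le_add N N₁ 0 (fun x => by simpa using h x)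
  have h0 : rmlpEll (0 : Seminorm ℝ (RmE n)) = 0 := by simp [rmlpEll]
  linarith

/-- definiteness -/
theorem rmlw_ell_pos (N : Seminorm ℝ (RmE n)) (hN : RmlpIsNorm N) (A : RmE n →L[ℝ] RmE n)
    (hA : A ≠ 0) : 0 < rmlpEll (N.comp (A : RmE n →ₗ[ℝ] RmE n)) := by
  refine lt_of_le_of_ne (rmlw_ell_nonneg _) fun h0 => hA ?_
  have h1 : ∫ x, (N.comp (A : RmE n →ₗ[ℝ] RmE n)) x ^ 2 ∂(rmGauss n) = 0 := by
    have := h0.symm
    unfold rmlpEll at this
    rw [Real.sqrt_eq_zero (integral_nonneg fun x => by positivity)] at this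
    exact this
  have hint : Integrable (fun x => (N.comp (A : RmE n →ₗ[ℝ] RmE n)) x ^ 2) (rmGauss n) :=
    (rmlw_memLp _).integrable_sq
  rw [integral_eq_zero_iff_of_nonneg (fun x => by positivity) hint] at h1
  have h2 : ∀ᵐ x ∂(rmGauss n), A x = 0 := by
    filter_upwards [h1] with x hx
    apply hN
    simpa using hx
  ext1 x
  have key : ∀ v : RmE n, (innerSL ℝ v).comp A = 0 := by
    intro v
    have hv := variance_dual_stdGaussian (E := RmE n) ((innerSL ℝ v).comp A)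
    have hz : (fun x => ((innerSL ℝ v).comp A) x) =ᵐ[rmGauss n] (0 : RmE n → ℝ) := by
      filter_upwards [h2] with x hx
      simp [hx]
    rw [variance_congr hz, variance_zero] at hv
    have : ‖(innerSL ℝ v).comp A‖ = 0 := by
      have := hv.symm
      simpa using this
    simpa using this
  have := congrArg (fun L => L x) (key (A x))
  simpa using this

end basics

section main

variable {n : ℕ}

/-- The functional to be minimised. -/
noncomputable def rmlwF (N : Seminorm ℝ (RmE n)) (A : RmE n →L[ℝ] RmE n) : ℝ :=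
  rmlpEll (N.comp (A : RmE n →ₗ[ℝ] RmE n))

theorem rmlwF_add (N : Seminorm ℝ (RmE n)) (A B : RmE n →L[ℝ] RmE n) :
    rmlwF N (A + B) ≤ rmlwF N A + rmlwF N B :=
  rmlw_ell_le_add _ _ _ (fun x => by simpa using map_add_le_add N (A x) (B x))

theorem rmlwF_smul (N : Seminorm ℝ (RmE n)) (c : ℝ) (hc : 0 ≤ c) (A : RmE n →L[ℝ] RmE n) :
    rmlwF N (c • A) = c * rmlwF N A :=
  rmlw_ell_smul _ _ c hc (fun x => by simp [map_smul_eq_mul, abs_of_nonneg hc])

theorem rmlwF_nonneg (N : Seminorm ℝ (RmE n)) (A : RmE n →L[ℝ] RmE n) : 0 ≤ rmlwF N A :=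
  rmlw_ell_nonneg _

theorem rmlwF_le (N : Seminorm ℝ (RmE n)) :
    ∃ K : ℝ, 0 ≤ K ∧ ∀ A : RmE n →L[ℝ] RmE n, rmlwF N A ≤ K * ‖A‖ := by
  obtain ⟨C, hC, hN⟩ := rmlw_bound N
  refine ⟨C * Real.sqrt (∫ x, ‖x‖ ^ 2 ∂(rmGauss n)), by positivity, fun A => ?_⟩
  have hint : Integrable (fun x : RmE n => ‖x‖ ^ 2) (rmGauss n) :=
    ((IsGaussian.memLp_two_id (μ := rmGauss n)).norm).integrable_sq
  have h1 : ∫ x, (N.comp (A : RmE n →ₗ[ℝ] RmE n)) x ^ 2 ∂(rmGauss n)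
      ≤ (C * ‖A‖) ^ 2 * ∫ x, ‖x‖ ^ 2 ∂(rmGauss n) := by
    rw [← integral_const_mul]
    refine integral_mono (rmlw_memLp _).integrable_sq (hint.const_mul _) fun x => ?_
    have h2 : N (A x) ≤ C * ‖A‖ * ‖x‖ := by
      refine (hN _).trans ?_
      rw [mul_assoc]
      exact mul_le_mul_of_nonneg_left (A.le_opNorm x) hC
    have h3 : 0 ≤ N (A x) := apply_nonneg N _
    simp only [Seminorm.comp_apply, ContinuousLinearMap.coe_coe]
    calc N (A x) ^ 2 ≤ (C * ‖A‖ * ‖x‖) ^ 2 := by gcongr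
      _ = (C * ‖A‖) ^ 2 * ‖x‖ ^ 2 := by ring
  unfold rmlwF rmlpEll
  calc Real.sqrt (∫ x, (N.comp (A : RmE n →ₗ[ℝ] RmE n)) x ^ 2 ∂(rmGauss n))
      ≤ Real.sqrt ((C * ‖A‖) ^ 2 * ∫ x, ‖x‖ ^ 2 ∂(rmGauss n)) := Real.sqrt_le_sqrt h1
    _ = C * ‖A‖ * Real.sqrt (∫ x, ‖x‖ ^ 2 ∂(rmGauss n)) := by
        rw [Real.sqrt_mul (by positivity), Real.sqrt_sq (by positivity)]
    _ = _ := by ring

theorem rmlwF_continuous (N : Seminorm ℝ (RmE n)) : Continuous (rmlwF N) := by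
  obtain ⟨K, hK, hN⟩ := rmlwF_le N
  refine (LipschitzWith.of_le_add_mul' K fun A B => ?_).continuous
  have h1 : rmlwF N A ≤ rmlwF N B + rmlwF N (A - B) := by
    have := rmlwF_add N B (A - B)
    simpa using this
  have h2 := hN (A - B)
  rw [dist_eq_norm]
  linarith

theorem rmlwF_lower (hn : 1 ≤ n) (N : Seminorm ℝ (RmE n)) (hN : RmlpIsNorm N) :
    ∃ m : ℝ, 0 < m ∧ ∀ A : RmE n →L[ℝ] RmE n, m * ‖A‖ ≤ rmlwF N A := by
  have : Nonempty (Fin n) := ⟨⟨0, hn⟩⟩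
  have hcomp : IsCompact (Metric.sphere (0 : RmE n →L[ℝ] RmE n) 1) := isCompact_sphere _ _
  have hne : (Metric.sphere (0 : RmE n →L[ℝ] RmE n) 1).Nonempty :=
    ⟨ContinuousLinearMap.id ℝ _, by simp [ContinuousLinearMap.norm_id]⟩
  obtain ⟨A₀, hA₀, hmin⟩ := hcomp.exists_isMinOn hne (rmlwF_continuous N).continuousOn
  have hA₀' : A₀ ≠ 0 := by
    rintro rfl
    simp at hA₀
  refine ⟨rmlwF N A₀, rmlw_ell_pos N hN A₀ hA₀', fun A => ?_⟩
  by_cases hA : A = 0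
  · subst hA
    simpa using rmlwF_nonneg N 0
  have hnA : 0 < ‖A‖ := norm_pos_iff.2 hA
  have h1 : rmlwF N A₀ ≤ rmlwF N (‖A‖⁻¹ • A) := by
    apply hmin
    simp [norm_smul, hnA.ne']
  rw [rmlwF_smul N _ (by positivity)] at h1
  calc rmlwF N A₀ * ‖A‖ ≤ (‖A‖⁻¹ * rmlwF N A) * ‖A‖ := by gcongr
    _ = rmlwF N A := by field_simp

/-- Existence of a minimiser on `det = 1`. -/
theorem rmlwF_exists_min (hn : 1 ≤ n) (N : Seminorm ℝ (RmE n)) (hN : RmlpIsNorm N) :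
    ∃ A₀ : RmE n →L[ℝ] RmE n, A₀.det = 1 ∧ ∀ A : RmE n →L[ℝ] RmE n, A.det = 1 →
      rmlwF N A₀ ≤ rmlwF N A := by
  have : Nonempty (Fin n) := ⟨⟨0, hn⟩⟩
  obtain ⟨m, hm, hlow⟩ := rmlwF_lower hn N hN
  set I : RmE n →L[ℝ] RmE n := ContinuousLinearMap.id ℝ _ with hI
  set R : ℝ := rmlwF N I / m with hR
  have hclosed : IsClosed {A : RmE n →L[ℝ] RmE n | A.det = 1} :=
    isClosed_eq ContinuousLinearMap.continuous_det continuous_const
  have hcomp : IsCompact ({A : RmE n →L[ℝ] RmE n | A.det = 1} ∩ Metric.closedBall 0 R) :=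
    (isCompact_closedBall _ _).inter_left hclosed
  have hImem : I ∈ {A : RmE n →L[ℝ] RmE n | A.det = 1} ∩ Metric.closedBall 0 R := by
    refine ⟨by simp [hI, ContinuousLinearMap.det], ?_⟩
    have := hlow I
    simp only [mem_closedBall_zero_iff, hR]
    rw [le_div_iff₀ hm]
    linarith
  obtain ⟨A₀, hA₀, hmin⟩ := hcomp.exists_isMinOn ⟨I, hImem⟩ (rmlwF_continuous N).continuousOn
  refine ⟨A₀, hA₀.1, fun A hA => ?_⟩
  by_cases hAR : ‖A‖ ≤ R
  · exact hmin ⟨hA, by simpa using hAR⟩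
  · push Not at hAR
    have h1 : rmlwF N A₀ ≤ rmlwF N I := hmin hImem
    have h2 : rmlwF N I < m * ‖A‖ := by
      rw [hR, div_lt_iff₀ hm] at hAR
      linarith
    linarith [hlow A]

/-- Scale invariant form of minimality. -/
theorem rmlwF_scale (hn : 1 ≤ n) (N : Seminorm ℝ (RmE n)) (A₀ : RmE n →L[ℝ] RmE n)
    (hmin : ∀ A : RmE n →L[ℝ] RmE n, A.det = 1 → rmlwF N A₀ ≤ rmlwF N A)
    (A : RmE n →L[ℝ] RmE n) (hA : 0 < A.det) : rmlwF N A₀ ^ n * A.det ≤ rmlwF N A ^ n := by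
  set d := A.det with hd
  set c : ℝ := d ^ (-(1 / (n : ℝ))) with hcdef
  have hc : 0 < c := Real.rpow_pos_of_pos hA _
  have hn' : (n : ℝ) ≠ 0 := by positivity
  have hcn : c ^ n = d⁻¹ := by
    rw [← Real.rpow_natCast, hcdef, ← Real.rpow_mul hA.le]
    have : -(1 / (n : ℝ)) * n = -1 := by field_simp
    rw [this, Real.rpow_neg_one]
  have hdet : (c • A).det = 1 := by
    have h1 : (c • A).det = c ^ n * d := by
      rw [hd]
      simp only [ContinuousLinearMap.det, ContinuousLinearMap.toLinearMap_smul, LinearMap.det_smul,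
        finrank_euclideanSpace_fin]
    rw [h1, hcn]
    exact inv_mul_cancel₀ hA.ne'
  have h1 := hmin _ hdet
  rw [rmlwF_smul N c hc.le] at h1
  have h0 := rmlwF_nonneg N A₀
  calc rmlwF N A₀ ^ n * d ≤ (c * rmlwF N A) ^ n * d := by gcongr
    _ = rmlwF N A ^ n := by rw [mul_pow, hcn]; field_simp

theorem rmlw_det_hasDerivAt (T : RmE n →ₗ[ℝ] RmE n) :
    HasDerivAt (fun ε : ℝ => LinearMap.det (1 + ε • T)) (LinearMap.trace ℝ _ T) 0 := by
  set b := (EuclideanSpace.basisFun (Fin n) ℝ).toBasis with hb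
  set M := LinearMap.toMatrix b b T with hM
  obtain ⟨p, hp⟩ : ∃ p : Polynomial ℝ, ∀ ε : ℝ,
      LinearMap.det (1 + ε • T) = 1 + M.trace * ε + p.eval ε * ε ^ 2 := by
    refine ⟨(Matrix.det (1 + (Polynomial.X : Polynomial ℝ) • M.map Polynomial.C)).divX.divX,
      fun ε => ?_⟩
    rw [← LinearMap.det_toMatrix b, map_add, map_smul, LinearMap.toMatrix_one,
      Matrix.det_one_add_smul]
  have htr : LinearMap.trace ℝ _ T = M.trace := LinearMap.trace_eq_matrix_trace ℝ b T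
  have h1 : HasDerivAt (fun ε : ℝ => 1 + M.trace * ε + p.eval ε * ε ^ 2)
      (M.trace * 1 + (p.derivative.eval 0 * 0 ^ 2 + p.eval 0 * (2 * 0 ^ (2 - 1) * 1))) 0 := by
    have ha : HasDerivAt (fun ε : ℝ => 1 + M.trace * ε) (M.trace * 1) 0 :=
      ((hasDerivAt_id (0 : ℝ)).const_mul M.trace).const_add 1
    have hb' : HasDerivAt (fun ε : ℝ => ε ^ 2) (((2 : ℕ) : ℝ) * 0 ^ (2 - 1) * 1) 0 :=
      (hasDerivAt_id (0 : ℝ)).pow 2
    exact ha.add ((p.hasDerivAt 0).mul (by simpa using hb'))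
  have h2 : (fun ε : ℝ => LinearMap.det (1 + ε • T))
      = fun ε : ℝ => 1 + M.trace * ε + p.eval ε * ε ^ 2 := funext hp
  rw [h2, htr]
  simpa using h1

theorem rmlw_deriv_nonneg {g : ℝ → ℝ} {g' : ℝ} (hg : HasDerivAt g g' 0) (h0 : g 0 = 0)
    (hpos : ∀ᶠ ε in 𝓝[>] (0 : ℝ), 0 ≤ g ε) : 0 ≤ g' := by
  have h := hg.tendsto_slope_zero_right
  refine ge_of_tendsto h ?_
  filter_upwards [hpos, self_mem_nhdsWithin] with ε h1 h2
  have h2' : (0 : ℝ) < ε := h2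
  simp only [zero_add, h0, sub_zero, smul_eq_mul]
  positivity

end main

/-- **Lewis' lemma.** -/
theorem rmlp_lewis : RmlpLewisStmt := by
  intro n hn N hN
  obtain ⟨A₀, hdet, hmin⟩ := rmlwF_exists_min hn N hN
  refine ⟨A₀, hdet, fun T => ?_⟩
  set f₀ := rmlwF N A₀ with hf₀def
  set T' : RmE n →L[ℝ] RmE n := LinearMap.toContinuousLinearMap T with hT'
  set a := rmlwF N (A₀ ∘L T') with ha
  have hA₀ : A₀ ≠ 0 := by
    rintro rfl
    have hn0 : n ≠ 0 := by omega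
    simp [ContinuousLinearMap.det, LinearMap.det_zero, hn0] at hdet
  have hf₀ : 0 < f₀ := rmlw_ell_pos N hN A₀ hA₀
  have e1 : rmlpEll (N.comp (A₀ : RmE n →ₗ[ℝ] RmE n)) = f₀ := rfl
  have e2 : rmlpEll ((N.comp (A₀ : RmE n →ₗ[ℝ] RmE n)).comp T) = a := by
    rw [ha]
    unfold rmlwF
    congr 1
  rw [e1, e2]
  have hcont : ∀ᶠ ε in 𝓝[>] (0 : ℝ), 0 < LinearMap.det (1 + ε • T) := by
    have h1 : Tendsto (fun ε : ℝ => LinearMap.det (1 + ε • T)) (𝓝 0) (𝓝 1) := by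
      have := (rmlw_det_hasDerivAt T).continuousAt.tendsto
      simpa using this
    exact (h1.eventually (lt_mem_nhds one_pos)).filter_mono nhdsWithin_le_nhds
  have key : ∀ᶠ ε in 𝓝[>] (0 : ℝ),
      0 ≤ (f₀ + ε * a) ^ n - f₀ ^ n * LinearMap.det (1 + ε • T) := by
    filter_upwards [hcont, self_mem_nhdsWithin] with ε h1 h2
    have h2' : (0 : ℝ) < ε := h2
    have hAe : A₀ ∘L (1 + ε • T') = A₀ + ε • (A₀ ∘L T') := by
      ext x
      simp
    have hd : (A₀ ∘L (1 + ε • T')).det = LinearMap.det (1 + ε • T) := by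
      have h3 : ((A₀ ∘L (1 + ε • T') : RmE n →L[ℝ] RmE n) : RmE n →ₗ[ℝ] RmE n)
          = (A₀ : RmE n →ₗ[ℝ] RmE n) ∘ₗ (1 + ε • T) := by
        ext x
        simp [hT']
      unfold ContinuousLinearMap.det
      rw [h3, LinearMap.det_comp]
      have : LinearMap.det (A₀ : RmE n →ₗ[ℝ] RmE n) = 1 := hdet
      rw [this, one_mul]
    have h4 := rmlwF_scale hn N A₀ hmin (A₀ ∘L (1 + ε • T')) (by rw [hd]; exact h1)
    rw [hd] at h4
    have h5 : rmlwF N (A₀ ∘L (1 + ε • T')) ≤ f₀ + ε * a := by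
      rw [hAe]
      refine (rmlwF_add N _ _).trans ?_
      rw [rmlwF_smul N ε h2'.le]
    have h6 : rmlwF N (A₀ ∘L (1 + ε • T')) ^ n ≤ (f₀ + ε * a) ^ n :=
      pow_le_pow_left₀ (rmlwF_nonneg N _) h5 n
    linarith
  have hderiv : HasDerivAt (fun ε : ℝ => (f₀ + ε * a) ^ n - f₀ ^ n * LinearMap.det (1 + ε • T))
      ((n : ℝ) * (f₀ + 0 * a) ^ (n - 1) * (1 * a) - f₀ ^ n * LinearMap.trace ℝ _ T) 0 := by
    have h1 : HasDerivAt (fun ε : ℝ => f₀ + ε * a) (1 * a) 0 :=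
      ((hasDerivAt_id (0 : ℝ)).mul_const a).const_add f₀
    exact (h1.pow n).sub ((rmlw_det_hasDerivAt T).const_mul _)
  have hfin := rmlw_deriv_nonneg hderiv (by simp) key
  have hpow : f₀ ^ n = f₀ ^ (n - 1) * f₀ := by
    rw [← pow_succ]
    congr 1
    omega
  simp only [zero_mul, add_zero, one_mul] at hfin
  rw [hpow] at hfin
  have hpos : 0 < f₀ ^ (n - 1) := by positivity
  have : 0 ≤ f₀ ^ (n - 1) * ((n : ℝ) * a - LinearMap.trace ℝ _ T * f₀) := by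
    nlinarith [hfin]
  have := nonneg_of_mul_nonneg_right this hpos
  linarith

end Claimed.Agent.R293
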