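/-
Row 293 (S0541), black box "Reverse Minkowski", package LPos: assembly of the main statement from
the leaves.  Owner: helper225.
-/
import Claimed.Agent.R293.RM.LPosDefs

set_option autoImplicit false

namespace Claimed.Agent.R293

open MeasureTheory ProbabilityTheory
open scoped RealInnerProductSpace ENNReal NNReal

theorem rmlpM_one_le (n : ℕ) : 1 ≤ rmlpM n := by unfold rmlpM; omega

theorem rmlpM_le_pow (n : ℕ) : (n : ℝ) ≤ 2 ^ rmlpM n := by
  have h1 : n ≤ 2 ^ Nat.clog 2 n := Nat.le_pow_clog (by norm_num) n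
  have h2 : 2 ^ Nat.clog 2 n ≤ 2 ^ rmlpM n := Nat.pow_le_pow_right (by norm_num) (by unfold rmlpM; omega)
  exact_mod_cast h1.trans h2

theorem rmlpK_nonneg {n : ℕ} (hn : 1 ≤ n) : 0 ≤ rmlpK n := by
  unfold rmlpK
  have h1 : (1 : ℝ) ≤ 2 * n := by
    have : (1 : ℝ) ≤ n := by exact_mod_cast hn
    linarith
  have := Real.log_nonneg h1
  positivity

theorem rmlpEll_nonneg {n : ℕ} (N : Seminorm ℝ (RmE n)) : 0 ≤ rmlpEll N := Real.sqrt_nonneg _

/-- The key estimate in Lewis position: `ℓ(N) * w(N) ≤ n * K`. -/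
theorem rmlp_ell_mul_width (hD : RmlpDistStmt) (hS : RmlpSelectStmt) (hT : RmlpTraceStmt)
    (hK : RmlpKgaussStmt) {n : ℕ} (hn : 1 ≤ n) (N : Seminorm ℝ (RmE n)) (hN : RmlpIsNorm N)
    (hpos : RmlpLewisPos N) (hint : Integrable (rmlpSupp N) (rmGauss n)) :
    (∫ g, rmlpSupp N g ∂(rmGauss n)) * rmlpEll N ≤ n * rmlpK n := by
  obtain ⟨ha, hbd⟩ := hD n hn N hN hpos
  set a := rmlpEll N with ha_def
  have hn0 : (0 : ℝ) < n := by exact_mod_cast hn
  have hc : 0 < (n : ℝ) / a := div_pos hn0 ha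
  -- it suffices to prove the bound up to `η`
  suffices H : ∀ η : ℝ, 0 < η → ((∫ g, rmlpSupp N g ∂(rmGauss n)) - η) * a ≤ n * rmlpK n by
    by_contra hcon
    push Not at hcon
    set w := ∫ g, rmlpSupp N g ∂(rmGauss n) with hw
    have hgap : 0 < w * a - n * rmlpK n := by linarith
    have := H ((w * a - n * rmlpK n) / (2 * a)) (by positivity)
    have e : (w - (w * a - n * rmlpK n) / (2 * a)) * a = w * a - (w * a - n * rmlpK n) / 2 := by
      field_simp
    rw [e] at this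
    linarith
  intro η hη
  obtain ⟨F, hFm, hF1, hFs⟩ := hS n N hN η hη
  have hFb : ∀ g, ‖F g‖ ≤ n / a := by
    intro g
    have h1 := (hbd (F g)).1
    have h2 := hF1 g
    rw [le_div_iff₀ ha]
    calc ‖F g‖ * a = a * ‖F g‖ := mul_comm _ _
      _ ≤ n * N (F g) := h1
      _ ≤ n * 1 := by gcongr
      _ = n := mul_one _
  obtain ⟨T, hTx, hTtr⟩ := hT n F (n / a) hFm hFb
  -- the rescaled norm
  let c : ℝ≥0 := ⟨(n : ℝ) / a, hc.le⟩
  let N1 : Seminorm ℝ (RmE n) := c • N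
  have hN1 : ∀ x, N1 x = (n : ℝ) / a * N x := by
    intro x
    simp only [N1, smul_apply]
    rfl
  have h1 : ∀ x, ‖x‖ ≤ N1 x := by
    intro x
    rw [hN1, div_mul_eq_mul_div, le_div_iff₀ ha, mul_comm]
    exact (hbd x).1
  have h2 : ∀ x, N1 x ≤ 2 ^ rmlpM n * ‖x‖ := by
    intro x
    rw [hN1]
    calc (n : ℝ) / a * N x ≤ (n : ℝ) / a * (a * ‖x‖) := by
          gcongr
          exact (hbd x).2
      _ = n * ‖x‖ := by field_simp
      _ ≤ 2 ^ rmlpM n * ‖x‖ := by
          gcongr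
          exact rmlpM_le_pow n
  have h3 : ∀ g, N1 (F g) ≤ (n : ℝ) / a := by
    intro g
    rw [hN1]
    calc (n : ℝ) / a * N (F g) ≤ (n : ℝ) / a * 1 := by
          gcongr
          exact hF1 g
      _ = _ := mul_one _
  have hKg := hK n (rmlpM n) hn (rmlpM_one_le n) N1 h1 h2 F (n / a) hFm h3
  have e1 : ∫ x, N1 (rmlpTF F x) ^ 2 ∂(rmGauss n)
      = ((n : ℝ) / a) ^ 2 * ∫ x, N (rmlpTF F x) ^ 2 ∂(rmGauss n) := by
    rw [← integral_const_mul]
    congr 1
    ext x
    rw [hN1, mul_pow]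
  have e2 : (3 * (rmlpM n : ℝ) * ((rmlpM n : ℝ) + 1) * (4 * Real.log (2 * n)) * ((n : ℝ) / a)) ^ 2
      = ((n : ℝ) / a) ^ 2 * rmlpK n ^ 2 := by
    unfold rmlpK; ring
  rw [e1, e2] at hKg
  have hKg' : ∫ x, N (rmlpTF F x) ^ 2 ∂(rmGauss n) ≤ rmlpK n ^ 2 :=
    le_of_mul_le_mul_left hKg (by positivity)
  have hell : rmlpEll (N.comp T) ≤ rmlpK n := by
    unfold rmlpEll
    have : ∀ x, (N.comp T) x = N (rmlpTF F x) := fun x => by
      rw [Seminorm.comp_apply, hTx]
    simp_rw [this]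
    calc Real.sqrt (∫ x, N (rmlpTF F x) ^ 2 ∂(rmGauss n)) ≤ Real.sqrt (rmlpK n ^ 2) :=
          Real.sqrt_le_sqrt hKg'
      _ = rmlpK n := Real.sqrt_sq (rmlpK_nonneg hn)
  have hLew := hpos T
  -- lower bound of the trace
  have hint2 : Integrable (fun g => ⟪g, F g⟫) (rmGauss n) := by
    have hid : Integrable (fun g : RmE n => ((n : ℝ) / a) * ‖g‖) (rmGauss n) :=
      ((IsGaussian.integrable_id (μ := rmGauss n)).norm).const_mul _
    refine hid.mono' ?_ ?_
    · exact (Measurable.inner measurable_id hFm).aestronglyMeasurable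
    · refine Filter.Eventually.of_forall fun g => ?_
      calc ‖⟪g, F g⟫‖ ≤ ‖g‖ * ‖F g‖ := norm_inner_le_norm _ _
        _ ≤ ‖g‖ * ((n : ℝ) / a) := by
            gcongr
            exact hFb g
        _ = _ := mul_comm _ _
  have htr : (∫ g, rmlpSupp N g ∂(rmGauss n)) - η ≤ LinearMap.trace ℝ (RmE n) T := by
    rw [hTtr]
    have : ∫ g, (rmlpSupp N g - η) ∂(rmGauss n) = (∫ g, rmlpSupp N g ∂(rmGauss n)) - η := by
      rw [integral_sub hint (integrable_const _)]
      simp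
    rw [← this]
    exact integral_mono (hint.sub (integrable_const _)) hint2 hFs
  calc ((∫ g, rmlpSupp N g ∂(rmGauss n)) - η) * a
      ≤ LinearMap.trace ℝ (RmE n) T * a := by gcongr
    _ ≤ n * rmlpEll (N.comp T) := hLew
    _ ≤ n * rmlpK n := by gcongr

/-- **Assembly of the main statement of the package LPos.** -/
theorem rmlp_main_of_leaves (hL : RmlpLewisStmt) (hD : RmlpDistStmt) (hS : RmlpSelectStmt)
    (hT : RmlpTraceStmt) (hK : RmlpKgaussStmt) (hSu : RmlpSudakovStmt) (hF : RmlpFerniqueStmt) :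
    RmlpMainStmt := by
  intro n hn N hN hvol
  obtain ⟨B, hdet, hpos⟩ := hL n hn N hN
  refine ⟨B, hdet, ?_⟩
  have hn0 : (0 : ℝ) < n := by exact_mod_cast hn
  have hdet0 : LinearMap.det B ≠ 0 := by rw [hdet]; exact one_ne_zero
  -- `N ∘ B` is a norm
  have hinj : Function.Injective B := by
    have := (LinearMap.isUnit_iff_isUnit_det B).mpr (by rw [hdet]; exact isUnit_one)
    exact ((Module.End.isUnit_iff B).mp this).injective
  have hN0 : RmlpIsNorm (N.comp B) := by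
    intro x hx
    rw [Seminorm.comp_apply] at hx
    have := hN _ hx
    exact hinj (by rw [this, map_zero])
  -- its unit ball has the same volume
  have hvol0 : 1 ≤ volume {x | (N.comp B) x ≤ 1} := by
    have e : {x | (N.comp B) x ≤ 1} = B ⁻¹' {x | N x ≤ 1} := rfl
    rw [e, MeasureTheory.Measure.addHaar_preimage_linearMap _ hdet0, hdet]
    simpa using hvol
  obtain ⟨hint, hw⟩ := hSu n hn (N.comp B) hN0 hvol0
  have hkey := rmlp_ell_mul_width hD hS hT hK hn (N.comp B) hN0 hpos hint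
  have ha0 := rmlpEll_nonneg (N.comp B)
  have hell : rmlpEll (N.comp B) ≤ 300 * rmlpK n := by
    have h1 : (n : ℝ) / 300 * rmlpEll (N.comp B) ≤ n * rmlpK n :=
      (mul_le_mul_of_nonneg_right hw ha0).trans hkey
    have h2 : (n : ℝ) * (rmlpEll (N.comp B) / 300) ≤ n * rmlpK n := by
      calc (n : ℝ) * (rmlpEll (N.comp B) / 300) = (n : ℝ) / 300 * rmlpEll (N.comp B) := by ring
        _ ≤ _ := h1
    have h3 := le_of_mul_le_mul_left h2 hn0
    linarith
  intro q hq
  have hFq := hF n (N.comp B) q hq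
  calc ∫ x, N (B x) ^ q ∂(rmGauss n) = ∫ x, (N.comp B) x ^ q ∂(rmGauss n) := rfl
    _ ≤ (30 * Real.sqrt q * rmlpEll (N.comp B)) ^ q := hFq
    _ ≤ (rmlpConst n * Real.sqrt q) ^ q := by
        apply pow_le_pow_left₀ (by positivity)
        unfold rmlpConst
        calc 30 * Real.sqrt q * rmlpEll (N.comp B) ≤ 30 * Real.sqrt q * (300 * rmlpK n) := by gcongr
          _ = 30 * (300 * rmlpK n) * Real.sqrt q := by ring

end Claimed.Agent.R293
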