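/-
Row 293 (S0541), Reverse Minkowski, package LPos, leaf (B3): second moment of the maximum of
`n` standard Gaussians.
Owner of this file: helper246.
-/
import Claimed.Agent.R293.RM.LPosDefs

set_option autoImplicit false

namespace Claimed.Agent.R293

open MeasureTheory ProbabilityTheory Real

/-- pointwise identity: Gaussian density times `exp (x²/4)`. -/
theorem rmlpB3_pdf_mul (x : ℝ) :
    gaussianPDFReal 0 1 x * Real.exp (x ^ 2 / 4)
      = (Real.sqrt (2 * π))⁻¹ * Real.exp (-(1 / 4) * x ^ 2) := by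
  rw [gaussianPDFReal_def]
  simp only [NNReal.coe_one, mul_one, sub_zero]
  rw [mul_assoc, ← Real.exp_add]
  congr 2
  ring

theorem rmlpB3_integrable_real :
    Integrable (fun x : ℝ => Real.exp (x ^ 2 / 4)) (gaussianReal 0 1) := by
  rw [gaussianReal_of_var_ne_zero 0 one_ne_zero,
    integrable_withDensity_iff_integrable_smul' (measurable_gaussianPDF 0 1)
      (ae_of_all _ fun _ => gaussianPDF_lt_top)]
  have : (fun x : ℝ => (gaussianPDF 0 1 x).toReal • Real.exp (x ^ 2 / 4))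
      = fun x : ℝ => (Real.sqrt (2 * π))⁻¹ * Real.exp (-(1 / 4) * x ^ 2) := by
    funext x
    rw [toReal_gaussianPDF, smul_eq_mul, rmlpB3_pdf_mul]
  rw [this]
  exact (integrable_exp_neg_mul_sq (by norm_num : (0 : ℝ) < 1 / 4)).const_mul _

theorem rmlpB3_integral_real :
    ∫ x : ℝ, Real.exp (x ^ 2 / 4) ∂(gaussianReal 0 1) = Real.sqrt 2 := by
  rw [integral_gaussianReal_eq_integral_smul one_ne_zero]
  have : (fun x : ℝ => gaussianPDFReal 0 1 x • Real.exp (x ^ 2 / 4))
      = fun x : ℝ => (Real.sqrt (2 * π))⁻¹ * Real.exp (-(1 / 4) * x ^ 2) := by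
    funext x
    rw [smul_eq_mul, rmlpB3_pdf_mul]
  rw [this, integral_const_mul, integral_gaussian]
  have hpi : (0 : ℝ) < π := Real.pi_pos
  have h1 : π / (1 / 4) = 2 * (2 * π) := by ring
  have h3 : Real.sqrt (2 * (2 * π)) = Real.sqrt (2 * π) * Real.sqrt 2 := by
    rw [Real.sqrt_mul (by norm_num : (0 : ℝ) ≤ 2) (2 * π), mul_comm]
  have h2 : Real.sqrt (2 * π) ≠ 0 := by positivity
  rw [h1, h3, ← mul_assoc, inv_mul_cancel₀ h2, one_mul]

/-- The coordinates of the standard Gaussian vector are standard Gaussians. -/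
theorem rmlpB3_map_coord (n : ℕ) (i : Fin n) :
    (rmGauss n).map (fun x : RmE n => x i) = gaussianReal 0 1 := by
  have h := measurePreserving_eval_multivariateGaussian (μ := (0 : EuclideanSpace ℝ (Fin n)))
    (S := (1 : Matrix (Fin n) (Fin n) ℝ)) Matrix.PosSemidef.one (i := i)
  have h2 := h.map_eq
  rw [multivariateGaussian_zero_one] at h2
  simpa using h2

theorem rmlpB3_integrable_coord (n : ℕ) (i : Fin n) :
    Integrable (fun x : RmE n => Real.exp ((x i) ^ 2 / 4)) (rmGauss n) := by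
  have hm : AEMeasurable (fun x : RmE n => x i) (rmGauss n) :=
    Measurable.aemeasurable (by fun_prop)
  have h := rmlpB3_integrable_real
  rw [← rmlpB3_map_coord n i] at h
  exact (integrable_map_measure (by fun_prop) hm).1 h

theorem rmlpB3_integral_coord (n : ℕ) (i : Fin n) :
    ∫ x : RmE n, Real.exp ((x i) ^ 2 / 4) ∂(rmGauss n) = Real.sqrt 2 := by
  have hm : AEMeasurable (fun x : RmE n => x i) (rmGauss n) :=
    Measurable.aemeasurable (by fun_prop)
  rw [← rmlpB3_integral_real, ← rmlpB3_map_coord n i, integral_map hm (by fun_prop)]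

theorem rmlpB3_exists_coord {n : ℕ} (hn : 1 ≤ n) (x : RmE n) :
    ∃ i : Fin n, rmlpMaxAbs x = |x i| := by
  have : Nonempty (Fin n) := ⟨⟨0, hn⟩⟩
  obtain ⟨i, -, hi⟩ := Finset.exists_mem_eq_sup (Finset.univ : Finset (Fin n))
    Finset.univ_nonempty (fun b => ‖(x.ofLp : Fin n → ℝ) b‖₊)
  refine ⟨i, ?_⟩
  unfold rmlpMaxAbs
  rw [Pi.norm_def, hi]
  simp

theorem rmlpB3_exp_le {n : ℕ} (hn : 1 ≤ n) (x : RmE n) :
    Real.exp (rmlpMaxAbs x ^ 2 / 4) ≤ ∑ i : Fin n, Real.exp ((x i) ^ 2 / 4) := by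
  obtain ⟨i, hi⟩ := rmlpB3_exists_coord hn x
  rw [hi, sq_abs]
  exact Finset.single_le_sum (f := fun i : Fin n => Real.exp ((x i) ^ 2 / 4))
    (fun j _ => (Real.exp_pos _).le) (Finset.mem_univ i)

theorem rmlpB3_measurable (n : ℕ) : Measurable (fun x : RmE n => rmlpMaxAbs x) := by
  unfold rmlpMaxAbs
  fun_prop

theorem rmlpB3_integrable_exp {n : ℕ} (hn : 1 ≤ n) :
    Integrable (fun x : RmE n => Real.exp (rmlpMaxAbs x ^ 2 / 4)) (rmGauss n) := by
  have hsum : Integrable (fun x : RmE n => ∑ i : Fin n, Real.exp ((x i) ^ 2 / 4)) (rmGauss n) :=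
    integrable_finsetSum _ fun i _ => rmlpB3_integrable_coord n i
  refine hsum.mono' ?_ (ae_of_all _ fun x => ?_)
  · have := rmlpB3_measurable n
    exact Measurable.aestronglyMeasurable (by fun_prop)
  · rw [Real.norm_of_nonneg (Real.exp_pos _).le]
    exact rmlpB3_exp_le hn x

theorem rmlpB3_integral_exp_le {n : ℕ} (hn : 1 ≤ n) :
    ∫ x : RmE n, Real.exp (rmlpMaxAbs x ^ 2 / 4) ∂(rmGauss n) ≤ n * Real.sqrt 2 := by
  have hsum : Integrable (fun x : RmE n => ∑ i : Fin n, Real.exp ((x i) ^ 2 / 4)) (rmGauss n) :=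
    integrable_finsetSum _ fun i _ => rmlpB3_integrable_coord n i
  calc ∫ x : RmE n, Real.exp (rmlpMaxAbs x ^ 2 / 4) ∂(rmGauss n)
      ≤ ∫ x : RmE n, ∑ i : Fin n, Real.exp ((x i) ^ 2 / 4) ∂(rmGauss n) :=
        integral_mono (rmlpB3_integrable_exp hn) hsum (fun x => rmlpB3_exp_le hn x)
    _ = ∑ i : Fin n, ∫ x : RmE n, Real.exp ((x i) ^ 2 / 4) ∂(rmGauss n) :=
        integral_finsetSum _ fun i _ => rmlpB3_integrable_coord n i
    _ = n * Real.sqrt 2 := by
        simp [rmlpB3_integral_coord]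

theorem rmlpB3_integrable_div {n : ℕ} (hn : 1 ≤ n) :
    Integrable (fun x : RmE n => rmlpMaxAbs x ^ 2 / 4) (rmGauss n) := by
  refine (rmlpB3_integrable_exp hn).mono' ?_ (ae_of_all _ fun x => ?_)
  · have := rmlpB3_measurable n
    exact Measurable.aestronglyMeasurable (by fun_prop)
  · rw [Real.norm_of_nonneg (by positivity)]
    have := Real.add_one_le_exp (rmlpMaxAbs x ^ 2 / 4)
    linarith

/-- **(B3) Second moment of the maximum of `n` standard Gaussians.** -/
theorem rmlp_maxSq : RmlpMaxSqStmt := by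
  intro n hn
  have hint := rmlpB3_integrable_div hn
  have hint2 : Integrable (fun x : RmE n => rmlpMaxAbs x ^ 2) (rmGauss n) := by
    have := hint.const_mul 4
    refine this.congr (ae_of_all _ fun x => ?_)
    simp only
    ring
  refine ⟨hint2, ?_⟩
  have hJ : Real.exp (∫ x : RmE n, rmlpMaxAbs x ^ 2 / 4 ∂(rmGauss n))
      ≤ ∫ x : RmE n, Real.exp (rmlpMaxAbs x ^ 2 / 4) ∂(rmGauss n) :=
    convexOn_exp.map_integral_le Real.continuous_exp.continuousOn isClosed_univ
      (ae_of_all _ fun _ => Set.mem_univ _) hint (rmlpB3_integrable_exp hn)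
  have hn0 : (0 : ℝ) < n := by exact_mod_cast hn
  have h2 : Real.sqrt 2 ≤ 2 := by
    rw [Real.sqrt_le_left (by norm_num)]
    norm_num
  have hle : Real.exp (∫ x : RmE n, rmlpMaxAbs x ^ 2 / 4 ∂(rmGauss n)) ≤ 2 * n := by
    refine hJ.trans ((rmlpB3_integral_exp_le hn).trans ?_)
    nlinarith
  have hlog : ∫ x : RmE n, rmlpMaxAbs x ^ 2 / 4 ∂(rmGauss n) ≤ Real.log (2 * n) := by
    rw [Real.le_log_iff_exp_le (by positivity)]
    exact hle
  rw [integral_div] at hlog
  linarith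

end Claimed.Agent.R293
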