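/-
Row 293 (S0541), black box "Reverse Minkowski", package LPos, leaf (F2):
dual Sudakov inequality in packing form.
Owner: helper96.
-/
import Claimed.Agent.R293.RM.LPosDefs

set_option autoImplicit false

namespace Claimed.Agent.R293

open MeasureTheory ProbabilityTheory
open scoped RealInnerProductSpace ENNReal NNReal

/-- A seminorm on `ℝ^n` is continuous. -/
theorem rmlpF2_seminorm_continuous {n : ℕ} (h : Seminorm ℝ (RmE n)) : Continuous h :=
  (h.convexOn.locallyLipschitz).continuous

/-- **(F2)** Dual Sudakov inequality, packing form. -/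
theorem rmlp_pack (hsh : RmlpShiftStmt) : RmlpPackStmt := by
  intro n h η hη hw S hS1 hSsep
  set w := ∫ g, h g ∂(rmGauss n) with hwdef
  have hcont := rmlpF2_seminorm_continuous h
  have hint : Integrable (fun g => h g) (rmGauss n) := by
    by_contra hcon
    rw [hwdef, integral_undef hcon] at hw
    exact lt_irrefl _ hw
  -- the symmetric set
  set T : Set (RmE n) := {x | h x < 2 * w} with hT
  have hTm : MeasurableSet T := (isOpen_lt hcont continuous_const).measurableSet
  have hTsym : ∀ x ∈ T, -x ∈ T := by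
    intro x hx
    simpa [hT, map_neg_eq_map] using hx
  -- Markov
  have hTc : rmGauss n Tᶜ ≤ 1 / 2 := by
    have hmk := mul_meas_ge_le_integral_of_nonneg (μ := rmGauss n) (f := fun g => h g)
      (Filter.Eventually.of_forall fun g => apply_nonneg h g) hint (2 * w)
    have hset : Tᶜ = {x | 2 * w ≤ h x} := by
      ext x
      simp [hT]
    rw [hset]
    have h2 : (rmGauss n).real {x | 2 * w ≤ h x} ≤ 1 / 2 := by
      have : 2 * w * (rmGauss n).real {x | 2 * w ≤ h x} ≤ w := hmk
      rw [le_div_iff₀ (by norm_num)]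
      nlinarith
    have h3 : rmGauss n {x | 2 * w ≤ h x} = ENNReal.ofReal ((rmGauss n).real {x | 2 * w ≤ h x}) := by
      rw [ofReal_measureReal]
    rw [h3]
    calc ENNReal.ofReal ((rmGauss n).real {x | 2 * w ≤ h x}) ≤ ENNReal.ofReal (1 / 2) :=
          ENNReal.ofReal_le_ofReal h2
      _ = 1 / 2 := by
          rw [ENNReal.ofReal_div_of_pos (by norm_num)]
          simp
  have hThalf : (1 / 2 : ℝ≥0∞) ≤ rmGauss n T := by
    have h1 : rmGauss n T + rmGauss n Tᶜ = 1 := by
      rw [measure_add_measure_compl hTm, measure_univ]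
    by_contra hcon
    push Not at hcon
    have : rmGauss n T + rmGauss n Tᶜ < 1 / 2 + 1 / 2 :=
      ENNReal.add_lt_add_of_lt_of_le (by simp) hcon hTc
    rw [h1, ENNReal.add_halves] at this
    exact lt_irrefl _ this
  -- the shifts
  set lam : ℝ := 4 * w / η with hlam
  have hlam0 : 0 < lam := by positivity
  let A : RmE n → Set (RmE n) := fun u => {x | x - lam • u ∈ T}
  have hAm : ∀ u, MeasurableSet (A u) := fun u => (measurable_sub_const (lam • u)) hTm
  have hdisj : (S : Set (RmE n)).PairwiseDisjoint A := by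
    intro u hu v hv huv
    rw [Function.onFun, Set.disjoint_left]
    intro x hxu hxv
    have h1 : h (x - lam • u) < 2 * w := hxu
    have h2 : h (x - lam • v) < 2 * w := hxv
    have h3 : h (lam • (u - v)) ≤ h (x - lam • v) + h (x - lam • u) := by
      have : lam • (u - v) = (x - lam • v) - (x - lam • u) := by
        rw [smul_sub]; abel
      rw [this]
      exact map_sub_le_add h _ _
    have h4 : h (lam • (u - v)) = lam * h (u - v) := by
      rw [map_smul_eq_mul, Real.norm_eq_abs, abs_of_pos hlam0]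
    have h5 := hSsep u hu v hv huv
    have h6 : lam * η = 4 * w := by
      rw [hlam]; field_simp
    have h7 : lam * η ≤ lam * h (u - v) := by gcongr
    linarith
  have hsum : ∑ u ∈ S, rmGauss n (A u) ≤ 1 := by
    rw [← measure_biUnion_finset hdisj (fun u _ => hAm u)]
    exact prob_le_one
  set c : ℝ := Real.exp (-lam ^ 2 / 2) / 2 with hc
  have hc0 : 0 < c := by positivity
  have hlow : ∀ u ∈ S, ENNReal.ofReal c ≤ rmGauss n (A u) := by
    intro u hu
    have h1 := hsh n T hTm hTsym (lam • u)
    refine le_trans ?_ h1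
    have h2 : ‖lam • u‖ ^ 2 ≤ lam ^ 2 := by
      rw [norm_smul, Real.norm_eq_abs, abs_of_pos hlam0, mul_pow]
      have : ‖u‖ ^ 2 ≤ 1 := by
        have := hS1 u hu
        nlinarith [norm_nonneg u]
      nlinarith [sq_nonneg lam]
    calc ENNReal.ofReal c = ENNReal.ofReal (Real.exp (-lam ^ 2 / 2)) * (1 / 2) := by
          rw [hc, div_eq_mul_inv, ENNReal.ofReal_mul (Real.exp_pos _).le,
            ENNReal.ofReal_inv_of_pos (by norm_num)]
          simp
      _ ≤ ENNReal.ofReal (Real.exp (-‖lam • u‖ ^ 2 / 2)) * rmGauss n T := by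
          gcongr
  have hcard : (S.card : ℝ≥0∞) * ENNReal.ofReal c ≤ 1 := by
    calc (S.card : ℝ≥0∞) * ENNReal.ofReal c = ∑ _u ∈ S, ENNReal.ofReal c := by
          rw [Finset.sum_const, nsmul_eq_mul]
      _ ≤ ∑ u ∈ S, rmGauss n (A u) := Finset.sum_le_sum hlow
      _ ≤ 1 := hsum
  have hcard' : (S.card : ℝ) * c ≤ 1 := by
    have : ENNReal.ofReal ((S.card : ℝ) * c) ≤ ENNReal.ofReal 1 := by
      rw [ENNReal.ofReal_mul (by positivity), ENNReal.ofReal_natCast, ENNReal.ofReal_one]
      exact hcard
    exact (ENNReal.ofReal_le_ofReal_iff (by norm_num)).mp this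
  have e : 2 * Real.exp (8 * w ^ 2 / η ^ 2) = c⁻¹ := by
    have e1 : 8 * w ^ 2 / η ^ 2 = -(-lam ^ 2 / 2) := by
      rw [hlam]
      field_simp
      ring
    rw [hc, inv_div, e1, Real.exp_neg]
    rfl
  rw [e, ← one_div]
  exact (le_div_iff₀ hc0).mpr hcard'

end Claimed.Agent.R293
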