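/-
Row 293, package RM-LPos, leaf (F4): Sudakov minoration in packing form, by
Tomczak-Jaegermann's iteration of the dual Sudakov inequality (F2).
Owner: helper38.
-/
import Claimed.Agent.R293.RM.LPosDefs

set_option autoImplicit false

namespace Claimed.Agent.R293

open MeasureTheory ProbabilityTheory
open scoped RealInnerProductSpace ENNReal

/-- `T` is `δ`-separated for the Euclidean norm. -/
def RmlpF4Sep {n : ℕ} (δ : ℝ) (T : Finset (RmE n)) : Prop :=
  ∀ u ∈ T, ∀ v ∈ T, u ≠ v → δ ≤ ‖u - v‖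

/-- A maximal `δ`-separated subset of a finite set is a `δ`-net of it. -/
theorem rmlpF4_exists_net {n : ℕ} (δ : ℝ) (hδ : 0 < δ) (S : Finset (RmE n)) :
    ∃ S' ⊆ S, RmlpF4Sep δ S' ∧ ∀ u ∈ S, ∃ v ∈ S', ‖u - v‖ < δ := by
  classical
  have hne : (S.powerset.filter (RmlpF4Sep δ)).Nonempty :=
    ⟨∅, by simp [RmlpF4Sep]⟩
  obtain ⟨S', hS', hmax⟩ := Finset.exists_max_image _ Finset.card hne
  rw [Finset.mem_filter, Finset.mem_powerset] at hS'
  refine ⟨S', hS'.1, hS'.2, fun u hu => ?_⟩
  by_cases huS : u ∈ S'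
  · exact ⟨u, huS, by simpa using hδ⟩
  · by_contra hcon
    push Not at hcon
    have hins : insert u S' ∈ S.powerset.filter (RmlpF4Sep δ) := by
      rw [Finset.mem_filter, Finset.mem_powerset]
      refine ⟨Finset.insert_subset hu hS'.1, ?_⟩
      intro a ha b hb hab
      rw [Finset.mem_insert] at ha hb
      rcases ha with rfl | ha <;> rcases hb with rfl | hb
      · exact absurd rfl hab
      · exact hcon b hb
      · rw [norm_sub_rev]; exact hcon a ha
      · exact hS'.2 a ha b hb hab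
    have := hmax _ hins
    rw [Finset.card_insert_of_notMem huS] at this
    omega

/-- The fibres: an `ε`-separated subset of the unit ball of `N` inside a Euclidean ball of radius
`2 ε` is small, by the dual Sudakov inequality. -/
theorem rmlpF4_fibre (hP : RmlpPackStmt) {n : ℕ} (N h : Seminorm ℝ (RmE n))
    (hNh : ∀ x y, ⟪x, y⟫ ≤ N x * h y) (hw : 0 < ∫ g, h g ∂(rmGauss n)) (ε : ℝ) (hε : 0 < ε)
    (v : RmE n) (T : Finset (RmE n)) (hTN : ∀ u ∈ T, N u ≤ 1) (hT : RmlpF4Sep ε T)
    (hTv : ∀ u ∈ T, ‖u - v‖ < 2 * ε) :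
    (T.card : ℝ) ≤ 2 * Real.exp (128 * (∫ g, h g ∂(rmGauss n)) ^ 2 / ε ^ 2) := by
  classical
  set φ : RmE n → RmE n := fun u => (2 * ε)⁻¹ • (u - v) with hφ
  have h2ε : 0 < 2 * ε := by positivity
  have hinj : Function.Injective φ := by
    intro a b hab
    have := smul_right_injective (RmE n) (inv_ne_zero h2ε.ne') hab
    exact sub_left_injective this
  have hcard : (T.image φ).card = T.card := Finset.card_image_of_injective _ hinj
  have hsub : ∀ a b : RmE n, φ a - φ b = (2 * ε)⁻¹ • (a - b) := by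
    intro a b
    simp only [hφ, ← smul_sub]
    congr 1
    abel
  have key := hP n h (ε / 4) (by positivity) hw (T.image φ) ?_ ?_
  · rw [hcard] at key
    refine key.trans (le_of_eq ?_)
    congr 2
    field_simp
    ring
  · intro u hu
    obtain ⟨a, ha, rfl⟩ := Finset.mem_image.1 hu
    simp only [hφ, norm_smul, norm_inv, Real.norm_eq_abs, abs_of_pos h2ε]
    rw [inv_mul_le_iff₀ h2ε, mul_one]
    exact (hTv a ha).le
  · intro u hu u' hu' huu'
    obtain ⟨a, ha, rfl⟩ := Finset.mem_image.1 hu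
    obtain ⟨b, hb, rfl⟩ := Finset.mem_image.1 hu'
    have hab : a ≠ b := fun hab => huu' (by rw [hab])
    have h1 : ε ≤ ‖a - b‖ := hT a ha b hb hab
    have h2 : ε ^ 2 ≤ 2 * h (a - b) := by
      calc ε ^ 2 ≤ ‖a - b‖ ^ 2 := by gcongr
        _ = ⟪a - b, a - b⟫ := (real_inner_self_eq_norm_sq _).symm
        _ ≤ N (a - b) * h (a - b) := hNh _ _
        _ ≤ 2 * h (a - b) := by
          refine mul_le_mul_of_nonneg_right ?_ (apply_nonneg h _)
          calc N (a - b) ≤ N a + N b := map_sub_le_add N a b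
            _ ≤ 2 := by linarith [hTN a ha, hTN b hb]
    rw [hsub, map_smul_eq_mul, Real.norm_eq_abs, abs_of_pos (inv_pos.2 h2ε),
      le_inv_mul_iff₀ h2ε]
    nlinarith

/-- **(F4)** Sudakov minoration, packing form. -/
theorem rmlp_sep (hP : RmlpPackStmt) : RmlpSepStmt := by
  classical
  intro n N h hNh hw k
  induction k with
  | zero =>
    intro ε hε hdiam S hSN hS
    have hcard : S.card ≤ 1 := by
      rw [Finset.card_le_one]
      intro a ha b hb
      by_contra hab
      have h1 := hS a ha b hb hab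
      have h2 := hdiam a b (hSN a ha) (hSN b hb)
      simp only [pow_zero, one_mul] at h2
      exact absurd h1 (not_le.2 h2)
    have h1 : (S.card : ℝ) ≤ 1 := by exact_mod_cast hcard
    have h2 : (1 : ℝ) ≤ Real.exp (512 / 3 * (∫ g, h g ∂(rmGauss n)) ^ 2 / ε ^ 2) :=
      Real.one_le_exp (by positivity)
    simpa using h1.trans h2
  | succ k ih =>
    intro ε hε hdiam S hSN hS
    set w := ∫ g, h g ∂(rmGauss n) with hwdef
    obtain ⟨S', hS'S, hS'sep, hnet⟩ := rmlpF4_exists_net (2 * ε) (by positivity) S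
    -- the coarse part
    have hcoarse : (S'.card : ℝ) ≤ 2 ^ k * Real.exp (512 / 3 * w ^ 2 / (2 * ε) ^ 2) := by
      refine ih (2 * ε) (by positivity) ?_ S' (fun u hu => hSN u (hS'S hu)) hS'sep
      intro x y hx hy
      have := hdiam x y hx hy
      rw [pow_succ] at this
      linarith
    -- assignment of a net point
    choose! f hfS' hf using hnet
    have hfib : ∀ v ∈ S', ((S.filter (fun u => f u = v)).card : ℝ) ≤
        2 * Real.exp (128 * w ^ 2 / ε ^ 2) := by
      intro v _
      refine rmlpF4_fibre hP N h hNh hw ε hε v _ ?_ ?_ ?_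
      · intro u hu
        exact hSN u (Finset.mem_filter.1 hu).1
      · intro a ha b hb hab
        exact hS a (Finset.mem_filter.1 ha).1 b (Finset.mem_filter.1 hb).1 hab
      · intro u hu
        rw [Finset.mem_filter] at hu
        rw [← hu.2]
        exact hf u hu.1
    have hsum : (S.card : ℝ) = ∑ v ∈ S', ((S.filter (fun u => f u = v)).card : ℝ) := by
      rw [Finset.card_eq_sum_card_fiberwise (f := f) (t := S') (fun u hu => hfS' u hu)]
      push_cast
      rfl
    calc (S.card : ℝ) = ∑ v ∈ S', ((S.filter (fun u => f u = v)).card : ℝ) := hsum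
      _ ≤ ∑ _v ∈ S', 2 * Real.exp (128 * w ^ 2 / ε ^ 2) := Finset.sum_le_sum hfib
      _ = S'.card * (2 * Real.exp (128 * w ^ 2 / ε ^ 2)) := by
        rw [Finset.sum_const, nsmul_eq_mul]
      _ ≤ (2 ^ k * Real.exp (512 / 3 * w ^ 2 / (2 * ε) ^ 2)) *
          (2 * Real.exp (128 * w ^ 2 / ε ^ 2)) := by gcongr
      _ = 2 ^ (k + 1) * Real.exp (512 / 3 * w ^ 2 / ε ^ 2) := by
        have : 512 / 3 * w ^ 2 / ε ^ 2 = 512 / 3 * w ^ 2 / (2 * ε) ^ 2 + 128 * w ^ 2 / ε ^ 2 := by
          field_simp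
          ring
        rw [this, Real.exp_add, pow_succ]
        ring

end Claimed.Agent.R293
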