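/-
Row 293 (S0541), black box "Reverse Minkowski", package LPos, leaves (F1), (F5), (F7):
Gaussian shift inequality, volume of a Euclidean ball, first absolute moment of a linear form.
Owner: helper96.
-/
import Claimed.Agent.R293.RM.LPosDefs

set_option autoImplicit false

namespace Claimed.Agent.R293

open MeasureTheory ProbabilityTheory
open scoped RealInnerProductSpace ENNReal NNReal

/-- The density of the standard Gaussian measure. -/
noncomputable def rmlpF1Dens (n : ℕ) (x : RmE n) : ℝ :=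
  (Real.sqrt (2 * Real.pi))⁻¹ ^ n * Real.exp (-‖x‖ ^ 2 / 2)

theorem rmlpF1_const_pos (n : ℕ) : 0 < (Real.sqrt (2 * Real.pi))⁻¹ ^ n := by
  have : 0 < Real.sqrt (2 * Real.pi) := Real.sqrt_pos.mpr (by positivity)
  positivity

theorem rmlpF1_dens_pos (n : ℕ) (x : RmE n) : 0 < rmlpF1Dens n x :=
  mul_pos (rmlpF1_const_pos n) (Real.exp_pos _)

theorem rmlpF1_dens_continuous (n : ℕ) : Continuous (rmlpF1Dens n) := by
  unfold rmlpF1Dens
  fun_prop

theorem rmlpF1_dens_measurable (n : ℕ) :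
    Measurable (fun x : RmE n => ENNReal.ofReal (rmlpF1Dens n x)) :=
  (rmlpF1_dens_continuous n).measurable.ennreal_ofReal

theorem rmlpF1_gauss_apply (h : RmlpDensityStmt) (n : ℕ) {S : Set (RmE n)}
    (hS : MeasurableSet S) :
    rmGauss n S = ∫⁻ x in S, ENNReal.ofReal (rmlpF1Dens n x) := by
  rw [h n, withDensity_apply _ hS]
  rfl

/-- The pointwise inequality behind the shift inequality. -/
theorem rmlpF1_pointwise (n : ℕ) (x y : RmE n) :
    2 * Real.exp (-‖y‖ ^ 2 / 2) * rmlpF1Dens n x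
      ≤ rmlpF1Dens n (x + y) + rmlpF1Dens n (x - y) := by
  unfold rmlpF1Dens
  have hc := rmlpF1_const_pos n
  set c := (Real.sqrt (2 * Real.pi))⁻¹ ^ n
  have hpar : ‖x + y‖ ^ 2 + ‖x - y‖ ^ 2 = 2 * (‖x‖ ^ 2 + ‖y‖ ^ 2) := by
    have := parallelogram_law_with_norm ℝ x y
    nlinarith [this]
  set u := Real.exp (-‖x + y‖ ^ 2 / 4) with hu
  set v := Real.exp (-‖x - y‖ ^ 2 / 4) with hv
  have e1 : Real.exp (-‖x + y‖ ^ 2 / 2) = u ^ 2 := by
    rw [hu, ← Real.exp_nat_mul]; congr 1; push_cast; ring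
  have e2 : Real.exp (-‖x - y‖ ^ 2 / 2) = v ^ 2 := by
    rw [hv, ← Real.exp_nat_mul]; congr 1; push_cast; ring
  have e3 : Real.exp (-‖y‖ ^ 2 / 2) * Real.exp (-‖x‖ ^ 2 / 2) = u * v := by
    rw [hu, hv, ← Real.exp_add, ← Real.exp_add]; congr 1; linarith
  rw [e1, e2]
  have : 2 * (u * v) ≤ u ^ 2 + v ^ 2 := by nlinarith [sq_nonneg (u - v)]
  calc 2 * Real.exp (-‖y‖ ^ 2 / 2) * (c * Real.exp (-‖x‖ ^ 2 / 2))
      = c * (2 * (Real.exp (-‖y‖ ^ 2 / 2) * Real.exp (-‖x‖ ^ 2 / 2))) := by ring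
    _ = c * (2 * (u * v)) := by rw [e3]
    _ ≤ c * (u ^ 2 + v ^ 2) := by gcongr
    _ = c * u ^ 2 + c * v ^ 2 := by ring

theorem rmlpF1_shift_eq (h : RmlpDensityStmt) (n : ℕ) {T : Set (RmE n)} (hT : MeasurableSet T)
    (y : RmE n) :
    rmGauss n {x | x - y ∈ T} = ∫⁻ x in T, ENNReal.ofReal (rmlpF1Dens n (x + y)) := by
  have hm : MeasurableSet {x : RmE n | x - y ∈ T} := (measurable_sub_const y) hT
  rw [rmlpF1_gauss_apply h n hm, ← lintegral_indicator hm, ← lintegral_indicator hT,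
    ← lintegral_add_right_eq_self _ y]
  congr 1
  ext x
  by_cases hx : x ∈ T
  · have : x + y ∈ {x : RmE n | x - y ∈ T} := by simpa using hx
    rw [Set.indicator_of_mem this, Set.indicator_of_mem hx]
  · have : x + y ∉ {x : RmE n | x - y ∈ T} := by simpa using hx
    rw [Set.indicator_of_notMem this, Set.indicator_of_notMem hx]

theorem rmlpF1_shift_eq' (h : RmlpDensityStmt) (n : ℕ) {T : Set (RmE n)} (hT : MeasurableSet T)
    (hsym : ∀ x ∈ T, -x ∈ T) (y : RmE n) :
    rmGauss n {x | x - y ∈ T} = ∫⁻ x in T, ENNReal.ofReal (rmlpF1Dens n (x - y)) := by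
  rw [rmlpF1_shift_eq h n hT y, ← lintegral_indicator hT, ← lintegral_indicator hT,
    ← lintegral_neg_eq_self]
  congr 1
  ext x
  by_cases hx : x ∈ T
  · rw [Set.indicator_of_mem (hsym x hx), Set.indicator_of_mem hx]
    congr 1
    unfold rmlpF1Dens
    have : ‖-x + y‖ = ‖x - y‖ := by
      rw [← norm_neg]; congr 1; abel
    rw [this]
  · have : -x ∉ T := fun hx' => hx (by simpa using hsym _ hx')
    rw [Set.indicator_of_notMem this, Set.indicator_of_notMem hx]

/-- **(F1)** Shifting a symmetric set costs at most `exp (-‖y‖²/2)` of its Gaussian measure. -/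
theorem rmlp_shift (h : RmlpDensityStmt) : RmlpShiftStmt := by
  intro n T hT hsym y
  have h1 := rmlpF1_shift_eq h n hT y
  have h2 := rmlpF1_shift_eq' h n hT hsym y
  have hm1 : Measurable (fun x : RmE n => ENNReal.ofReal (rmlpF1Dens n (x + y))) :=
    (rmlpF1_dens_measurable n).comp (measurable_add_const y)
  have key : 2 * (ENNReal.ofReal (Real.exp (-‖y‖ ^ 2 / 2)) * rmGauss n T)
      ≤ 2 * rmGauss n {x | x - y ∈ T} := by
    calc 2 * (ENNReal.ofReal (Real.exp (-‖y‖ ^ 2 / 2)) * rmGauss n T)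
        = ENNReal.ofReal (2 * Real.exp (-‖y‖ ^ 2 / 2)) *
            ∫⁻ x in T, ENNReal.ofReal (rmlpF1Dens n x) := by
          rw [rmlpF1_gauss_apply h n hT, ENNReal.ofReal_mul (by norm_num), mul_assoc]
          simp
      _ = ∫⁻ x in T, ENNReal.ofReal (2 * Real.exp (-‖y‖ ^ 2 / 2)) *
            ENNReal.ofReal (rmlpF1Dens n x) := by
          rw [lintegral_const_mul _ (rmlpF1_dens_measurable n)]
      _ ≤ ∫⁻ x in T, (ENNReal.ofReal (rmlpF1Dens n (x + y))
            + ENNReal.ofReal (rmlpF1Dens n (x - y))) := by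
          refine lintegral_mono fun x => ?_
          rw [← ENNReal.ofReal_mul (by positivity),
            ← ENNReal.ofReal_add (rmlpF1_dens_pos n _).le (rmlpF1_dens_pos n _).le]
          exact ENNReal.ofReal_le_ofReal (rmlpF1_pointwise n x y)
      _ = 2 * rmGauss n {x | x - y ∈ T} := by
          rw [lintegral_add_left hm1, ← h1, ← h2, two_mul]
  exact (ENNReal.mul_le_mul_iff_right (by norm_num) (by norm_num)).mp key

/-- **(F5)** Volume of a Euclidean ball, without the Gamma function. -/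
theorem rmlp_ballVol (h : RmlpDensityStmt) : RmlpBallVolStmt := by
  intro n r hr
  have hc := rmlpF1_const_pos n
  have hs : 0 < Real.sqrt (2 * Real.pi) := Real.sqrt_pos.mpr (by positivity)
  set B := Metric.closedBall (0 : RmE n) r with hB
  have hBm : MeasurableSet B := Metric.isClosed_closedBall.measurableSet
  set a : ℝ := (Real.sqrt (2 * Real.pi))⁻¹ ^ n * Real.exp (-r ^ 2 / 2) with ha
  have ha0 : 0 < a := mul_pos hc (Real.exp_pos _)
  have h1 : ENNReal.ofReal a * volume B ≤ 1 := by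
    calc ENNReal.ofReal a * volume B = ∫⁻ _ in B, ENNReal.ofReal a := by
          rw [setLIntegral_const]
      _ ≤ ∫⁻ x in B, ENNReal.ofReal (rmlpF1Dens n x) := by
          refine setLIntegral_mono (rmlpF1_dens_measurable n) fun x hx => ?_
          apply ENNReal.ofReal_le_ofReal
          unfold rmlpF1Dens
          rw [ha]
          have hx' : ‖x‖ ≤ r := by simpa [hB] using hx
          have : ‖x‖ ^ 2 ≤ r ^ 2 := by gcongr
          gcongr
      _ = rmGauss n B := (rmlpF1_gauss_apply h n hBm).symm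
      _ ≤ 1 := prob_le_one
  have e : Real.sqrt (2 * Real.pi) ^ n * Real.exp (r ^ 2 / 2) = a⁻¹ := by
    rw [ha, mul_inv, ← Real.exp_neg, inv_pow, inv_inv]
    congr 2
    ring
  rw [e, ENNReal.ofReal_inv_of_pos ha0]
  rw [ENNReal.le_inv_iff_mul_le, mul_comm]
  exact h1

theorem rmlpF7_half_line (b : ℝ) (hb : 0 < b) :
    ∫ s in Set.Ioi (0 : ℝ), s * Real.exp (-b * s ^ 2) = (2 * b)⁻¹ := by
  have := integral_rpow_mul_exp_neg_mul_rpow (p := 2) (q := 1) (b := b) (by norm_num)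
    (by norm_num) hb
  have e : ∀ s : ℝ, s ^ (1 : ℝ) * Real.exp (-b * s ^ (2 : ℝ)) = s * Real.exp (-b * s ^ 2) := by
    intro s
    rw [Real.rpow_one, Real.rpow_two]
  simp_rw [e] at this
  rw [this]
  have h1 : (-(1 + 1) / 2 : ℝ) = -1 := by norm_num
  have h2 : ((1 + 1) / 2 : ℝ) = 1 := by norm_num
  rw [h1, h2, Real.Gamma_one, Real.rpow_neg_one]
  field_simp

theorem rmlpF7_abs_gaussianReal (v : ℝ≥0) (hv : v ≠ 0) :
    ∫ t, |t| ∂(gaussianReal 0 v) = 2 * ((Real.sqrt (2 * Real.pi * v))⁻¹ * v) := by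
  have hv0 : (0 : ℝ) < v := by
    exact_mod_cast pos_iff_ne_zero.mpr hv
  rw [integral_gaussianReal_eq_integral_smul hv]
  have e : ∀ t : ℝ, gaussianPDFReal 0 v t • |t|
      = (fun s : ℝ => (Real.sqrt (2 * Real.pi * v))⁻¹ * (s * Real.exp (-(2 * (v : ℝ))⁻¹ * s ^ 2))) |t| := by
    intro t
    simp only [gaussianPDFReal, smul_eq_mul, sub_zero, sq_abs]
    have : -t ^ 2 / (2 * (v : ℝ)) = -(2 * (v : ℝ))⁻¹ * t ^ 2 := by
      field_simp
    rw [this]
    ring
  rw [integral_congr_ae (Filter.Eventually.of_forall e),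
    integral_comp_abs (f := fun s : ℝ =>
      (Real.sqrt (2 * Real.pi * v))⁻¹ * (s * Real.exp (-(2 * (v : ℝ))⁻¹ * s ^ 2))),
    integral_const_mul, rmlpF7_half_line _ (by positivity)]
  congr 2
  field_simp

/-- **(F7)** First absolute moment of a linear form. -/
theorem rmlp_absMoment : RmlpAbsMomentStmt := by
  intro n x
  by_cases hx : x = 0
  · subst hx
    simp
  have hx0 : 0 < ‖x‖ := norm_pos_iff.mpr hx
  set L : StrongDual ℝ (RmE n) := innerSL ℝ x with hL
  have hmap : (rmGauss n).map L = gaussianReal 0 (‖x‖ ^ 2).toNNReal := by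
    rw [IsGaussian.map_eq_gaussianReal, integral_strongDual_stdGaussian,
      variance_dual_stdGaussian, hL, innerSL_apply_norm]
  have e1 : ∫ g, |⟪g, x⟫| ∂(rmGauss n) = ∫ t, |t| ∂((rmGauss n).map L) := by
    rw [integral_map L.continuous.aemeasurable (by fun_prop)]
    congr 1
    ext g
    rw [hL, innerSL_apply_apply, real_inner_comm]
  have hv : (‖x‖ ^ 2).toNNReal ≠ 0 := by
    simp only [ne_eq, Real.toNNReal_eq_zero, not_le]
    positivity
  rw [e1, hmap, rmlpF7_abs_gaussianReal _ hv, Real.coe_toNNReal _ (by positivity)]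
  have hs : Real.sqrt (2 * Real.pi * ‖x‖ ^ 2) = Real.sqrt (2 * Real.pi) * ‖x‖ := by
    rw [Real.sqrt_mul (by positivity), Real.sqrt_sq hx0.le]
  have hs2 : Real.sqrt (2 * Real.pi) ≤ 4 := by
    rw [show (4 : ℝ) = Real.sqrt 16 by
      rw [show (16 : ℝ) = 4 ^ 2 by norm_num, Real.sqrt_sq (by norm_num)]]
    apply Real.sqrt_le_sqrt
    nlinarith [Real.pi_lt_four]
  have hs3 : 0 < Real.sqrt (2 * Real.pi) := Real.sqrt_pos.mpr (by positivity)
  rw [hs]
  have : 2 * ((Real.sqrt (2 * Real.pi) * ‖x‖)⁻¹ * ‖x‖ ^ 2) = 2 * ‖x‖ / Real.sqrt (2 * Real.pi) := by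
    field_simp
  rw [this, div_le_div_iff₀ (by norm_num) hs3]
  nlinarith

end Claimed.Agent.R293
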