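/-
Row 293 (S0541), black box "Reverse Minkowski", package LPos, leaf (F): a symmetric convex body of
volume at least one has Gaussian mean width at least `n / 300` (Urysohn up to a constant, through
Sudakov's minoration).  Owner: helper225.
-/
import Claimed.Agent.R293.RM.LPosBasic

set_option autoImplicit false

namespace Claimed.Agent.R293

open MeasureTheory ProbabilityTheory Metric
open scoped RealInnerProductSpace ENNReal NNReal Real

/-- numerical fact behind the choice `ε = √n / 12` -/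
theorem rmlpS_num : Real.sqrt (2 * π) * Real.exp (1 / 2) / 12 ≤ Real.exp (-1) := by
  have h1 : Real.exp 1 < 2.7182818286 := Real.exp_one_lt_d9
  have h2 : π < 3.1416 := Real.pi_lt_d4
  have hpi : 0 < π := Real.pi_pos
  have he : 0 < Real.exp 1 := Real.exp_pos _
  -- `√(2π) e^{3/2} ≤ 12`
  have h3 : (Real.sqrt (2 * π) * Real.exp (3 / 2)) ^ 2 ≤ 12 ^ 2 := by
    rw [mul_pow, Real.sq_sqrt (by positivity), ← Real.exp_nat_mul]
    have e : ((2 : ℕ) : ℝ) * (3 / 2) = ((3 : ℕ) : ℝ) * 1 := by push_cast; ring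
    rw [e, Real.exp_nat_mul]
    have h4 : Real.exp 1 ^ 3 ≤ 2.7182818286 ^ 3 := pow_le_pow_left₀ he.le h1.le 3
    have h5 : (2.7182818286 : ℝ) ^ 3 ≤ 20.1 := by norm_num
    have h6 : 0 < Real.exp 1 ^ 3 := by positivity
    nlinarith
  have h7 : Real.sqrt (2 * π) * Real.exp (3 / 2) ≤ 12 :=
    (pow_le_pow_iff_left₀ (by positivity) (by norm_num) (by norm_num)).mp h3
  have e2 : Real.exp (3 / 2) = Real.exp (1 / 2) * Real.exp 1 := by
    rw [← Real.exp_add]; norm_num
  rw [Real.exp_neg, div_le_iff₀ (by norm_num), ← one_div, div_mul_eq_mul_div, one_mul,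
    le_div_iff₀ he]
  rw [e2] at h7
  linarith

/-- volume of the ball of radius `√n / 12` -/
theorem rmlpS_ball (h3 : RmlpBallVolStmt) {n : ℕ} (hn : 1 ≤ n) (u : RmE n) :
    volume (closedBall u (Real.sqrt n / 12)) ≤ ENNReal.ofReal (Real.exp (-(n : ℝ))) := by
  have hn0 : (0 : ℝ) < n := by exact_mod_cast hn
  have hs : 0 < Real.sqrt n := Real.sqrt_pos.mpr hn0
  have hr := h3 n (Real.sqrt n) hs.le
  rw [Measure.addHaar_closedBall' _ _ hs.le, finrank_euclideanSpace_fin] at hr
  rw [Measure.addHaar_closedBall' _ _ (by positivity), finrank_euclideanSpace_fin]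
  have e1 : (Real.sqrt n / 12) ^ n = (1 / 12) ^ n * Real.sqrt n ^ n := by
    rw [← mul_pow]; congr 1; ring
  rw [e1, ENNReal.ofReal_mul (by positivity), mul_assoc]
  calc ENNReal.ofReal ((1 / 12) ^ n) *
        (ENNReal.ofReal (Real.sqrt n ^ n) * volume (closedBall (0 : RmE n) 1))
      ≤ ENNReal.ofReal ((1 / 12) ^ n) *
        ENNReal.ofReal (Real.sqrt (2 * π) ^ n * Real.exp (Real.sqrt n ^ 2 / 2)) := by gcongr
    _ = ENNReal.ofReal ((1 / 12) ^ n *
        (Real.sqrt (2 * π) ^ n * Real.exp (Real.sqrt n ^ 2 / 2))) :=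
        (ENNReal.ofReal_mul (by positivity)).symm
    _ ≤ ENNReal.ofReal (Real.exp (-(n : ℝ))) := by
        apply ENNReal.ofReal_le_ofReal
        have e2 : Real.exp (Real.sqrt n ^ 2 / 2) = Real.exp (1 / 2) ^ n := by
          rw [Real.sq_sqrt hn0.le, ← Real.exp_nat_mul]; congr 1; ring
        have e3 : Real.exp (-(n : ℝ)) = Real.exp (-1) ^ n := by
          rw [← Real.exp_nat_mul]; congr 1; ring
        rw [e2, e3, ← mul_pow, ← mul_pow]
        apply pow_le_pow_left₀ (by positivity)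
        calc 1 / 12 * (Real.sqrt (2 * π) * Real.exp (1 / 2))
            = Real.sqrt (2 * π) * Real.exp (1 / 2) / 12 := by ring
          _ ≤ _ := rmlpS_num

/-- Existence of a maximal `ε`-separated subset of the unit ball of `N`. -/
theorem rmlpS_exists_maximal {n : ℕ} (N : Seminorm ℝ (RmE n)) {ε : ℝ} (hε : 0 < ε) (M : ℕ)
    (hM : ∀ S : Finset (RmE n), (∀ u ∈ S, N u ≤ 1) → (∀ u ∈ S, ∀ v ∈ S, u ≠ v → ε ≤ ‖u - v‖) →
      S.card ≤ M) :
    ∃ S : Finset (RmE n), (∀ u ∈ S, N u ≤ 1) ∧ (∀ u ∈ S, ∀ v ∈ S, u ≠ v → ε ≤ ‖u - v‖) ∧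
      ∀ x, N x ≤ 1 → ∃ u ∈ S, ‖x - u‖ < ε := by
  classical
  let P : ℕ → Prop := fun c => ∃ S : Finset (RmE n), (∀ u ∈ S, N u ≤ 1) ∧
    (∀ u ∈ S, ∀ v ∈ S, u ≠ v → ε ≤ ‖u - v‖) ∧ S.card = c
  have hP0 : P 0 := ⟨∅, by simp, by simp, rfl⟩
  obtain ⟨S, hS1, hS2, hS3⟩ : P (Nat.findGreatest P M) := Nat.findGreatest_spec (Nat.zero_le M) hP0
  refine ⟨S, hS1, hS2, ?_⟩
  intro x hx
  by_contra hcon
  push Not at hcon
  have hxS : x ∉ S := by
    intro hxS
    have h0 := hcon x hxS
    rw [sub_self, norm_zero] at h0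
    linarith
  have hP : P (S.card + 1) := by
    refine ⟨insert x S, ?_, ?_, Finset.card_insert_of_notMem hxS⟩
    · intro u hu
      rcases Finset.mem_insert.mp hu with rfl | hu
      · exact hx
      · exact hS1 u hu
    · intro u hu v hv huv
      rcases Finset.mem_insert.mp hu with hu' | hu' <;>
        rcases Finset.mem_insert.mp hv with hv' | hv'
      · exact absurd (hu'.trans hv'.symm) huv
      · rw [hu']; exact hcon v hv'
      · rw [hv', norm_sub_rev]; exact hcon u hu'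
      · exact hS2 u hu' v hv' huv
  have hle : S.card + 1 ≤ M := by
    obtain ⟨S', h1, h2, h3⟩ := hP
    exact h3 ▸ hM S' h1 h2
  have := Nat.le_findGreatest hle hP
  omega

theorem rmlp_sudakov (h1 : RmlpSuppStmt) (h2 : RmlpSepStmt) (h3 : RmlpBallVolStmt)
    (h4 : RmlpAbsMomentStmt) : RmlpSudakovStmt := by
  intro n hn N hN hvol
  obtain ⟨h, hh, hdual⟩ := h1 n N hN
  have hfun : rmlpSupp N = h := funext fun y => (hh y).symm
  have hint : Integrable h (rmGauss n) := by simpa using rmlp_integrable_pow h 1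
  rw [hfun]
  refine ⟨hint, ?_⟩
  set w := ∫ g, h g ∂(rmGauss n) with hw
  have hn0 : (0 : ℝ) < n := by exact_mod_cast hn
  have hn1 : (1 : ℝ) ≤ n := by exact_mod_cast hn
  -- (a) the unit ball of `N` has radius at most `2 w`
  have hball : ∀ x, N x ≤ 1 → ‖x‖ ≤ 2 * w := by
    intro x hx
    have habs : ∀ g, |⟪g, x⟫| ≤ h g := by
      intro g
      have hg0 : 0 ≤ h g := apply_nonneg h g
      rw [abs_le]
      constructor
      · have := hdual (-x) g
        rw [map_neg_eq_map, inner_neg_left, real_inner_comm] at this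
        nlinarith
      · have := hdual x g
        rw [real_inner_comm] at this
        nlinarith
    have hm : AEStronglyMeasurable (fun g : RmE n => |⟪g, x⟫|) (rmGauss n) := by
      have : Continuous (fun g : RmE n => |⟪g, x⟫|) := by fun_prop
      exact this.aestronglyMeasurable
    have hi : Integrable (fun g : RmE n => |⟪g, x⟫|) (rmGauss n) :=
      hint.mono' hm (Filter.Eventually.of_forall fun g => by
        rw [Real.norm_eq_abs, abs_abs]; exact habs g)
    have := (h4 n x).trans (integral_mono hi hint habs)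
    linarith
  -- (b) positivity of `w`
  have hwpos : 0 < w := by
    let e : RmE n := EuclideanSpace.single ⟨0, hn⟩ 1
    have he : e ≠ 0 := by
      intro h0
      have := congrArg (fun v : RmE n => v ⟨0, hn⟩) h0
      simp [e] at this
    have hNe : 0 < N e := lt_of_le_of_ne (apply_nonneg N e) (fun h0 => he (hN e h0.symm))
    have hx : N ((N e)⁻¹ • e) ≤ 1 := by
      rw [map_smul_eq_mul, Real.norm_of_nonneg (by positivity), inv_mul_cancel₀ hNe.ne']
    have h5 := hball _ hx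
    have h6 : 0 < ‖(N e)⁻¹ • e‖ := by
      rw [norm_pos_iff]
      exact smul_ne_zero (by positivity) he
    linarith
  by_contra hcon
  push Not at hcon
  set ε : ℝ := Real.sqrt n / 12 with hε
  have hs : 0 < Real.sqrt n := Real.sqrt_pos.mpr hn0
  have hε0 : 0 < ε := by positivity
  have hss : Real.sqrt n * Real.sqrt n = n := Real.mul_self_sqrt hn0.le
  have hs1 : Real.sqrt n ≤ n := by
    have : 1 ≤ Real.sqrt n := Real.one_le_sqrt.mpr hn1
    nlinarith
  have hpow : (n : ℝ) ≤ 2 ^ n := by exact_mod_cast Nat.lt_two_pow_self.le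
  have hdiam : ∀ x y, N x ≤ 1 → N y ≤ 1 → ‖x - y‖ < 2 ^ n * ε := by
    intro x y hx hy
    have h5 : ‖x - y‖ ≤ ‖x‖ + ‖y‖ := norm_sub_le x y
    have h6 := hball x hx
    have h7 := hball y hy
    have h8 : (n : ℝ) / 75 ≤ 2 ^ n * ε := by
      rw [hε]
      have : Real.sqrt n * Real.sqrt n ≤ 2 ^ n * Real.sqrt n := by
        apply mul_le_mul_of_nonneg_right (hs1.trans hpow) hs.le
      have h9 : 0 ≤ 2 ^ n * Real.sqrt n := by positivity
      rw [hss] at this
      linarith
    linarith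
  have hcard := h2 n N h hdual hwpos n ε hε0 hdiam
  set Y : ℝ := 2 ^ n * Real.exp (512 / 3 * w ^ 2 / ε ^ 2) with hY
  obtain ⟨S, hS1, hS2, hS3⟩ := rmlpS_exists_maximal N hε0 ⌈Y⌉₊ (fun S hS1 hS2 => by
    have := (hcard S hS1 hS2).trans (Nat.le_ceil Y)
    exact_mod_cast this)
  have hcov : {x | N x ≤ 1} ⊆ ⋃ u ∈ S, closedBall u ε := by
    intro x hx
    obtain ⟨u, hu, hxu⟩ := hS3 x hx
    simp only [Set.mem_iUnion]
    exact ⟨u, hu, by rw [mem_closedBall, dist_eq_norm]; exact hxu.le⟩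
  have hvol2 : (1 : ℝ≥0∞) ≤ ENNReal.ofReal ((S.card : ℝ) * Real.exp (-(n : ℝ))) := by
    calc (1 : ℝ≥0∞) ≤ volume {x | N x ≤ 1} := hvol
      _ ≤ volume (⋃ u ∈ S, closedBall u ε) := measure_mono hcov
      _ ≤ ∑ u ∈ S, volume (closedBall u ε) := measure_biUnion_finset_le _ _
      _ ≤ ∑ _u ∈ S, ENNReal.ofReal (Real.exp (-(n : ℝ))) :=
          Finset.sum_le_sum fun u _ => rmlpS_ball h3 hn u
      _ = ENNReal.ofReal ((S.card : ℝ) * Real.exp (-(n : ℝ))) := by
          rw [Finset.sum_const, nsmul_eq_mul, ENNReal.ofReal_mul (by positivity),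
            ENNReal.ofReal_natCast]
  have hreal : 1 ≤ (S.card : ℝ) * Real.exp (-(n : ℝ)) := by
    rw [← ENNReal.ofReal_one] at hvol2
    exact (ENNReal.ofReal_le_ofReal_iff (by positivity)).mp hvol2
  have hexp : Real.exp n ≤ Y := by
    have h5 : Real.exp n ≤ S.card := by
      rw [Real.exp_neg] at hreal
      have := Real.exp_pos (n : ℝ)
      rwa [← div_eq_mul_inv, le_div_iff₀ this, one_mul] at hreal
    exact h5.trans (hcard S hS1 hS2)
  have e2 : (2 : ℝ) ^ n = Real.exp (n * Real.log 2) := by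
    rw [Real.exp_nat_mul, Real.exp_log (by norm_num)]
  rw [hY, e2, ← Real.exp_add, Real.exp_le_exp] at hexp
  have hX : 512 / 3 * w ^ 2 / ε ^ 2 ≤ 0.2731 * n := by
    have e3 : ε ^ 2 = n / 144 := by
      rw [hε, div_pow, Real.sq_sqrt hn0.le]; norm_num
    rw [e3, div_le_iff₀ (by positivity)]
    have hw2 : w ^ 2 ≤ (n / 300) ^ 2 := pow_le_pow_left₀ hwpos.le hcon.le 2
    nlinarith
  have hlog := Real.log_two_lt_d9
  nlinarith

end Claimed.Agent.R293
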