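/-
Row 293 (S0541), black box "Reverse Minkowski", package LPos: the final theorem of the package,
collected from the leaves.  Owner: helper225.
-/
import Claimed.Agent.R293.RM.LPosMain
import Claimed.Agent.R293.RM.LPosLewis
import Claimed.Agent.R293.RM.LPosDist
import Claimed.Agent.R293.RM.LPosDual
import Claimed.Agent.R293.RM.LPosDensity
import Claimed.Agent.R293.RM.LPosShift
import Claimed.Agent.R293.RM.LPosPack
import Claimed.Agent.R293.RM.LPosSep
import Claimed.Agent.R293.RM.LPosSudakov
import Claimed.Agent.R293.RM.LPosFernique
import Claimed.Agent.R293.RM.LPosKgauss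
import Claimed.Agent.R293.RM.LPosKrad
import Claimed.Agent.R293.RM.LPosContr
import Claimed.Agent.R293.RM.LPosMaxSq

set_option autoImplicit false

namespace Claimed.Agent.R293

/-- Sudakov-type volume bound, unconditional. -/
theorem rmlp_sudakov_final : RmlpSudakovStmt :=
  rmlp_sudakov rmlp_supp (rmlp_sep (rmlp_pack (rmlp_shift rmlp_density)))
    (rmlp_ballVol rmlp_density) rmlp_absMoment

/-- The main statement of the package from Gaussian K-convexity. -/
theorem rmlp_main_of_kgauss (hK : RmlpKgaussStmt) : RmlpMainStmt :=
  rmlp_main_of_leaves rmlp_lewis rmlp_dist rmlp_select rmlp_trace hK rmlp_sudakov_final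
    rmlp_fernique

/-- Gaussian K-convexity, unconditional. -/
theorem rmlp_kgauss_final : RmlpKgaussStmt :=
  rmlp_kgauss rmlp_krad rmlp_contraction rmlp_maxSq

/-- **The main statement of the package LPos, unconditional.** -/
theorem rmlp_main : RmlpMainStmt :=
  rmlp_main_of_kgauss rmlp_kgauss_final

end Claimed.Agent.R293
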