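/-
Row 293 (S0541), black box "Reverse Minkowski", package GRAM, leaf RMG-LP: the unconditional form
of the bridge statement `StRmgLPos`.  Owner: helper225.
-/
import Claimed.Agent.R293.RM.GramLPos
import Claimed.Agent.R293.RM.LPosFinal

set_option autoImplicit false

namespace Claimed.Agent.R293

/-- The l-position theorem in Gram form, unconditional. -/
theorem rmg_lpos_final : StRmgLPos := rmg_lpos rmlp_main rmlp_density

end Claimed.Agent.R293
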