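/-
Row 293 (S0541), Reverse Minkowski, convex-geometry core, leaf RM-KRAD (owner helper74), file 1:
Walsh analysis of vector-valued functions on the finite cube `ι → Bool`.

* `rmkSg`, `rmkW`       : signs and Walsh functions;
* `rmk_sum_W_mul_W`     : orthogonality, `rmk_sum_W_mul_W'` : completeness;
* `rmkRiesz`            : Riesz products (nonnegative doubly stochastic kernels for `|ε| ≤ 1`);
* `rmkHat`, `rmkMul`    : Walsh coefficients and multiplier operators `∑_S γ(|S|) w_S F̂(S)`;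
* `rmk_markov_contraction` : a doubly stochastic kernel contracts `∑ N(F)^2` for ANY seminorm `N`;
* `rmk_sum_norm_sq_mul_le` : Parseval bound for multipliers in a real inner product space.
-/
import Mathlib

set_option autoImplicit false
set_option linter.unusedSectionVars false

namespace Claimed.Agent.R293

open Finset

variable {ι : Type*} [Fintype ι] [DecidableEq ι]

/-- sign of a bit -/
def rmkSg (b : Bool) : ℝ := if b then -1 else 1

@[simp] theorem rmkSg_true : rmkSg true = -1 := by simp [rmkSg]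

@[simp] theorem rmkSg_false : rmkSg false = 1 := by simp [rmkSg]

theorem rmkSg_mul_self (b : Bool) : rmkSg b * rmkSg b = 1 := by cases b <;> simp

theorem rmkSg_abs (b : Bool) : |rmkSg b| = 1 := by cases b <;> simp

/-- Walsh function -/
def rmkW (S : Finset ι) (s : ι → Bool) : ℝ := ∏ i ∈ S, rmkSg (s i)

theorem rmkW_singleton (i : ι) (s : ι → Bool) : rmkW {i} s = rmkSg (s i) := by
  simp [rmkW]

theorem rmkW_eq_prod_ite (S : Finset ι) (s : ι → Bool) :
    rmkW S s = ∏ i, if i ∈ S then rmkSg (s i) else 1 := by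
  unfold rmkW
  rw [prod_ite_mem, univ_inter]

/-- product formula on the cube -/
theorem rmk_sum_prod (g : ι → Bool → ℝ) :
    ∑ s : ι → Bool, ∏ i, g i (s i) = ∏ i, (g i false + g i true) := by
  have h := Finset.prod_univ_sum (fun _ : ι => (univ : Finset Bool)) g
  rw [Fintype.piFinset_univ] at h
  rw [← h]
  refine prod_congr rfl fun i _ => ?_
  rw [Fintype.sum_bool, add_comm]

/-- orthogonality of the Walsh functions -/
theorem rmk_sum_W_mul_W (S T : Finset ι) :
    ∑ s : ι → Bool, rmkW S s * rmkW T s = if S = T then (2 : ℝ) ^ Fintype.card ι else 0 := by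
  have h1 : ∀ s : ι → Bool, rmkW S s * rmkW T s =
      ∏ i, (fun (i : ι) (b : Bool) =>
        (if i ∈ S then rmkSg b else 1) * (if i ∈ T then rmkSg b else 1)) i (s i) := by
    intro s
    rw [rmkW_eq_prod_ite, rmkW_eq_prod_ite, ← prod_mul_distrib]
  rw [sum_congr rfl fun s _ => h1 s, rmk_sum_prod (fun (i : ι) (b : Bool) =>
        (if i ∈ S then rmkSg b else 1) * (if i ∈ T then rmkSg b else 1))]
  split_ifs with hST
  · subst hST
    rw [← card_univ, ← prod_const]
    refine prod_congr rfl fun i _ => ?_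
    by_cases hi : i ∈ S <;> simp [hi] <;> norm_num
  · obtain ⟨i, hi⟩ : ∃ i, ¬ (i ∈ S ↔ i ∈ T) := by
      by_contra hcon
      push Not at hcon
      exact hST (Finset.ext hcon)
    refine prod_eq_zero (mem_univ i) ?_
    by_cases h1 : i ∈ S <;> by_cases h2 : i ∈ T <;> simp_all

/-- Riesz product -/
def rmkRiesz (ε : ℝ) (s t : ι → Bool) : ℝ := ∏ i, (1 + ε * (rmkSg (s i) * rmkSg (t i)))

theorem rmkRiesz_eq_sum (ε : ℝ) (s t : ι → Bool) :
    rmkRiesz ε s t = ∑ S : Finset ι, ε ^ S.card * (rmkW S s * rmkW S t) := by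
  unfold rmkRiesz
  rw [prod_one_add, powerset_univ]
  refine sum_congr rfl fun S _ => ?_
  rw [prod_mul_distrib, prod_const, prod_mul_distrib]
  rfl

/-- completeness of the Walsh functions -/
theorem rmk_sum_W_mul_W' (s t : ι → Bool) :
    ∑ S : Finset ι, rmkW S s * rmkW S t = if s = t then (2 : ℝ) ^ Fintype.card ι else 0 := by
  have h := rmkRiesz_eq_sum (ι := ι) 1 s t
  simp only [one_pow, one_mul] at h
  rw [← h]
  unfold rmkRiesz
  split_ifs with hst
  · subst hst
    rw [← card_univ, ← prod_const]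
    refine prod_congr rfl fun i _ => ?_
    rw [rmkSg_mul_self]
    norm_num
  · obtain ⟨i, hi⟩ : ∃ i, s i ≠ t i := by
      by_contra hcon
      push Not at hcon
      exact hst (funext hcon)
    refine prod_eq_zero (mem_univ i) ?_
    cases h1 : s i <;> cases h2 : t i <;> simp_all

theorem rmkRiesz_nonneg {ε : ℝ} (hε : |ε| ≤ 1) (s t : ι → Bool) : 0 ≤ rmkRiesz ε s t := by
  refine prod_nonneg fun i _ => ?_
  obtain ⟨h1, h2⟩ := abs_le.1 hε
  cases s i <;> cases t i <;> simp <;> linarith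

theorem rmkRiesz_comm (ε : ℝ) (s t : ι → Bool) : rmkRiesz ε s t = rmkRiesz ε t s := by
  unfold rmkRiesz
  refine prod_congr rfl fun i _ => ?_
  rw [mul_comm (rmkSg (s i))]

theorem rmkRiesz_sum_right (ε : ℝ) (s : ι → Bool) :
    ∑ t : ι → Bool, rmkRiesz ε s t = (2 : ℝ) ^ Fintype.card ι := by
  unfold rmkRiesz
  rw [rmk_sum_prod (fun i b => 1 + ε * (rmkSg (s i) * rmkSg b)), ← card_univ, ← prod_const]
  refine prod_congr rfl fun i _ => ?_
  simp only [rmkSg_false, rmkSg_true]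
  ring

theorem rmkRiesz_sum_left (ε : ℝ) (t : ι → Bool) :
    ∑ s : ι → Bool, rmkRiesz ε s t = (2 : ℝ) ^ Fintype.card ι := by
  simp only [rmkRiesz_comm ε _ t]
  exact rmkRiesz_sum_right ε t

section vector

variable {E : Type*} [AddCommGroup E] [Module ℝ E]

/-- Walsh coefficient of a vector-valued function -/
noncomputable def rmkHat (F : (ι → Bool) → E) (S : Finset ι) : E :=
  ((2 : ℝ) ^ Fintype.card ι)⁻¹ • ∑ t, rmkW S t • F t

/-- multiplier operator `F ↦ ∑_S γ(|S|) w_S F̂(S)` -/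
noncomputable def rmkMul (γ : ℕ → ℝ) (F : (ι → Bool) → E) (s : ι → Bool) : E :=
  ∑ S : Finset ι, (γ S.card * rmkW S s) • rmkHat F S

/-- the noise operator is the Riesz product kernel -/
theorem rmkMul_pow (ε : ℝ) (F : (ι → Bool) → E) (s : ι → Bool) :
    rmkMul (fun k => ε ^ k) F s =
      ((2 : ℝ) ^ Fintype.card ι)⁻¹ • ∑ t, rmkRiesz ε s t • F t := by
  unfold rmkMul rmkHat
  simp only [smul_sum, smul_smul, rmkRiesz_eq_sum, sum_smul]
  rw [sum_comm]
  refine sum_congr rfl fun t _ => sum_congr rfl fun S _ => ?_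
  congr 1
  ring

/-- the level one projection -/
theorem rmkMul_one (F : (ι → Bool) → E) (s : ι → Bool) :
    rmkMul (fun k => if k = 1 then 1 else 0) F s = ∑ i, rmkSg (s i) • rmkHat F {i} := by
  unfold rmkMul
  have h1 : ∀ S : Finset ι, ((if S.card = 1 then (1 : ℝ) else 0) * rmkW S s) • rmkHat F S =
      if S.card = 1 then rmkW S s • rmkHat F S else 0 := by
    intro S
    split_ifs <;> simp
  simp only [h1]
  rw [← sum_filter]
  have h2 : (univ.filter fun S : Finset ι => S.card = 1) = powersetCard 1 univ := by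
    ext S
    simp [mem_powersetCard]
  rw [h2, powersetCard_one, sum_map]
  refine sum_congr rfl fun i _ => ?_
  simp [rmkW_singleton]

theorem rmkMul_sub (γ γ' : ℕ → ℝ) (F : (ι → Bool) → E) (s : ι → Bool) :
    rmkMul (fun k => γ k - γ' k) F s = rmkMul γ F s - rmkMul γ' F s := by
  unfold rmkMul
  rw [← sum_sub_distrib]
  refine sum_congr rfl fun S _ => ?_
  rw [sub_mul, sub_smul]

theorem rmkMul_sum {κ : Type*} (J : Finset κ) (c : κ → ℝ) (γ : κ → ℕ → ℝ) (F : (ι → Bool) → E)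
    (s : ι → Bool) :
    rmkMul (fun k => ∑ j ∈ J, c j * γ j k) F s = ∑ j ∈ J, c j • rmkMul (γ j) F s := by
  unfold rmkMul
  simp only [smul_sum, smul_smul, sum_mul, sum_smul]
  rw [sum_comm]
  refine sum_congr rfl fun j _ => sum_congr rfl fun S _ => ?_
  congr 1
  ring

/-- a doubly stochastic kernel contracts the quadratic mean of ANY seminorm -/
theorem rmk_markov_contraction {κ : Type*} [Fintype κ] (N : Seminorm ℝ E) (k : κ → κ → ℝ) (Z : ℝ)
    (hZ : 0 < Z) (hk : ∀ s t, 0 ≤ k s t) (hr : ∀ s, ∑ t, k s t = Z) (hc : ∀ t, ∑ s, k s t = Z)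
    (F : κ → E) :
    ∑ s, N (Z⁻¹ • ∑ t, k s t • F t) ^ 2 ≤ ∑ t, N (F t) ^ 2 := by
  have h1 : ∀ s, N (Z⁻¹ • ∑ t, k s t • F t) ^ 2 ≤ Z⁻¹ * ∑ t, k s t * N (F t) ^ 2 := by
    intro s
    have a1 : N (Z⁻¹ • ∑ t, k s t • F t) ≤ Z⁻¹ * ∑ t, k s t * N (F t) := by
      rw [map_smul_eq_mul, Real.norm_eq_abs, abs_of_pos (inv_pos.2 hZ)]
      refine mul_le_mul_of_nonneg_left ?_ (inv_pos.2 hZ).le
      refine (le_sum_of_subadditive N (map_zero N).le (map_add_le_add N) _ _).trans (le_of_eq ?_)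
      refine sum_congr rfl fun t _ => ?_
      rw [map_smul_eq_mul, Real.norm_eq_abs, abs_of_nonneg (hk s t)]
    have a2 : (∑ t, k s t * N (F t)) ^ 2 ≤ (∑ t, k s t) * ∑ t, k s t * N (F t) ^ 2 := by
      refine sum_sq_le_sum_mul_sum_of_sq_le_mul univ (fun t _ => hk s t)
        (fun t _ => mul_nonneg (hk s t) (sq_nonneg _)) fun t _ => le_of_eq ?_
      ring
    rw [hr s] at a2
    have a3 : 0 ≤ N (Z⁻¹ • ∑ t, k s t • F t) := apply_nonneg N _
    calc N (Z⁻¹ • ∑ t, k s t • F t) ^ 2 ≤ (Z⁻¹ * ∑ t, k s t * N (F t)) ^ 2 :=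
          pow_le_pow_left₀ a3 a1 2
      _ = Z⁻¹ ^ 2 * (∑ t, k s t * N (F t)) ^ 2 := by ring
      _ ≤ Z⁻¹ ^ 2 * (Z * ∑ t, k s t * N (F t) ^ 2) :=
          mul_le_mul_of_nonneg_left a2 (sq_nonneg _)
      _ = Z⁻¹ * ∑ t, k s t * N (F t) ^ 2 := by
          field_simp
  calc ∑ s, N (Z⁻¹ • ∑ t, k s t • F t) ^ 2 ≤ ∑ s, Z⁻¹ * ∑ t, k s t * N (F t) ^ 2 :=
        sum_le_sum fun s _ => h1 s
    _ = Z⁻¹ * ∑ t, (∑ s, k s t) * N (F t) ^ 2 := by
        rw [← mul_sum, sum_comm]
        congr 1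
        refine sum_congr rfl fun t _ => ?_
        rw [sum_mul]
    _ = ∑ t, N (F t) ^ 2 := by
        simp only [hc]
        rw [← mul_sum, ← mul_assoc, inv_mul_cancel₀ hZ.ne', one_mul]

/-- the noise operator contracts the quadratic mean of any seminorm -/
theorem rmk_noise_contraction (N : Seminorm ℝ E) {ε : ℝ} (hε : |ε| ≤ 1) (F : (ι → Bool) → E) :
    ∑ s, N (rmkMul (fun k => ε ^ k) F s) ^ 2 ≤ ∑ t, N (F t) ^ 2 := by
  simp only [rmkMul_pow]
  exact rmk_markov_contraction N (rmkRiesz ε) _ (by positivity) (rmkRiesz_nonneg hε)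
    (rmkRiesz_sum_right ε) (rmkRiesz_sum_left ε) F

end vector

section hilbert

variable {E : Type*} [NormedAddCommGroup E] [InnerProductSpace ℝ E]

/-- orthogonality of Walsh series with vector coefficients -/
theorem rmk_sum_norm_sq_series (g : Finset ι → ℝ) (v : Finset ι → E) :
    ∑ s : ι → Bool, ‖∑ S : Finset ι, (g S * rmkW S s) • v S‖ ^ 2 =
      (2 : ℝ) ^ Fintype.card ι * ∑ S : Finset ι, g S ^ 2 * ‖v S‖ ^ 2 := by
  have h1 : ∀ s : ι → Bool, ‖∑ S : Finset ι, (g S * rmkW S s) • v S‖ ^ 2 =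
      ∑ S : Finset ι, ∑ T : Finset ι,
        (g S * g T * inner ℝ (v S) (v T)) * (rmkW S s * rmkW T s) := by
    intro s
    rw [← real_inner_self_eq_norm_sq, sum_inner]
    refine sum_congr rfl fun S _ => ?_
    rw [inner_sum]
    refine sum_congr rfl fun T _ => ?_
    rw [real_inner_smul_left, real_inner_smul_right]
    ring
  simp only [h1]
  rw [sum_comm]
  simp only [sum_comm (s := (univ : Finset (ι → Bool)))]
  simp only [← mul_sum, rmk_sum_W_mul_W]
  simp only [mul_ite, mul_zero, sum_ite_eq, mem_univ, if_true]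
  rw [mul_sum]
  refine sum_congr rfl fun S _ => ?_
  rw [real_inner_self_eq_norm_sq]
  ring

/-- Parseval -/
theorem rmk_parseval (F : (ι → Bool) → E) :
    (2 : ℝ) ^ Fintype.card ι * ∑ S : Finset ι, ‖rmkHat F S‖ ^ 2 = ∑ t, ‖F t‖ ^ 2 := by
  set Z : ℝ := (2 : ℝ) ^ Fintype.card ι with hZ
  have hZpos : 0 < Z := by positivity
  have h1 : ∀ S : Finset ι, ‖rmkHat F S‖ ^ 2 =
      Z⁻¹ ^ 2 * ∑ t, ∑ u, inner ℝ (F t) (F u) * (rmkW S t * rmkW S u) := by
    intro S
    unfold rmkHat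
    rw [norm_smul, mul_pow, Real.norm_eq_abs, sq_abs, ← real_inner_self_eq_norm_sq, sum_inner]
    congr 1
    refine sum_congr rfl fun t _ => ?_
    rw [inner_sum]
    refine sum_congr rfl fun u _ => ?_
    rw [real_inner_smul_left, real_inner_smul_right]
    ring
  simp only [h1]
  rw [← mul_sum, sum_comm]
  simp only [sum_comm (s := (univ : Finset (Finset ι)))]
  simp only [← mul_sum, rmk_sum_W_mul_W']
  simp only [mul_ite, mul_zero, sum_ite_eq, mem_univ, if_true]
  rw [← sum_mul]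
  simp only [real_inner_self_eq_norm_sq]
  rw [← hZ]
  field_simp

/-- Parseval bound for multiplier operators -/
theorem rmk_sum_norm_sq_mul_le (γ : ℕ → ℝ) (c : ℝ) (hγ : ∀ k, |γ k| ≤ c) (F : (ι → Bool) → E) :
    ∑ s, ‖rmkMul γ F s‖ ^ 2 ≤ c ^ 2 * ∑ t, ‖F t‖ ^ 2 := by
  unfold rmkMul
  rw [rmk_sum_norm_sq_series (fun S => γ S.card) (rmkHat F), ← rmk_parseval F, mul_left_comm]
  refine mul_le_mul_of_nonneg_left ?_ (by positivity)
  rw [mul_sum]
  refine sum_le_sum fun S _ => mul_le_mul_of_nonneg_right ?_ (sq_nonneg _)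
  rw [← sq_abs (γ S.card)]
  exact pow_le_pow_left₀ (abs_nonneg _) (hγ _) 2

end hilbert

end Claimed.Agent.R293
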