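/-
Row 293 (S0541), package LPos, leaf (B): Gaussian K-convexity from Rademacher K-convexity.
Owner: helper250.  Prefix `rmkg`.
-/
import Mathlib
import Claimed.Agent.R293.RM.LPosDefs
import Claimed.Agent.R293.RM.LPosLewis

set_option autoImplicit false

namespace Claimed.Agent.R293

open MeasureTheory ProbabilityTheory Filter Topology
open scoped RealInnerProductSpace ENNReal

section flips

variable {n : ℕ}

/-- The sign flip `x ↦ (σ_i x_i)`. -/
noncomputable def rmkgD (σ : Fin n → Bool) : RmE n ≃ₗᵢ[ℝ] RmE n :=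
  LinearIsometryEquiv.piLpCongrRight 2
    (fun i => if σ i then LinearIsometryEquiv.refl ℝ ℝ else LinearIsometryEquiv.neg ℝ)

theorem rmkgD_apply (σ : Fin n → Bool) (x : RmE n) (i : Fin n) :
    rmkgD σ x i = rmlpSgn (σ i) * x i := by
  unfold rmkgD rmlpSgn
  rw [LinearIsometryEquiv.piLpCongrRight_apply]
  cases h : σ i <;> simp [h]

theorem rmkgD_mp (σ : Fin n → Bool) : MeasurePreserving (rmkgD σ) (rmGauss n) (rmGauss n) :=
  ⟨(rmkgD σ).continuous.measurable, stdGaussian_map (rmkgD σ)⟩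

theorem rmkgD_emb (σ : Fin n → Bool) : MeasurableEmbedding (rmkgD σ) :=
  (rmkgD σ).toHomeomorph.measurableEmbedding

theorem rmkgD_integral {G : Type*} [NormedAddCommGroup G] [NormedSpace ℝ G]
    (σ : Fin n → Bool) (f : RmE n → G) :
    ∫ x, f (rmkgD σ x) ∂(rmGauss n) = ∫ x, f x ∂(rmGauss n) :=
  (rmkgD_mp σ).integral_comp (rmkgD_emb σ) f

theorem rmkgD_inner (σ τ : Fin n → Bool) (g x : RmE n) :
    ⟪rmkgD σ g, rmkgD τ x⟫ = ∑ i, rmlpSgn (σ i) * (rmlpSgn (τ i) * (x i * g i)) := by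
  rw [PiLp.inner_apply]
  refine Finset.sum_congr rfl fun i _ => ?_
  rw [rmkgD_apply, rmkgD_apply]
  simp
  ring

theorem rmkg_abs_le (x : RmE n) (i : Fin n) : |x i| ≤ rmlpMaxAbs x := by
  have := norm_le_pi_norm (x.ofLp : Fin n → ℝ) i
  simpa [rmlpMaxAbs] using this

theorem rmkg_maxAbs_nonneg (x : RmE n) : 0 ≤ rmlpMaxAbs x := norm_nonneg _

end flips

section main

variable {n : ℕ}

theorem rmkg_integrable (F : RmE n → RmE n) (hF : Measurable F) (b : ℝ) (hb : ∀ g, ‖F g‖ ≤ b)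
    (y : RmE n) : Integrable (fun g => ⟪g, y⟫ • F g) (rmGauss n) := by
  have h1 : Integrable (fun g : RmE n => ‖g‖ * ‖y‖ * b) (rmGauss n) :=
    ((IsGaussian.integrable_id (μ := rmGauss n)).norm.mul_const _).mul_const _
  have hm : Measurable (fun g : RmE n => ⟪g, y⟫ • F g) := by fun_prop
  refine h1.mono' hm.aestronglyMeasurable (Eventually.of_forall fun g => ?_)
  rw [norm_smul]
  have h2 := norm_inner_le_norm (𝕜 := ℝ) g y
  have hb0 : 0 ≤ b := (norm_nonneg _).trans (hb 0)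
  calc ‖⟪g, y⟫‖ * ‖F g‖ ≤ (‖g‖ * ‖y‖) * b := by
        gcongr
        exact hb g

/-- The kernel averaged over sign flips. -/
noncomputable def rmkgH (F : RmE n → RmE n) (y g : RmE n) : RmE n :=
  ((2 : ℝ) ^ n)⁻¹ • ∑ σ : Fin n → Bool, ⟪rmkgD σ g, y⟫ • F (rmkgD σ g)

theorem rmkgH_term_integrable (F : RmE n → RmE n) (hF : Measurable F) (b : ℝ)
    (hb : ∀ g, ‖F g‖ ≤ b) (y : RmE n) (σ : Fin n → Bool) :
    Integrable (fun g => ⟪rmkgD σ g, y⟫ • F (rmkgD σ g)) (rmGauss n) :=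
  (rmkgD_mp σ).integrable_comp_of_integrable (rmkg_integrable F hF b hb y)

theorem rmkgH_integrable (F : RmE n → RmE n) (hF : Measurable F) (b : ℝ)
    (hb : ∀ g, ‖F g‖ ≤ b) (y : RmE n) : Integrable (rmkgH F y) (rmGauss n) := by
  unfold rmkgH
  exact (integrable_finsetSum _ fun σ _ => rmkgH_term_integrable F hF b hb y σ).smul
    (((2 : ℝ) ^ n)⁻¹)

theorem rmkg_TF_eq (F : RmE n → RmE n) (hF : Measurable F) (b : ℝ) (hb : ∀ g, ‖F g‖ ≤ b)
    (y : RmE n) : rmlpTF F y = ∫ g, rmkgH F y g ∂(rmGauss n) := by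
  unfold rmkgH
  rw [integral_smul, integral_finsetSum _ fun σ _ => rmkgH_term_integrable F hF b hb y σ]
  have h1 : ∀ σ : Fin n → Bool, ∫ g, ⟪rmkgD σ g, y⟫ • F (rmkgD σ g) ∂(rmGauss n) = rmlpTF F y :=
    fun σ => rmkgD_integral σ (fun g => ⟪g, y⟫ • F g)
  simp_rw [h1]
  rw [Finset.sum_const, Finset.card_univ, Fintype.card_fun, Fintype.card_bool, Fintype.card_fin,
    ← Nat.cast_smul_eq_nsmul ℝ, smul_smul]
  simp

theorem rmkgH_eq (F : RmE n → RmE n) (x g : RmE n) (τ : Fin n → Bool) :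
    rmkgH F (rmkgD τ x) g
      = ∑ i, (rmlpSgn (τ i) * (x i * g i)) • rmlpW1 (fun σ => F (rmkgD σ g)) i := by
  unfold rmkgH rmlpW1
  simp_rw [rmkgD_inner, Finset.sum_smul, Finset.smul_sum, smul_smul]
  rw [Finset.sum_comm]
  refine Finset.sum_congr rfl fun i _ => Finset.sum_congr rfl fun σ _ => ?_
  congr 1
  ring

theorem rmkg_pointwise (h1 : RmlpKradStmt) (h2 : RmlpContractionStmt) {m : ℕ} (hm : 1 ≤ m)
    (N : Seminorm ℝ (RmE n)) (hlo : ∀ x, ‖x‖ ≤ N x) (hhi : ∀ x, N x ≤ 2 ^ m * ‖x‖)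
    (F : RmE n → RmE n) (b : ℝ) (hb : ∀ g, N (F g) ≤ b) (x g : RmE n) :
    ∑ τ : Fin n → Bool, N (rmkgH F (rmkgD τ x) g) ^ 2
      ≤ (rmlpMaxAbs x * rmlpMaxAbs g) ^ 2 * ((3 * (m : ℝ) * (m + 1)) ^ 2 * (2 ^ n * b ^ 2)) := by
  simp_rw [rmkgH_eq]
  have hc : ∀ i, |x i * g i| ≤ rmlpMaxAbs x * rmlpMaxAbs g := fun i => by
    rw [abs_mul]
    exact mul_le_mul (rmkg_abs_le x i) (rmkg_abs_le g i) (abs_nonneg _) (rmkg_maxAbs_nonneg x)
  refine (h2 n n N (fun i => x i * g i) _ (rmlpW1 (fun σ => F (rmkgD σ g))) hc).trans ?_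
  refine mul_le_mul_of_nonneg_left ?_ (by positivity)
  have h3 := h1 n n m hm N hlo hhi (fun σ => F (rmkgD σ g))
  unfold rmlpRad at h3
  refine h3.trans ?_
  refine mul_le_mul_of_nonneg_left ?_ (by positivity)
  have h4 : ∀ σ : Fin n → Bool, N (F (rmkgD σ g)) ^ 2 ≤ b ^ 2 := fun σ =>
    pow_le_pow_left₀ (apply_nonneg N _) (hb _) 2
  calc ∑ σ : Fin n → Bool, N (F (rmkgD σ g)) ^ 2 ≤ ∑ _σ : Fin n → Bool, b ^ 2 :=
        Finset.sum_le_sum fun σ _ => h4 σ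
    _ = 2 ^ n * b ^ 2 := by
        rw [Finset.sum_const, Finset.card_univ, Fintype.card_fun, Fintype.card_bool,
          Fintype.card_fin]
        simp

theorem rmkg_jensen (N : Seminorm ℝ (RmE n)) (h : RmE n → RmE n)
    (hi : Integrable h (rmGauss n)) (hi2 : Integrable (fun g => N (h g) ^ 2) (rmGauss n)) :
    N (∫ g, h g ∂(rmGauss n)) ^ 2 ≤ ∫ g, N (h g) ^ 2 ∂(rmGauss n) := by
  have hconv : ConvexOn ℝ Set.univ ((fun v => N v) ^ 2) :=
    (N.convexOn).pow (fun v _ => apply_nonneg N v) 2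
  have hcont : Continuous ((fun v => N v) ^ 2 : RmE n → ℝ) := (rmlw_continuous N).pow 2
  have := hconv.map_integral_le (μ := rmGauss n) (f := h) hcont.continuousOn isClosed_univ
    (Eventually.of_forall fun _ => Set.mem_univ _) hi hi2
  simpa using this

theorem rmkg_fixed (h1 : RmlpKradStmt) (h2 : RmlpContractionStmt) {m : ℕ} (hm : 1 ≤ m)
    (N : Seminorm ℝ (RmE n)) (hlo : ∀ x, ‖x‖ ≤ N x) (hhi : ∀ x, N x ≤ 2 ^ m * ‖x‖)
    (F : RmE n → RmE n) (hF : Measurable F) (b : ℝ) (hb : ∀ g, N (F g) ≤ b)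
    (hint : Integrable (fun x : RmE n => rmlpMaxAbs x ^ 2) (rmGauss n)) (x : RmE n) :
    ∑ τ : Fin n → Bool, N (rmlpTF F (rmkgD τ x)) ^ 2
      ≤ rmlpMaxAbs x ^ 2 * ((3 * (m : ℝ) * (m + 1)) ^ 2 * (2 ^ n * b ^ 2))
        * ∫ g, rmlpMaxAbs g ^ 2 ∂(rmGauss n) := by
  set C : ℝ := (3 * (m : ℝ) * (m + 1)) ^ 2 * (2 ^ n * b ^ 2) with hC
  have hb' : ∀ g, ‖F g‖ ≤ b := fun g => (hlo _).trans (hb g)
  have hpt := rmkg_pointwise h1 h2 hm N hlo hhi F b hb x
  rw [← hC] at hpt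
  have hdom : Integrable (fun g => (rmlpMaxAbs x * rmlpMaxAbs g) ^ 2 * C) (rmGauss n) := by
    have := (hint.const_mul (rmlpMaxAbs x ^ 2)).mul_const C
    refine this.congr (Eventually.of_forall fun g => ?_)
    simp only
    ring
  have hi2 : ∀ τ : Fin n → Bool,
      Integrable (fun g => N (rmkgH F (rmkgD τ x) g) ^ 2) (rmGauss n) := by
    intro τ
    refine hdom.mono' ?_ (Eventually.of_forall fun g => ?_)
    · exact ((rmlw_continuous N).comp_aestronglyMeasurable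
        (rmkgH_integrable F hF b hb' _).aestronglyMeasurable).pow 2
    · rw [Real.norm_of_nonneg (by positivity)]
      refine le_trans ?_ (hpt g)
      exact Finset.single_le_sum (f := fun τ => N (rmkgH F (rmkgD τ x) g) ^ 2)
        (fun τ _ => sq_nonneg _) (Finset.mem_univ τ)
  calc ∑ τ : Fin n → Bool, N (rmlpTF F (rmkgD τ x)) ^ 2
      = ∑ τ : Fin n → Bool, N (∫ g, rmkgH F (rmkgD τ x) g ∂(rmGauss n)) ^ 2 := by
        simp_rw [rmkg_TF_eq F hF b hb']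
    _ ≤ ∑ τ : Fin n → Bool, ∫ g, N (rmkgH F (rmkgD τ x) g) ^ 2 ∂(rmGauss n) :=
        Finset.sum_le_sum fun τ _ => rmkg_jensen N _ (rmkgH_integrable F hF b hb' _) (hi2 τ)
    _ = ∫ g, ∑ τ : Fin n → Bool, N (rmkgH F (rmkgD τ x) g) ^ 2 ∂(rmGauss n) :=
        (integral_finsetSum _ fun τ _ => hi2 τ).symm
    _ ≤ ∫ g, (rmlpMaxAbs x * rmlpMaxAbs g) ^ 2 * C ∂(rmGauss n) :=
        integral_mono (integrable_finsetSum _ fun τ _ => hi2 τ) hdom hpt
    _ = rmlpMaxAbs x ^ 2 * C * ∫ g, rmlpMaxAbs g ^ 2 ∂(rmGauss n) := by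
        rw [← integral_const_mul]
        refine integral_congr_ae (Eventually.of_forall fun g => ?_)
        simp only
        ring

theorem rmkg_TF_measurable (F : RmE n → RmE n) (hF : Measurable F) :
    StronglyMeasurable (rmlpTF F) := by
  have h1 : Measurable (fun p : RmE n × RmE n => ⟪p.2, p.1⟫ • F p.2) := by fun_prop
  exact h1.stronglyMeasurable.integral_prod_right'

end main

/-- **Gaussian K-convexity** from Rademacher K-convexity. -/
theorem rmlp_kgauss (h1 : RmlpKradStmt) (h2 : RmlpContractionStmt) (h3 : RmlpMaxSqStmt) :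
    RmlpKgaussStmt := by
  intro n m hn hm N hlo hhi F b hF hb
  obtain ⟨hint, hL⟩ := h3 n hn
  set L : ℝ := ∫ x, rmlpMaxAbs x ^ 2 ∂(rmGauss n) with hLdef
  set K : ℝ := 3 * (m : ℝ) * (m + 1) with hK
  have hL0 : 0 ≤ L := integral_nonneg fun x => by positivity
  have hfix := rmkg_fixed h1 h2 hm N hlo hhi F hF b hb hint
  rw [← hK, ← hLdef] at hfix
  have hAm : AEStronglyMeasurable (fun x => N (rmlpTF F x) ^ 2) (rmGauss n) :=
    ((rmlw_continuous N).comp_aestronglyMeasurable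
      (rmkg_TF_measurable F hF).aestronglyMeasurable).pow 2
  have hdom : Integrable (fun x : RmE n => rmlpMaxAbs x ^ 2 * (K ^ 2 * (2 ^ n * b ^ 2)) * L)
      (rmGauss n) := (hint.mul_const _).mul_const _
  have hAi : ∀ τ : Fin n → Bool,
      Integrable (fun x => N (rmlpTF F (rmkgD τ x)) ^ 2) (rmGauss n) := by
    intro τ
    refine hdom.mono' ?_ (Eventually.of_forall fun x => ?_)
    · exact hAm.comp_measurePreserving (rmkgD_mp τ)
    · rw [Real.norm_of_nonneg (by positivity)]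
      refine le_trans ?_ (hfix x)
      exact Finset.single_le_sum (f := fun τ => N (rmlpTF F (rmkgD τ x)) ^ 2)
        (fun τ _ => sq_nonneg _) (Finset.mem_univ τ)
  have hsum : (2 : ℝ) ^ n * ∫ x, N (rmlpTF F x) ^ 2 ∂(rmGauss n)
      = ∫ x, ∑ τ : Fin n → Bool, N (rmlpTF F (rmkgD τ x)) ^ 2 ∂(rmGauss n) := by
    rw [integral_finsetSum _ fun τ _ => hAi τ]
    have : ∀ τ : Fin n → Bool, ∫ x, N (rmlpTF F (rmkgD τ x)) ^ 2 ∂(rmGauss n)
        = ∫ x, N (rmlpTF F x) ^ 2 ∂(rmGauss n) :=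
      fun τ => rmkgD_integral τ (fun x => N (rmlpTF F x) ^ 2)
    simp_rw [this]
    rw [Finset.sum_const, Finset.card_univ, Fintype.card_fun, Fintype.card_bool,
      Fintype.card_fin]
    simp
  have hle : (2 : ℝ) ^ n * ∫ x, N (rmlpTF F x) ^ 2 ∂(rmGauss n)
      ≤ L * (K ^ 2 * (2 ^ n * b ^ 2)) * L := by
    rw [hsum]
    refine (integral_mono (integrable_finsetSum _ fun τ _ => hAi τ) hdom hfix).trans ?_
    rw [integral_mul_const, integral_mul_const]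
  have h2n : (0 : ℝ) < 2 ^ n := by positivity
  have hfin : ∫ x, N (rmlpTF F x) ^ 2 ∂(rmGauss n) ≤ K ^ 2 * b ^ 2 * L ^ 2 := by
    have : (2 : ℝ) ^ n * ∫ x, N (rmlpTF F x) ^ 2 ∂(rmGauss n)
        ≤ 2 ^ n * (K ^ 2 * b ^ 2 * L ^ 2) := by
      refine hle.trans (le_of_eq ?_)
      ring
    exact le_of_mul_le_mul_left this h2n
  refine hfin.trans ?_
  have hLL : L ^ 2 ≤ (4 * Real.log (2 * n)) ^ 2 := pow_le_pow_left₀ hL0 hL 2
  calc K ^ 2 * b ^ 2 * L ^ 2 ≤ K ^ 2 * b ^ 2 * (4 * Real.log (2 * n)) ^ 2 := by gcongr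
    _ = (K * (4 * Real.log (2 * n)) * b) ^ 2 := by ring

end Claimed.Agent.R293
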